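import Vale.Agent.P144.U.AL.Inst

/-!
The spinor with the source at the corner `(v, v)`, disorders `R`, and its masses.
-/

namespace Vale.Agent.P144.AL

open Finset Vale.Agent.P144

/-- The normalisation of the spinor with the source at `(v, v)`. -/
noncomputable def zj (Λ : Finset Site) (R : Multiset Site) (v : Site) : ℝ := QQ Λ (v ::ₘ R) 0

theorem zj_pos (Λ : Finset Site) (R : Multiset Site) (v : Site) : 0 < zj Λ R v := QQ_pos _ _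

theorem sq21 : (√2 + 1) ^ 2 ≤ (6:ℝ) := by
  have h2 := sqrt2_sq
  have : √2 ≤ 3 / 2 := by
    rw [Real.sqrt_le_left (by norm_num)]; norm_num
  nlinarith

variable (Λ : Finset Site) (R : Multiset Site) (v : Site)

theorem xA_self (hv : v ∈ Λ) : xA Λ R {v} (zj Λ R v) v = 1 := by
  unfold xA
  rw [if_pos hv]
  have : (v ::ₘ ({v} : Multiset Site)) = v ::ₘ v ::ₘ 0 := rfl
  rw [this, QQ_spin_pair]
  exact div_self (zj_pos Λ R v).ne'

theorem xB_self (hv : v ∈ Λ) : xB Λ R {v} (zj Λ R v) (v.1 - 1, v.2) =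
    QQ Λ ((v.1 - 1, v.2) ::ₘ R) 0 / zj Λ R v := by
  unfold xB
  simp only [sub_add_cancel]
  rw [if_pos hv]
  have : (v ::ₘ ({v} : Multiset Site)) = v ::ₘ v ::ₘ 0 := rfl
  rw [show ((v.1, v.2) : Site) = v from rfl, this, QQ_spin_pair]

theorem xC_self (hv : v ∈ Λ) : xC Λ R {v} (zj Λ R v) (v.1, v.2 - 1) =
    QQ Λ ((v.1, v.2 - 1) ::ₘ R) 0 / zj Λ R v := by
  unfold xC
  simp only [sub_add_cancel]
  rw [if_pos hv]
  have : (v ::ₘ ({v} : Multiset Site)) = v ::ₘ v ::ₘ 0 := rfl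
  rw [show ((v.1, v.2) : Site) = v from rfl, this, QQ_spin_pair]

theorem xD_self (hv : v ∈ Λ) : xD Λ R {v} (zj Λ R v) (v.1 - 1, v.2 - 1) =
    QQ Λ ((v.1 - 1, v.2 - 1) ::ₘ R) 0 / zj Λ R v := by
  unfold xD
  simp only [sub_add_cancel]
  rw [if_pos hv]
  have : (v ::ₘ ({v} : Multiset Site)) = v ::ₘ v ::ₘ 0 := rfl
  rw [show ((v.1, v.2) : Site) = v from rfl, this, QQ_spin_pair]

theorem ratio_left : QQ Λ ((v.1 - 1, v.2) ::ₘ R) 0 ≤ (√2 + 1) * zj Λ R v ∧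
    zj Λ R v ≤ (√2 + 1) * QQ Λ ((v.1 - 1, v.2) ::ₘ R) 0 := by
  have := QQ_moveH Λ R (v.1 - 1) v.2
  rwa [sub_add_cancel] at this

theorem ratio_down : QQ Λ ((v.1, v.2 - 1) ::ₘ R) 0 ≤ (√2 + 1) * zj Λ R v ∧
    zj Λ R v ≤ (√2 + 1) * QQ Λ ((v.1, v.2 - 1) ::ₘ R) 0 := by
  have := QQ_moveV Λ R v.1 (v.2 - 1)
  rwa [sub_add_cancel] at this

theorem ratio_diag : QQ Λ ((v.1 - 1, v.2 - 1) ::ₘ R) 0 ≤ 6 * zj Λ R v ∧
    zj Λ R v ≤ 6 * QQ Λ ((v.1 - 1, v.2 - 1) ::ₘ R) 0 := by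
  have h1 := QQ_moveV Λ R (v.1 - 1) (v.2 - 1)
  rw [sub_add_cancel] at h1
  have h2 := ratio_left Λ R v
  have h0 : (0:ℝ) ≤ √2 + 1 := by positivity
  have h6 := sq21
  have p1 := QQ_pos Λ ((v.1 - 1, v.2 - 1) ::ₘ R)
  have p2 := zj_pos Λ R v
  constructor
  · calc _ ≤ (√2 + 1) * ((√2 + 1) * zj Λ R v) := h1.1.trans (mul_le_mul_of_nonneg_left h2.1 h0)
      _ = (√2 + 1) ^ 2 * zj Λ R v := by ring
      _ ≤ _ := mul_le_mul_of_nonneg_right h6 p2.le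
  · calc _ ≤ (√2 + 1) * ((√2 + 1) * QQ Λ ((v.1 - 1, v.2 - 1) ::ₘ R) 0) :=
          h2.2.trans (mul_le_mul_of_nonneg_left h1.2 h0)
      _ = (√2 + 1) ^ 2 * QQ Λ ((v.1 - 1, v.2 - 1) ::ₘ R) 0 := by ring
      _ ≤ _ := mul_le_mul_of_nonneg_right h6 p1.le

theorem sqS_Xj (hv : v ∈ Λ) : sqS (xA Λ R {v} (zj Λ R v)) (xB Λ R {v} (zj Λ R v))
    (xC Λ R {v} (zj Λ R v)) (xD Λ R {v} (zj Λ R v)) v ≤ 49 := by
  unfold sqS
  rw [xA_self Λ R v hv, xB_self Λ R v hv, xC_self Λ R v hv, xD_self Λ R v hv]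
  have hz := zj_pos Λ R v
  have b1 : (QQ Λ ((v.1 - 1, v.2) ::ₘ R) 0 / zj Λ R v) ^ 2 ≤ 6 := by
    refine le_trans ?_ sq21
    have p := (QQ_pos Λ ((v.1 - 1, v.2) ::ₘ R)).le
    exact pow_le_pow_left₀ (div_nonneg p hz.le) ((div_le_iff₀ hz).2 (ratio_left Λ R v).1) 2
  have b2 : (QQ Λ ((v.1, v.2 - 1) ::ₘ R) 0 / zj Λ R v) ^ 2 ≤ 6 := by
    refine le_trans ?_ sq21
    have p := (QQ_pos Λ ((v.1, v.2 - 1) ::ₘ R)).le
    exact pow_le_pow_left₀ (div_nonneg p hz.le) ((div_le_iff₀ hz).2 (ratio_down Λ R v).1) 2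
  have b3 : (QQ Λ ((v.1 - 1, v.2 - 1) ::ₘ R) 0 / zj Λ R v) ^ 2 ≤ 36 := by
    have p := (QQ_pos Λ ((v.1 - 1, v.2 - 1) ::ₘ R)).le
    have := pow_le_pow_left₀ (div_nonneg p hz.le) ((div_le_iff₀ hz).2 (ratio_diag Λ R v).1) 2
    norm_num at this
    exact this
  linarith

/-- The masses of the `H`-function of the spinor with the source at `(v, v)`. -/
theorem Xj_mass {N : ℕ} {R : Multiset Site} {v : Site} (hR : R.Nodup)
    (hv : |v.1| + |v.2| + 1 ≤ (N : ℤ)) (hr : ∀ r ∈ R, |r.1| + |r.2| + 4 ≤ (N : ℤ))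
    (hc : ∀ r ∈ R, v ∉ cnr r) :
    ∃ Hs Hf : Site → ℝ, IsH (dia N) (xA (dia N) R {v} (zj (dia N) R v))
      (xB (dia N) R {v} (zj (dia N) R v)) (xC (dia N) R {v} (zj (dia N) R v))
      (xD (dia N) R {v} (zj (dia N) R v)) Hs Hf ∧
      (∀ w, w ≠ v → 0 ≤ lap Hs w) ∧
      ∀ T : Finset Site, ∑ w ∈ T, |lap Hs w| + ∑ w ∈ T, |lap Hf w| ≤ 5586 := by
  classical
  have hvd : v ∈ dia N := by rw [mem_dia]; lia
  have h := spr_QQ (Λ := dia N) R (A := {v}) (by simpa using hvd) (zj (dia N) R v)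
  obtain ⟨Hs, Hf, hH⟩ := h.exists_H (colConvex_dia N)
  have hE : Exc N (tauR R) (theA {v}) {v} R.toFinset R.toFinset := by
    refine ⟨fun i j hij => theA_step (by simpa using hij), fun i j hij => tauR_step (by simpa using hij),
      fun w hw => ?_, fun w hw => hr w (by simpa using hw), subset_rfl, fun f hf => ?_,
      fun f hf w hw hw' => ?_⟩
    · rw [mem_singleton] at hw; subst hw; exact hv
    · exact tauR_branch hR (i := f.1) (j := f.2) (by simpa using hf)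
    · rw [mem_singleton] at hw'; subst hw'; exact hc f (by simpa using hf) hw
  refine ⟨Hs, Hf, hH, fun w hw => h.lap_nn hH hE (by simpa using hw), fun T => ?_⟩
  have h1 := h.mass_s hH hE T
  have h2 := h.mass_f hH hE T
  rw [sum_singleton] at h1 h2
  rw [Finset.sdiff_self, sum_empty] at h2
  have h3 := sqS_Xj (dia N) R v hvd
  linarith

end Vale.Agent.P144.AL
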