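import Vale.Agent.P144.U.AL.Cor
import Vale.Agent.P144.H170.Lim

/-!
The limits of the kernels which are needed for the mixed correlations.
-/

namespace Vale.Agent.P144.AL

open Finset Vale.Agent.P144 Filter Topology H436

section

variable (p : Pts) (a : ℝ)

/-- The corner of a label. -/
noncomputable def cnp (x : Lb p.n p.m) : Cn :=
  cn (nn a) (fun i => fl a (p.x i)) (fun k => fl a (p.y k)) p.j x

/-- The disorders. -/
noncomputable def Rp : Multiset Site := fcs (srcs fun i => fl a (p.x i))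

/-- The kernel of the fermions. -/
noncomputable def Kn (x y : Lb p.n p.m) : ℝ := Wf (dia (nn a)) (Rp p a) [cnp p a x, cnp p a y]

/-- The position of a label. -/
noncomputable def wpos : Lb p.n p.m → ℂ
  | .src i => H170.pos a (fl a (p.x i)) (1 / 4) (1 / 4)
  | .lo k => H170.pos a (fl a (p.y k)) (1 / 4) (1 / 4)
  | .hi k => if p.j k = 0 then H170.pos a (fl a (p.y k)) (3 / 4) (1 / 4)
      else H170.pos a (fl a (p.y k)) (1 / 4) (3 / 4)
  | .tp _ => 0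

/-- The product of the square roots at a label. -/
noncomputable def rho (x : Lb p.n p.m) : ℂ :=
  ∏ i, H170.rtu (wpos p a x - H170.cF a (fl a (p.x i)))

/-- The sign of the energy `k` relative to the sources. -/
noncomputable def sgn (k : Fin p.m) : ℝ :=
  ((srcs fun i => fl a (p.x i)).map fun z => ep (cnp p a (.lo k)) z * ep (cnp p a (.hi k)) z).prod

/-- The limits of the kernels. -/
structure KP : Prop where
  /-- two sources -/
  k1 : ∀ i i' : Fin p.n, i ≠ i' → ∃ c : ℂ, Tendsto (fun a : ℝ =>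
    rho p a (.src i) * rho p a (.src i') * (Kn p a (.src i) (.src i') : ℂ) / a) (𝓝[>] 0) (𝓝 c)
  /-- an energy and a source -/
  k2 : ∀ (k : Fin p.m) (i : Fin p.n),
    (∃ c : ℂ, Tendsto (fun a : ℝ =>
      rho p a (.lo k) * rho p a (.src i) * (Kn p a (.lo k) (.src i) : ℂ) / a) (𝓝[>] 0) (𝓝 c)) ∧
    (∃ c : ℂ, Tendsto (fun a : ℝ =>
      rho p a (.hi k) * rho p a (.src i) * (Kn p a (.hi k) (.src i) : ℂ) / a) (𝓝[>] 0) (𝓝 c))
  /-- two energies -/
  k3 : ∀ k l : Fin p.m, k ≠ l → ∀ x y : Lb p.n p.m, (x = .lo k ∨ x = .hi k) →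
    (y = .lo l ∨ y = .hi l) → ∃ c : ℂ, Tendsto (fun a : ℝ =>
      rho p a x * rho p a y * (Kn p a x y : ℂ) / a) (𝓝[>] 0) (𝓝 c)
  /-- the two corners of an energy -/
  k4 : ∀ k : Fin p.m, ∃ c : ℂ, Tendsto (fun a : ℝ =>
    rho p a (.lo k) * rho p a (.hi k) * ((Kn p a (.lo k) (.hi k) -
      sgn p a k * Wf (dia (nn a)) 0 [cnp p a (.lo k), cnp p a (.hi k)] : ℝ) : ℂ) / a)
      (𝓝[>] 0) (𝓝 c)
  /-- tips -/
  k5 : ∀ c : Fin 4,
    (∀ i, Tendsto (fun a : ℝ => Kn p a (.tp c) (.src i)) (𝓝[>] 0) (𝓝 0)) ∧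
    (∀ k, Tendsto (fun a : ℝ => Kn p a (.tp c) (.lo k) / √a) (𝓝[>] 0) (𝓝 0)) ∧
    (∀ k, Tendsto (fun a : ℝ => Kn p a (.tp c) (.hi k) / √a) (𝓝[>] 0) (𝓝 0)) ∧
    ∀ d, d ≠ c → Tendsto (fun a : ℝ => Kn p a (.tp c) (.tp d)) (𝓝[>] 0) (𝓝 0)

end

end Vale.Agent.P144.AL
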