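import Vale.Agent.P144.U.AL.Lims
import Vale.Agent.P144.H436.Norm4

/-!
The limits of the mixed correlations with spins at the tips, from the limits of the kernels.
-/

namespace Vale.Agent.P144.AL

open Finset Vale.Agent.P144 Filter Topology H436

/-! ### Complex Pfaffians -/

theorem Pf_ofReal {α : Type*} (K : α → α → ℝ) (l : List α) :
    ((Pf K l : ℝ) : ℂ) = Pf (fun x y => (K x y : ℂ)) l := by
  induction hn : l.length using Nat.strong_induction_on generalizing l with
  | _ n ih =>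
    cases l with
    | nil => rw [Pf, Pf]; simp
    | cons c l =>
      rw [Pf, Pf]
      push_cast
      refine sum_congr rfl fun j _ => ?_
      rw [ih (l.eraseIdx j).length ?_ _ rfl]
      have := j.2
      rw [← hn, List.length_eraseIdx, if_pos j.2, List.length_cons]; omega

theorem Pf_tendstoC {α ι : Type*} {F : Filter ι} (K : ι → α → α → ℂ) (L : α → α → ℂ) (l : List α)
    (h : ∀ x y, [x, y].Sublist l → Tendsto (fun i => K i x y) F (𝓝 (L x y))) :
    Tendsto (fun i => Pf (K i) l) F (𝓝 (Pf L l)) := by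
  induction hn : l.length using Nat.strong_induction_on generalizing l with
  | _ n ih =>
    cases l with
    | nil =>
      simp only [Pf]
      exact tendsto_const_nhds
    | cons c l =>
      simp only [Pf]
      refine tendsto_finsetSum _ fun j _ => ?_
      refine Tendsto.mul (Tendsto.const_mul _ ?_) ?_
      · refine h _ _ ?_
        exact (List.cons_sublist_cons).2 (List.singleton_sublist.2 (List.getElem_mem j.2))
      · refine ih (l.eraseIdx j).length ?_ _ (fun x y hxy => h x y ?_) rfl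
        · have := j.2
          rw [← hn, List.length_eraseIdx, if_pos j.2, List.length_cons]; omega
        · exact (hxy.trans (List.eraseIdx_sublist l j)).trans (List.sublist_cons_self c l)

theorem Pf_null {α : Type*} (K : α → α → ℂ) (l : List α) {c : α} (hc : c ∈ l)
    (h : ∀ y, K c y = 0 ∧ K y c = 0) : Pf K l = 0 := by
  induction hn : l.length using Nat.strong_induction_on generalizing l with
  | _ n ih =>
    cases l with
    | nil => simp at hc
    | cons d l =>
      rw [Pf]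
      refine sum_eq_zero fun j _ => ?_
      by_cases hd : d = c
      · rw [hd, (h _).1]; ring
      · have hcl : c ∈ l := by
          rcases List.mem_cons.1 hc with h | h
          · exact absurd h.symm hd
          · exact h
        by_cases hj : l[j] = c
        · rw [hj, (h _).2]; ring
        · have hm : c ∈ l.eraseIdx j := by
            rw [List.mem_eraseIdx_iff_getElem]
            obtain ⟨i, hi, hic⟩ := List.mem_iff_getElem.1 hcl
            refine ⟨i, hi, ?_, hic⟩
            intro hij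
            apply hj
            rw [← hic]
            show l[(j : ℕ)] = l[i]
            congr 1
            exact hij.symm
          rw [ih (l.eraseIdx j).length (by
            have := j.2
            rw [← hn, List.length_eraseIdx, if_pos j.2, List.length_cons]; omega) _ hm rfl]
          ring

theorem nodup_order {α : Type*} {l : List α} (hl : l.Nodup) {x y : α} (h1 : [x, y].Sublist l)
    (h2 : [y, x].Sublist l) : False := by
  induction l with
  | nil => cases h1
  | cons c l ih =>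
    have hl' := List.nodup_cons.1 hl
    have hne : x ≠ y := by
      rintro rfl
      have := hl.sublist h1
      simp at this
    rcases List.sublist_cons_iff.1 h1 with h1' | ⟨r, hr, h1'⟩
    · rcases List.sublist_cons_iff.1 h2 with h2' | ⟨r', hr', h2'⟩
      · exact ih hl'.2 h1' h2'
      · have e : y = c := (List.cons.inj hr').1
        rw [← e] at hl'
        exact hl'.1 (h1'.subset (by simp))
    · have e : x = c := (List.cons.inj hr).1
      rcases List.sublist_cons_iff.1 h2 with h2' | ⟨r', hr', h2'⟩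
      · rw [← e] at hl'
        exact hl'.1 (h2'.subset (by simp))
      · have e' : y = c := (List.cons.inj hr').1
        exact hne (e.trans e'.symm)

/-! ### Roots -/

theorem rtu_smul {r : ℝ} (hr : 0 < r) {z : ℂ} (hz : z ≠ 0) :
    H170.rtu (r * z) = (√r : ℂ) * H170.rtu z := by
  have hIz : Complex.I * z ≠ 0 := mul_ne_zero Complex.I_ne_zero hz
  have hr0 : (r : ℂ) ≠ 0 := by exact_mod_cast hr.ne'
  unfold H170.rtu
  rw [show Complex.I * (r * z) = (r : ℂ) * (Complex.I * z) by ring,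
    Complex.cpow_def_of_ne_zero (mul_ne_zero hr0 hIz), Complex.cpow_def_of_ne_zero hIz,
    Complex.log_ofReal_mul hr hIz, add_mul, Complex.exp_add]
  have e : Complex.exp ((Real.log r : ℂ) * (1 / 2)) = (√r : ℂ) := by
    rw [show (Real.log r : ℂ) * (1 / 2) = ((Real.log r / 2 : ℝ) : ℂ) by push_cast; ring,
      ← Complex.ofReal_exp]
    congr 1
    rw [Real.exp_half, Real.exp_log hr]
  rw [e]; ring

/-! ### Antisymmetry -/

theorem Wf_swap (Λ : Finset Site) (R : Multiset Site) {c c' : Cn} (hc : c.1 ∈ cnr c.2)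
    (hc' : c'.1 ∈ cnr c'.2) (hne : c ≠ c') : Wf Λ R [c, c'] = -Wf Λ R [c', c] := by
  unfold Wf
  have e1 : fcs [c, c'] = fcs [c', c] := by
    show c.2 ::ₘ c'.2 ::ₘ 0 = c'.2 ::ₘ c.2 ::ₘ 0
    exact Multiset.cons_swap _ _ _
  have e2 : sps [c, c'] = sps [c', c] := by
    show c.1 ::ₘ c'.1 ::ₘ 0 = c'.1 ::ₘ c.1 ::ₘ 0
    exact Multiset.cons_swap _ _ _
  rw [e1, e2]
  simp only [el, List.map_cons, List.map_nil, List.prod_cons, List.prod_nil, mul_one]
  have h3 := ep_anti hc hc' hne
  have h4 := ep_sq c' c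
  have h5 : ep c c' = -ep c' c := by linear_combination (-ep c c') * h4 + ep c' c * h3
  rw [h5]; ring

/-! ### Points -/

theorem flt (z : ℂ) : Tendsto (fun a : ℝ => H170.pt a (fl a z)) (𝓝[>] 0) (𝓝 z) :=
  H170.pt_fl_tendsto (a := fun a : ℝ => a) tendsto_id z

/-- The mesh tends to `0`. -/
theorem idt : Tendsto (fun a : ℝ => a) (𝓝[>] 0) (𝓝[>] 0) := tendsto_id

theorem nn_lim : Tendsto (fun a : ℝ => a * ((nn a : ℝ) + 1)) (𝓝[>] 0) (𝓝 1) := by
  have h1 : Tendsto (fun a : ℝ => 1 + a) (𝓝[>] 0) (𝓝 (1 + 0)) :=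
    (tendsto_const_nhds.add tendsto_id).mono_left nhdsWithin_le_nhds
  rw [add_zero] at h1
  refine tendsto_of_tendsto_of_tendsto_of_le_of_le' tendsto_const_nhds h1 ?_ ?_
  · filter_upwards [self_mem_nhdsWithin] with a ha
    have ha : 0 < a := ha
    have h2 : 1 ≤ ⌈1 / a⌉₊ := Nat.one_le_iff_ne_zero.2 (Nat.ceil_pos.2 (by positivity)).ne'
    have h3 : ((nn a : ℝ) + 1) = ⌈1 / a⌉₊ := by
      unfold nn; push_cast [Nat.cast_sub h2]; ring
    rw [h3]
    have h4 := Nat.le_ceil (1 / a)
    calc (1:ℝ) = a * (1 / a) := by field_simp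
      _ ≤ a * ⌈1 / a⌉₊ := mul_le_mul_of_nonneg_left h4 ha.le
  · filter_upwards [self_mem_nhdsWithin] with a ha
    have ha : 0 < a := ha
    have h2 : 1 ≤ ⌈1 / a⌉₊ := Nat.one_le_iff_ne_zero.2 (Nat.ceil_pos.2 (by positivity)).ne'
    have h3 : ((nn a : ℝ) + 1) = ⌈1 / a⌉₊ := by
      unfold nn; push_cast [Nat.cast_sub h2]; ring
    rw [h3]
    have h4 := (Nat.ceil_lt_add_one (show 0 ≤ 1 / a by positivity)).le
    calc a * ⌈1 / a⌉₊ ≤ a * (1 / a + 1) := mul_le_mul_of_nonneg_left h4 ha.le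
      _ = 1 + a := by field_simp

theorem in_ev {ι : Type*} {l : Filter ι} {a : ι → ℝ} (ha : Tendsto a l (𝓝[>] 0)) {N : ι → ℕ}
    (hN : Tendsto (fun k => a k * ((N k : ℝ) + 1)) l (𝓝 1)) {f : ι → Site} {z : ℂ}
    (hf : Tendsto (fun k => H170.pt (a k) (f k)) l (𝓝 z)) (hz : z ∈ Dia) (m : ℕ) :
    ∀ᶠ k in l, |(f k).1| + |(f k).2| + m ≤ N k := by
  obtain ⟨f1, f2⟩ := re_of hf
  have h1 := f1.abs.add f2.abs
  have h0 : Tendsto (fun k => a k * (m : ℝ)) l (𝓝 (0 * m)) :=
    (ha.mono_right nhdsWithin_le_nhds).mul_const _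
  rw [zero_mul] at h0
  have h2 := h1.add h0
  rw [add_zero] at h2
  have hz' : |z.re| + |z.im| < 1 := hz
  filter_upwards [h2.eventually_lt hN hz', ha.eventually self_mem_nhdsWithin] with k h3 h4
  have h4 : 0 < a k := h4
  rw [abs_mul, abs_mul, abs_of_pos h4, ← mul_add, ← mul_add] at h3
  have h5 := lt_of_mul_lt_mul_left h3 h4.le
  have h6 : ((|(f k).1| + |(f k).2| + m : ℤ) : ℝ) < ((N k + 1 : ℤ) : ℝ) := by
    push_cast; exact h5
  have h7 := Int.cast_lt.1 h6
  omega

theorem ne_ev {ι : Type*} {l : Filter ι} {a : ι → ℝ} {f g : ι → Site} {z w : ℂ}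
    (hf : Tendsto (fun k => H170.pt (a k) (f k)) l (𝓝 z))
    (hg : Tendsto (fun k => H170.pt (a k) (g k)) l (𝓝 w)) (h : z ≠ w) : ∀ᶠ k in l, f k ≠ g k := by
  have h1 := (hf.sub hg).eventually_ne (sub_ne_zero.2 h)
  filter_upwards [h1] with k h2 h3
  apply h2
  rw [h3, sub_self]

theorem sep_ev (p : Pts) (hp : Good0 p) : ∀ᶠ a in 𝓝[>] (0:ℝ),
    Sep (nn a) (fun i => fl a (p.x i)) (fun k => fl a (p.y k)) ∧ 1 ≤ nn a := by
  have h1 : ∀ i, ∀ᶠ a in 𝓝[>] (0:ℝ), |(fl a (p.x i)).1| + |(fl a (p.x i)).2| + (2:ℕ) ≤ nn a :=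
    fun i => in_ev idt nn_lim (flt _) (hp.1 i) 2
  have h2 : ∀ k, ∀ᶠ a in 𝓝[>] (0:ℝ), |(fl a (p.y k)).1| + |(fl a (p.y k)).2| + (2:ℕ) ≤ nn a :=
    fun k => in_ev idt nn_lim (flt _) (hp.2.1 k) 2
  have h3 : ∀ i i', i ≠ i' → ∀ᶠ a in 𝓝[>] (0:ℝ), fl a (p.x i) ≠ fl a (p.x i') := fun i i' h =>
    ne_ev (flt _) (flt _) fun h' => h (Sum.inl_injective (hp.2.2 (by simpa using h')))
  have h4 : ∀ i i', i ≠ i' → ∀ᶠ a in 𝓝[>] (0:ℝ), fl a (p.y i) ≠ fl a (p.y i') := fun i i' h =>
    ne_ev (flt _) (flt _) fun h' => h (Sum.inr_injective (hp.2.2 (by simpa using h')))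
  have h5 : ∀ i k, ∀ᶠ a in 𝓝[>] (0:ℝ), fl a (p.x i) ≠ fl a (p.y k) := fun i k =>
    ne_ev (flt _) (flt _) fun h' => by
      have := @hp.2.2 (Sum.inl i) (Sum.inr k) (by simpa using h')
      cases this
  have h6 : ∀ᶠ a in 𝓝[>] (0:ℝ), |(fl a (0:ℂ)).1| + |(fl a (0:ℂ)).2| + (1:ℕ) ≤ nn a :=
    in_ev idt nn_lim (flt _) (by show |(0:ℂ).re| + |(0:ℂ).im| < 1; simp) 1
  have h3' : ∀ᶠ a in 𝓝[>] (0:ℝ), ∀ i i', i ≠ i' → fl a (p.x i) ≠ fl a (p.x i') := by
    rw [eventually_all]; intro i; rw [eventually_all]; intro i'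
    by_cases h : i = i'
    · exact Eventually.of_forall fun a h' => absurd h h'
    · filter_upwards [h3 i i' h] with a ha _; exact ha
  have h4' : ∀ᶠ a in 𝓝[>] (0:ℝ), ∀ i i', i ≠ i' → fl a (p.y i) ≠ fl a (p.y i') := by
    rw [eventually_all]; intro i; rw [eventually_all]; intro i'
    by_cases h : i = i'
    · exact Eventually.of_forall fun a h' => absurd h h'
    · filter_upwards [h4 i i' h] with a ha _; exact ha
  have h5' : ∀ᶠ a in 𝓝[>] (0:ℝ), ∀ i k, fl a (p.x i) ≠ fl a (p.y k) := by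
    rw [eventually_all]; intro i; rw [eventually_all]; intro k; exact h5 i k
  filter_upwards [eventually_all.2 h1, eventually_all.2 h2, h3', h4', h5', h6] with a g1 g2 g3 g4
    g5 g6
  refine ⟨⟨fun i => by exact_mod_cast g1 i, fun i => by exact_mod_cast g2 i, fun i i' h => ?_,
    fun i i' h => ?_, g5⟩, ?_⟩
  · by_contra hne; exact g3 i i' hne h
  · by_contra hne; exact g4 i i' hne h
  · have a1 := abs_nonneg (fl a (0:ℂ)).1
    have a2 := abs_nonneg (fl a (0:ℂ)).2
    push_cast at g6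
    omega

/-! ### Products of roots -/

/-- The position of the corner relative to the centre of its own face. -/
noncomputable def z0 : ℂ := ⟨-1 / 4, -1 / 4⟩

theorem z0_ne : z0 ≠ 0 := fun h => by
  have := congrArg Complex.re h
  simp [z0] at this

theorem self_eq {a : ℝ} (ha : 0 < a) (f : Site) :
    H170.rtu (H170.pos a f (1 / 4) (1 / 4) - H170.cF a f) = (√a : ℂ) * H170.rtu z0 := by
  rw [← rtu_smul ha z0_ne]
  congr 1
  apply Complex.ext <;> simp [H170.pos, H170.cF, z0] <;> ring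

section

variable (p : Pts) (hx : Function.Injective p.x)

/-- The root of the source `i` at the source `i'`. -/
noncomputable def Rt (a : ℝ) (i i' : Fin p.n) : ℂ :=
  H170.rtu (H170.pos a (fl a (p.x i)) (1 / 4) (1 / 4) - H170.cF a (fl a (p.x i')))

theorem DD_cons (R : Fin p.n → Fin p.n → ℂ) (i : Fin p.n) (L : List (Fin p.n)) :
    ((i :: L).map fun j => ((i :: L).map fun j' => R j j').prod).prod =
      R i i * (L.map fun j => R i j * R j i).prod *
        (L.map fun j => (L.map fun j' => R j j').prod).prod := by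
  simp only [List.map_cons, List.prod_cons]
  rw [List.prod_map_mul, List.prod_map_mul]
  ring

include hx in
theorem el_lim (L : List (Fin p.n)) (hL : L.Nodup) : ∃ c : ℂ, Tendsto (fun a : ℝ =>
    (el (L.map fun i => ((fl a (p.x i), fl a (p.x i)) : Cn)) : ℂ) *
    ((√a : ℂ) ^ L.length / (L.map fun j => (L.map fun j' => Rt p a j j').prod).prod)) (𝓝[>] 0)
    (𝓝 c) := by
  induction L with
  | nil => exact ⟨1, by simp [el]⟩
  | cons i L ih =>
    have hL' := List.nodup_cons.1 hL
    obtain ⟨c, hc⟩ := ih hL'.2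
    have h1 : Tendsto (fun a : ℝ => (L.map fun j =>
        (ep (fl a (p.x i), fl a (p.x i)) (fl a (p.x j), fl a (p.x j)) : ℂ) /
          (Rt p a i j * Rt p a j i)).prod) (𝓝[>] 0)
        (𝓝 (L.map fun j => 1 / (Complex.I * (p.x i - p.x j))).prod) := by
      refine tendsto_list_prod L fun j hj => ?_
      refine two_src (a := fun a : ℝ => a) idt (flt _) (flt _) ?_
      intro h
      exact hL'.1 (hx h ▸ hj)
    refine ⟨1 / H170.rtu z0 * (L.map fun j => 1 / (Complex.I * (p.x i - p.x j))).prod * c, ?_⟩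
    refine ((h1.const_mul (1 / H170.rtu z0)).mul hc).congr' ?_
    filter_upwards [self_mem_nhdsWithin] with a ha
    have ha : 0 < a := ha
    have hs : (√a : ℂ) ≠ 0 := by exact_mod_cast (Real.sqrt_pos.2 ha).ne'
    rw [DD_cons p (Rt p a), List.map_cons, el, List.length_cons, pow_succ]
    have e1 : Rt p a i i = (√a : ℂ) * H170.rtu z0 := self_eq ha _
    rw [e1]
    have e2 : (L.map fun j => (ep (fl a (p.x i), fl a (p.x i)) (fl a (p.x j), fl a (p.x j)) : ℂ) /
          (Rt p a i j * Rt p a j i)).prod =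
        (((L.map fun i => ((fl a (p.x i), fl a (p.x i)) : Cn)).map
          (ep (fl a (p.x i), fl a (p.x i)))).prod : ℝ) /
        (L.map fun j => Rt p a i j * Rt p a j i).prod := by
      clear hL hL' hc h1 ih
      induction L with
      | nil => simp
      | cons k L ih =>
        simp only [List.map_cons, List.prod_cons]
        rw [ih]
        push_cast
        rw [mul_div_mul_comm]
    rw [e2]
    push_cast
    have h0 := H170.rtu_ne z0_ne
    generalize H170.rtu z0 = r0 at *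
    generalize (L.map fun j => Rt p a i j * Rt p a j i).prod = A
    generalize (L.map fun j => (L.map fun j' => Rt p a j j').prod).prod = B
    generalize (√a : ℂ) = s at *
    have : s ^ L.length * s / (s * r0 * A * B) = 1 / r0 * (1 / A) * (s ^ L.length / B) := by
      by_cases hA : A = 0
      · simp [hA]
      by_cases hB : B = 0
      · simp [hB]
      field_simp
    rw [this]
    ring

include hx in
/-- The sign and the roots of the sources. -/
theorem src_lim : ∃ c : ℂ, Tendsto (fun a : ℝ =>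
    (el (srcs fun i => fl a (p.x i)) : ℂ) * ∏ i, ((√a : ℂ) / rho p a (.src i))) (𝓝[>] 0) (𝓝 c) := by
  obtain ⟨c, hc⟩ := el_lim p hx (List.finRange p.n) (List.nodup_finRange _)
  refine ⟨c, hc.congr fun a => ?_⟩
  unfold srcs
  rw [prod_div_distrib, prod_const, card_univ, Fintype.card_fin, List.length_finRange,
    Fin.prod_univ_def]
  congr 3

include hx in
/-- The size of the product of the roots at a source. -/
theorem rho_src (i : Fin p.n) : ∃ c : ℝ, 0 < c ∧
    Tendsto (fun a : ℝ => ‖rho p a (.src i) / (√a : ℂ)‖) (𝓝[>] 0) (𝓝 c) := by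
  refine ⟨‖H170.rtu z0‖ * ∏ i' ∈ univ.erase i, √‖p.x i - p.x i'‖, ?_, ?_⟩
  · refine mul_pos (norm_pos_iff.2 (H170.rtu_ne z0_ne)) (prod_pos fun i' hi' => ?_)
    refine Real.sqrt_pos.2 (norm_pos_iff.2 (sub_ne_zero.2 fun h => ?_))
    exact (mem_erase.1 hi').1 (hx h).symm
  · have h1 : Tendsto (fun a : ℝ => ‖H170.rtu z0‖ * ∏ i' ∈ univ.erase i, √‖
        H170.pos a (fl a (p.x i)) (1 / 4) (1 / 4) - H170.cF a (fl a (p.x i'))‖) (𝓝[>] 0)
        (𝓝 (‖H170.rtu z0‖ * ∏ i' ∈ univ.erase i, √‖p.x i - p.x i'‖)) := by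
      refine Tendsto.const_mul _ (tendsto_finsetProd _ fun i' _ => ?_)
      refine (Real.continuous_sqrt.tendsto _).comp (Tendsto.norm ?_)
      exact (pos_lim (a := fun a : ℝ => a) idt (flt _) (1 / 4) (1 / 4)).sub
        (H170.cF_lim (a := fun a : ℝ => a) idt (flt _))
    refine h1.congr' ?_
    filter_upwards [self_mem_nhdsWithin] with a ha
    have ha : 0 < a := ha
    have hs : (√a : ℂ) ≠ 0 := by exact_mod_cast (Real.sqrt_pos.2 ha).ne'
    unfold rho
    rw [← mul_prod_erase univ _ (mem_univ i)]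
    simp only [wpos]
    rw [self_eq ha, mul_assoc, mul_div_cancel_left₀ _ hs, norm_mul, norm_prod]
    congr 1
    exact prod_congr rfl fun i' _ => (H170.norm_rtu _).symm

/-- The product of the roots at an energy. -/
theorem rho_en (k : Fin p.m) (z : Lb p.n p.m) (hz : z = .lo k ∨ z = .hi k) : ∃ c : ℝ,
    Tendsto (fun a : ℝ => ‖rho p a z‖) (𝓝[>] 0) (𝓝 c) := by
  refine ⟨∏ i', √‖p.y k - p.x i'‖, ?_⟩
  unfold rho
  simp only [norm_prod, H170.norm_rtu]
  refine tendsto_finsetProd _ fun i' _ => ?_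
  refine (Real.continuous_sqrt.tendsto _).comp (Tendsto.norm ?_)
  refine Tendsto.sub ?_ (H170.cF_lim (a := fun a : ℝ => a) idt (flt _))
  rcases hz with rfl | rfl
  · exact pos_lim (a := fun a : ℝ => a) idt (flt _) (1 / 4) (1 / 4)
  · simp only [wpos]
    by_cases hj : p.j k = 0
    · simp only [if_pos hj]
      exact pos_lim (a := fun a : ℝ => a) idt (flt _) (3 / 4) (1 / 4)
    · simp only [if_neg hj]
      exact pos_lim (a := fun a : ℝ => a) idt (flt _) (1 / 4) (3 / 4)

theorem ep_lohi (v : Site) (j : Fin 2) : ep (eLo v) (eHi v j) = if j = 0 then 1 else -1 := by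
  obtain ⟨a, b⟩ := v
  unfold ep eLo eHi dir
  by_cases hj : j = 0 <;> simp only [hj, if_true, if_false, Prod.mk_add_mk, add_zero] <;>
    split_ifs <;> first | (exfalso; omega) | norm_num

/-- The sign and the roots of an energy. -/
theorem en_lim (hxy : ∀ k i, p.y k ≠ p.x i) (k : Fin p.m) : ∃ c : ℂ, c ≠ 0 ∧
    Tendsto (fun a : ℝ => (wl (fun i => fl a (p.x i)) (fun k => fl a (p.y k)) p.j (.hi k) : ℂ) *
      (rho p a (.lo k) * rho p a (.hi k))) (𝓝[>] 0) (𝓝 c) := by
  refine ⟨((if p.j k = 0 then 1 else -1 : ℝ) : ℂ) * ∏ i, (p.y k - p.x i), ?_, ?_⟩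
  · refine mul_ne_zero ?_ (prod_ne_zero_iff.2 fun i _ => sub_ne_zero.2 (hxy k i))
    split_ifs <;> simp
  · have key : ∀ (s' t' : ℝ), (∀ a : ℝ, Typ (fl a (p.y k) + dir (p.j k)) (fl a (p.y k)) s') →
        (∀ a : ℝ, wpos p a (.hi k) = H170.pos a (fl a (p.y k)) s' t') →
        Tendsto (fun a : ℝ => (wl (fun i => fl a (p.x i)) (fun k => fl a (p.y k)) p.j (.hi k) : ℂ) *
          (rho p a (.lo k) * rho p a (.hi k))) (𝓝[>] 0)
          (𝓝 (((if p.j k = 0 then 1 else -1 : ℝ) : ℂ) * ∏ i, (p.y k - p.x i))) := by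
      intro s' t' hT hw
      have h1 := Tendsto.const_mul ((if p.j k = 0 then 1 else -1 : ℝ) : ℂ)
        (tendsto_finsetProd univ fun i _ =>
        two_cor (a := fun a : ℝ => a) (x := fun a => fl a (p.y k))
          (x' := fun a => fl a (p.y k) + dir (p.j k)) (s := 1 / 4) idt (flt (p.y k)) (flt (p.x i))
          (fun a => Or.inl ⟨rfl, rfl⟩) hT (1 / 4) t' (hxy k i))
      refine h1.congr fun a => ?_
      simp only [wl, sk]
      rw [ep_lohi]
      unfold srcs rho
      rw [List.map_map, hw, prod_mul_distrib, prod_mul_distrib]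
      push_cast
      rw [mul_assoc]
      congr 1
      congr 1
      have e := (Fin.prod_univ_def fun i : Fin p.n =>
        ep (eLo (fl a (p.y k))) (fl a (p.x i), fl a (p.x i)) *
          ep (eHi (fl a (p.y k)) (p.j k)) (fl a (p.x i), fl a (p.x i)))
      have e' := congrArg (fun t : ℝ => (t : ℂ)) e
      push_cast at e'
      exact e'
    by_cases hj : p.j k = 0
    · refine key (3 / 4) (1 / 4) (fun a => Or.inr ⟨?_, rfl⟩) fun a => ?_
      · unfold dir; rw [if_pos hj]; simp
      · simp only [wpos, if_pos hj]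
    · refine key (1 / 4) (3 / 4) (fun a => Or.inl ⟨?_, rfl⟩) fun a => ?_
      · unfold dir; rw [if_neg hj]; simp
      · simp only [wpos, if_neg hj]

end

/-! ### The kernels -/

section

variable (p : Pts)

/-- The scaling factors of the labels. -/
noncomputable def rr (a : ℝ) : Lb p.n p.m → ℂ
  | .src i => rho p a (.src i) / (√a : ℂ)
  | .lo k => rho p a (.lo k) / (√a : ℂ)
  | .hi k => (wl (fun i => fl a (p.x i)) (fun k => fl a (p.y k)) p.j (.hi k) : ℂ) *
      (rho p a (.hi k) / (√a : ℂ))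
  | .tp _ => 1

/-- The mean of an energy. -/
noncomputable def tk (a : ℝ) (k : Fin p.m) : ℝ :=
  ep (cnp p a (.lo k)) (cnp p a (.hi k)) *
    Wf (dia (nn a)) 0 [cnp p a (.lo k), cnp p a (.hi k)]

/-- The signed kernel. -/
noncomputable def Kw (a : ℝ) (x y : Lb p.n p.m) : ℝ :=
  KK (nn a) (fun i => fl a (p.x i)) (fun k => fl a (p.y k)) p.j x y

/-- Tips. -/
def isTp : Lb p.n p.m → Prop
  | .tp _ => True
  | _ => False

/-- The scaled kernel converges. -/
def PL (x y : Lb p.n p.m) : Prop := ∃ c : ℂ, (isTp p x ∨ isTp p y → c = 0) ∧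
  Tendsto (fun a : ℝ => rr p a x * rr p a y * (Kw p a x y : ℂ)) (𝓝[>] 0) (𝓝 c)

theorem Kw_swap (hp : Good0 p) {x y : Lb p.n p.m} (h : x ≠ y) :
    ∀ᶠ a in 𝓝[>] (0:ℝ), Kw p a x y = -Kw p a y x := by
  filter_upwards [sep_ev p hp] with a hs
  unfold Kw KK
  rw [Wf_swap _ _ (Sep.cn_cnr x) (Sep.cn_cnr y) fun h' => h (hs.1.cn_inj hs.2 h')]
  ring

theorem PL.swap (hp : Good0 p) {x y : Lb p.n p.m} (h : x ≠ y) (hP : PL p x y) : PL p y x := by
  obtain ⟨c, hc, hl⟩ := hP
  refine ⟨-c, fun h => by rw [hc h.symm, neg_zero], hl.neg.congr' ?_⟩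
  filter_upwards [Kw_swap p hp h] with a ha
  rw [ha]; push_cast; ring

theorem sqrt_mul_C {a : ℝ} (ha : 0 < a) : (√a : ℂ) * (√a : ℂ) = a := by
  rw [← Complex.ofReal_mul, Real.mul_self_sqrt ha.le]

theorem wl_sq (u : Fin p.n → Site) (v : Fin p.m → Site) (x : Lb p.n p.m) :
    wl u v p.j x * wl u v p.j x = 1 := by
  cases x with
  | src i => simp [wl]
  | lo k => simp [wl]
  | tp c => simp [wl]
  | hi k =>
    simp only [wl, sk]
    have h1 := ep_sq (eLo (v k)) (eHi (v k) (p.j k))
    have h2 := map_sq (srcs u) (fun z => ep (eLo (v k)) z * ep (eHi (v k) (p.j k)) z) fun z => by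
      linear_combination (ep (eHi (v k) (p.j k)) z * ep (eHi (v k) (p.j k)) z) * ep_sq (eLo (v k)) z +
        ep_sq (eHi (v k) (p.j k)) z
    linear_combination (((srcs u).map fun z => ep (eLo (v k)) z * ep (eHi (v k) (p.j k)) z).prod *
      ((srcs u).map fun z => ep (eLo (v k)) z * ep (eHi (v k) (p.j k)) z).prod) * h1 + h2

/-- The factor of a label that is not a tip. -/
theorem rr_eq (a : ℝ) {x : Lb p.n p.m} (h : ¬ isTp p x) : rr p a x =
    (wl (fun i => fl a (p.x i)) (fun k => fl a (p.y k)) p.j x : ℂ) * (rho p a x / (√a : ℂ)) := by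
  cases x with
  | src i => simp [rr, wl]
  | lo k => simp [rr, wl]
  | tp c => exact absurd trivial h
  | hi k => rfl

theorem PL_of {x y : Lb p.n p.m} (hx : ¬ isTp p x) (hy : ¬ isTp p y) {c : ℂ}
    (h : Tendsto (fun a : ℝ => rho p a x * rho p a y * (Kn p a x y : ℂ) / a) (𝓝[>] 0) (𝓝 c)) :
    PL p x y := by
  refine ⟨c, fun h => by rcases h with h | h <;> contradiction, h.congr' ?_⟩
  filter_upwards [self_mem_nhdsWithin] with a ha
  have ha : 0 < a := ha
  have hs : (√a : ℂ) ≠ 0 := by exact_mod_cast (Real.sqrt_pos.2 ha).ne'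
  rw [rr_eq p a hx, rr_eq p a hy, show Kw p a x y = wl (fun i => fl a (p.x i))
    (fun k => fl a (p.y k)) p.j x * wl (fun i => fl a (p.x i)) (fun k => fl a (p.y k)) p.j y *
    Kn p a x y from rfl, ← sqrt_mul_C ha]
  have h1 := congrArg (fun t : ℝ => (t : ℂ)) (wl_sq p (fun i => fl a (p.x i))
    (fun k => fl a (p.y k)) x)
  have h2 := congrArg (fun t : ℝ => (t : ℂ)) (wl_sq p (fun i => fl a (p.x i))
    (fun k => fl a (p.y k)) y)
  push_cast at h1 h2 ⊢
  generalize (wl (fun i => fl a (p.x i)) (fun k => fl a (p.y k)) p.j x : ℂ) = w1 at *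
  generalize (wl (fun i => fl a (p.x i)) (fun k => fl a (p.y k)) p.j y : ℂ) = w2 at *
  have e : w1 * (rho p a x / (√a : ℂ)) * (w2 * (rho p a y / (√a : ℂ))) * (w1 * w2 * (Kn p a x y : ℂ)) =
      (w1 * w1) * (w2 * w2) * (rho p a x * rho p a y * (Kn p a x y : ℂ) / ((√a : ℂ) * (√a : ℂ))) := by
    field_simp
  rw [e, h1, h2, one_mul, one_mul]

theorem norm_rr_le (a : ℝ) (x : Lb p.n p.m) (h : ¬ isTp p x) :
    ‖rr p a x‖ = ‖rho p a x / (√a : ℂ)‖ := by
  rw [rr_eq p a h, norm_mul]
  have h1 := wl_sq p (fun i => fl a (p.x i)) (fun k => fl a (p.y k)) x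
  rcases mul_self_eq_one_iff.1 h1 with h | h <;> rw [h] <;> simp

theorem PL_tip {x : Lb p.n p.m} (hx : ¬ isTp p x) (c : Fin 4)
    (h : Tendsto (fun a : ℝ => ‖rho p a x / (√a : ℂ)‖ * |Kn p a (.tp c) x|) (𝓝[>] 0) (𝓝 0)) :
    PL p (.tp c) x := by
  refine ⟨0, fun _ => rfl, ?_⟩
  rw [tendsto_zero_iff_norm_tendsto_zero]
  refine h.congr fun a => ?_
  rw [norm_mul, norm_mul, norm_rr_le p a x hx]
  have e1 : rr p a (.tp c) = 1 := rfl
  have h1 := wl_sq p (fun i => fl a (p.x i)) (fun k => fl a (p.y k)) x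
  have e2 : Kw p a (.tp c) x = 1 * wl (fun i => fl a (p.x i)) (fun k => fl a (p.y k)) p.j x *
    Kn p a (.tp c) x := rfl
  rw [e1, e2, Complex.norm_real, Real.norm_eq_abs, abs_mul, norm_one, one_mul, one_mul]
  rcases mul_self_eq_one_iff.1 h1 with h | h <;> rw [h] <;> simp

theorem PL_all (hp : Good0 p) (hK : KP p) {x y : Lb p.n p.m} (h : x ≠ y)
    (h1 : ∀ k, ¬ (x = .lo k ∧ y = .hi k)) (h2 : ∀ k, ¬ (x = .hi k ∧ y = .lo k)) : PL p x y := by
  have hxi : Function.Injective p.x := fun i i' h => Sum.inl_injective (hp.2.2 (by simpa using h))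
  have tsrc : ∀ c i, PL p (.tp c) (.src i) := by
    intro c i
    refine PL_tip p (by simp [isTp]) c ?_
    obtain ⟨b, _, hb⟩ := rho_src p hxi i
    have := hb.mul ((hK.k5 c).1 i).abs
    rwa [abs_zero, mul_zero] at this
  have ten : ∀ c (z : Lb p.n p.m) k, (z = .lo k ∨ z = .hi k) → PL p (.tp c) z := by
    intro c z k hz
    refine PL_tip p (by rcases hz with rfl | rfl <;> simp [isTp]) c ?_
    obtain ⟨b, hb⟩ := rho_en p k z hz
    have h3 : Tendsto (fun a : ℝ => |Kn p a (.tp c) z / √a|) (𝓝[>] 0) (𝓝 0) := by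
      have := (hK.k5 c).2
      rcases hz with rfl | rfl
      · simpa using (this.1 k).abs
      · simpa using (this.2.1 k).abs
    have := hb.mul h3
    rw [mul_zero] at this
    refine this.congr fun a => ?_
    rw [norm_div, Complex.norm_real, Real.norm_eq_abs, abs_div]
    ring
  have k2l := fun k i => PL_of p (x := .lo k) (y := .src i) (by simp [isTp]) (by simp [isTp])
    (hK.k2 k i).1.choose_spec
  have k2h := fun k i => PL_of p (x := .hi k) (y := .src i) (by simp [isTp]) (by simp [isTp])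
    (hK.k2 k i).2.choose_spec
  cases x with
  | src i =>
    cases y with
    | src i' =>
      obtain ⟨c, hc⟩ := hK.k1 i i' fun h' => h (congrArg _ h')
      exact PL_of p (by simp [isTp]) (by simp [isTp]) hc
    | lo k => exact PL.swap p hp h.symm (k2l k i)
    | hi k => exact PL.swap p hp h.symm (k2h k i)
    | tp c => exact PL.swap p hp h.symm (tsrc c i)
  | lo k =>
    cases y with
    | src i' => exact k2l k i'
    | lo l =>
      obtain ⟨c, hc⟩ := hK.k3 k l (fun h' => h (congrArg _ h')) (.lo k) (.lo l) (Or.inl rfl)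
        (Or.inl rfl)
      exact PL_of p (by simp [isTp]) (by simp [isTp]) hc
    | hi l =>
      obtain ⟨c, hc⟩ := hK.k3 k l (fun h' => h1 k ⟨rfl, by rw [h']⟩) (.lo k) (.hi l) (Or.inl rfl)
        (Or.inr rfl)
      exact PL_of p (by simp [isTp]) (by simp [isTp]) hc
    | tp c => exact PL.swap p hp h.symm (ten c _ k (Or.inl rfl))
  | hi k =>
    cases y with
    | src i' => exact k2h k i'
    | lo l =>
      obtain ⟨c, hc⟩ := hK.k3 k l (fun h' => h2 k ⟨rfl, by rw [h']⟩) (.hi k) (.lo l) (Or.inr rfl)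
        (Or.inl rfl)
      exact PL_of p (by simp [isTp]) (by simp [isTp]) hc
    | hi l =>
      obtain ⟨c, hc⟩ := hK.k3 k l (fun h' => h (congrArg _ h')) (.hi k) (.hi l) (Or.inr rfl)
        (Or.inr rfl)
      exact PL_of p (by simp [isTp]) (by simp [isTp]) hc
    | tp c => exact PL.swap p hp h.symm (ten c _ k (Or.inr rfl))
  | tp c =>
    cases y with
    | src i' => exact tsrc c i'
    | lo l => exact ten c _ l (Or.inl rfl)
    | hi l => exact ten c _ l (Or.inr rfl)
    | tp d =>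
      refine ⟨0, fun _ => rfl, ?_⟩
      have h3 := (hK.k5 c).2.2.2 d fun h' => h (by rw [h'])
      rw [tendsto_zero_iff_norm_tendsto_zero]
      have h4 := h3.abs
      rw [abs_zero] at h4
      refine h4.congr fun a => ?_
      have e1 : ∀ c, rr p a (.tp c) = 1 := fun _ => rfl
      have e2 : Kw p a (.tp c) (.tp d) = 1 * 1 * Kn p a (.tp c) (.tp d) := rfl
      rw [e1, e1, e2]
      simp

/-- The centred kernel. -/
noncomputable def Kz (ks : List (Fin p.m)) (a : ℝ) (x y : Lb p.n p.m) : ℝ :=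
  cenK (Kw p a) Lb.lo Lb.hi (tk p a) ks x y

open Classical in
theorem cen_other (ks : List (Fin p.m)) (a : ℝ) {x y : Lb p.n p.m}
    (h : ∀ k, ¬ (x = .lo k ∧ y = .hi k)) : Kz p ks a x y = Kw p a x y := by
  unfold Kz cenK
  have : (ks.map fun k => if x = Lb.lo k ∧ y = Lb.hi k then tk p a k else 0).sum = 0 := by
    refine List.sum_eq_zero fun t ht => ?_
    obtain ⟨k, _, rfl⟩ := List.mem_map.1 ht
    exact if_neg (h k)
  rw [this, sub_zero]

open Classical in
theorem cen_pair {ks : List (Fin p.m)} (a : ℝ) {k : Fin p.m} (hk : k ∈ ks) (hks : ks.Nodup) :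
    Kz p ks a (.lo k) (.hi k) = Kw p a (.lo k) (.hi k) - tk p a k := by
  unfold Kz cenK
  congr 1
  induction ks with
  | nil => simp at hk
  | cons l ks ih =>
    have hl := List.nodup_cons.1 hks
    rw [List.map_cons, List.sum_cons]
    by_cases h : k = l
    · subst h
      have h0 : (ks.map fun l => if (Lb.lo k : Lb p.n p.m) = Lb.lo l ∧ (Lb.hi k : Lb p.n p.m) =
          Lb.hi l then tk p a l else 0).sum = 0 := by
        refine List.sum_eq_zero fun t ht => ?_
        obtain ⟨l, hl', rfl⟩ := List.mem_map.1 ht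
        refine if_neg fun hh => hl.1 ?_
        have := hh.1
        injection this with this
        exact this ▸ hl'
      rw [h0, add_zero, if_pos ⟨rfl, rfl⟩]
    · have hk' : k ∈ ks := by
        rcases List.mem_cons.1 hk with h' | h'
        · exact absurd h' h
        · exact h'
      rw [ih hk' hl.2, if_neg, zero_add]
      rintro ⟨h1, _⟩
      injection h1 with h1
      exact h h1

theorem Kz_pair_lim (hK : KP p) {ks : List (Fin p.m)} {k : Fin p.m} (hk : k ∈ ks)
    (hks : ks.Nodup) : ∃ c : ℂ, Tendsto (fun a : ℝ => rr p a (.lo k) * rr p a (.hi k) *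
      (Kz p ks a (.lo k) (.hi k) : ℂ)) (𝓝[>] 0) (𝓝 c) := by
  obtain ⟨c, hc⟩ := hK.k4 k
  refine ⟨c, hc.congr' ?_⟩
  filter_upwards [self_mem_nhdsWithin] with a ha
  have ha : 0 < a := ha
  have hs : (√a : ℂ) ≠ 0 := by exact_mod_cast (Real.sqrt_pos.2 ha).ne'
  rw [cen_pair p a hk hks, rr_eq p a (x := .lo k) (by simp [isTp]),
    rr_eq p a (x := .hi k) (by simp [isTp])]
  set w : ℝ := wl (fun i => fl a (p.x i)) (fun k => fl a (p.y k)) p.j (.hi k) with hw
  have hw2 : w * w = 1 := wl_sq p _ _ _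
  have hwe : w = ep (cnp p a (.lo k)) (cnp p a (.hi k)) * sgn p a k := rfl
  have e0 : wl (fun i => fl a (p.x i)) (fun k => fl a (p.y k)) p.j (.lo k : Lb p.n p.m) = 1 := rfl
  have e1 : Kw p a (.lo k) (.hi k) = w * Kn p a (.lo k) (.hi k) := by
    show (1 : ℝ) * w * _ = _
    rw [one_mul]; rfl
  have he := ep_sq (cnp p a (.lo k)) (cnp p a (.hi k))
  have e2 : w * (Kw p a (.lo k) (.hi k) - tk p a k) = Kn p a (.lo k) (.hi k) -
      sgn p a k * Wf (dia (nn a)) 0 [cnp p a (.lo k), cnp p a (.hi k)] := by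
    rw [e1, mul_sub, ← mul_assoc, hw2, one_mul]
    congr 1
    unfold tk
    rw [hwe]
    linear_combination (sgn p a k * Wf (dia (nn a)) 0 [cnp p a (.lo k), cnp p a (.hi k)]) * he
  rw [← e2, e0]
  have h3 := sqrt_mul_C ha
  rw [← h3]
  push_cast
  field_simp

/-- All scaled kernels converge. -/
theorem Kz_lim (hp : Good0 p) (hK : KP p) {ks : List (Fin p.m)} (hks : ks.Nodup)
    {Cl : List (Fin 4)} (hC : Cl.Nodup) {x y : Lb p.n p.m} (hxy : [x, y].Sublist (lbs ks Cl)) :
    ∃ c : ℂ, (isTp p x ∨ isTp p y → c = 0) ∧ Tendsto (fun a : ℝ => rr p a x * rr p a y *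
      (Kz p ks a x y : ℂ)) (𝓝[>] 0) (𝓝 c) := by
  have hnd := lbs_nodup (n := p.n) hks hC
  have hne : x ≠ y := by
    rintro rfl
    have := hnd.sublist hxy
    simp at this
  have hmem : ∀ z : Lb p.n p.m, z ∈ lbs ks Cl → ∀ k, (z = .lo k ∨ z = .hi k) → k ∈ ks := by
    intro z hz k hzk
    unfold lbs at hz
    rcases List.mem_append.1 hz with h | h
    · obtain ⟨i, _, rfl⟩ := List.mem_map.1 h
      rcases hzk with h | h <;> cases h
    · rcases List.mem_append.1 h with h | h
      · unfold flat at h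
        rw [List.mem_flatMap] at h
        obtain ⟨l, hl, h⟩ := h
        simp only [List.mem_cons, List.not_mem_nil, or_false] at h
        rcases hzk with rfl | rfl <;> rcases h with h | h <;>
          first | (injection h with h; exact h ▸ hl) | cases h
      · obtain ⟨c, _, rfl⟩ := List.mem_map.1 h
        rcases hzk with h | h <;> cases h
  have hlo : ∀ k ∈ ks, [(Lb.lo k : Lb p.n p.m), .hi k].Sublist (lbs ks Cl) := by
    intro k hk
    have h1 : [(Lb.lo k : Lb p.n p.m), .hi k].Sublist (flat Lb.lo Lb.hi ks) := by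
      clear hmem hxy hnd hks
      induction ks with
      | nil => simp at hk
      | cons l ks ih =>
        rw [flat_cons]
        rcases List.mem_cons.1 hk with rfl | h
        · exact ((List.nil_sublist _).cons_cons _).cons_cons _
        · exact ((ih h).cons _).cons _
    unfold lbs
    exact (h1.trans (List.sublist_append_left _ _)).trans (List.sublist_append_right _ _)
  by_cases h1 : ∃ k, x = .lo k ∧ y = .hi k
  · obtain ⟨k, rfl, rfl⟩ := h1
    obtain ⟨c, hc⟩ := Kz_pair_lim p hK (hmem _ (hxy.subset (by simp)) k (Or.inl rfl)) hks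
    exact ⟨c, fun h => by simp [isTp] at h, hc⟩
  · have h1' : ∀ k, ¬ (x = .lo k ∧ y = .hi k) := fun k hk => h1 ⟨k, hk⟩
    have h2 : ∀ k, ¬ (x = .hi k ∧ y = .lo k) := by
      rintro k ⟨rfl, rfl⟩
      exact nodup_order hnd hxy (hlo k (hmem _ (hxy.subset (by simp)) k (Or.inr rfl)))
    obtain ⟨c, hc, hl⟩ := PL_all p hp hK hne h1' h2
    refine ⟨c, hc, hl.congr fun a => ?_⟩
    rw [cen_other p ks a h1']

end

end Vale.Agent.P144.AL
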