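import Vale.Agent.P144.U.AL.Uniq

/-!
Wick rule for the free critical model with disorders.
-/

namespace Vale.Agent.P144.AL

open Finset Vale.Agent.P144

/-- A corner: a spin and a face. -/
abbrev Cn := Site × Site

/-- `+1` if the corner `c` is to the left of the vertical line broken at the corner `c'`, `-1` if it
is to the right. -/
noncomputable def ep (c c' : Cn) : ℝ :=
  if (c'.1.2 ≤ c.2.2 ∧ c'.2.1 < c.1.1) ∨ (c.2.2 < c'.1.2 ∧ c'.1.1 ≤ c.2.1) then -1 else 1

theorem ep_sq (c c' : Cn) : ep c c' * ep c c' = 1 := by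
  unfold ep; split_ifs <;> norm_num

theorem ep_anti {c c' : Cn} (hc : c.1 ∈ cnr c.2) (hc' : c'.1 ∈ cnr c'.2) (hne : c ≠ c') :
    ep c c' * ep c' c = -1 := by
  obtain ⟨⟨a, b⟩, ⟨p, q⟩⟩ := c
  obtain ⟨⟨a', b'⟩, ⟨p', q'⟩⟩ := c'
  simp only [mem_cnr, Prod.mk.injEq] at hc hc'
  simp only [ne_eq, Prod.mk.injEq] at hne
  unfold ep
  simp only
  rcases hc with ⟨rfl, rfl⟩ | ⟨rfl, rfl⟩ | ⟨rfl, rfl⟩ | ⟨rfl, rfl⟩ <;>
  rcases hc' with ⟨rfl, rfl⟩ | ⟨rfl, rfl⟩ | ⟨rfl, rfl⟩ | ⟨rfl, rfl⟩ <;>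
  split_ifs <;> first | (exfalso; omega) | norm_num

theorem ep_H (i j : ℤ) {c' : Cn} (hc' : c'.1 ∈ cnr c'.2) :
    ep ((i + 1, j + 1), (i + 1, j)) c' = ep ((i + 1, j), (i + 1, j)) c' ∧
    ep ((i + 1, j), (i, j)) c' = chi (sw i j) c'.1 * ep ((i + 1, j), (i + 1, j)) c' ∧
    ep ((i + 1, j + 1), (i, j)) c' = chi (sw i j) c'.1 * ep ((i + 1, j), (i + 1, j)) c' := by
  obtain ⟨⟨a', b'⟩, ⟨p', q'⟩⟩ := c'
  simp only [mem_cnr, Prod.mk.injEq] at hc'
  unfold ep chi sw
  dsimp only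
  rcases hc' with ⟨rfl, rfl⟩ | ⟨rfl, rfl⟩ | ⟨rfl, rfl⟩ | ⟨rfl, rfl⟩ <;>
  refine ⟨?_, ?_, ?_⟩ <;> split_ifs <;> first | (exfalso; omega) | norm_num

/-- The sign of `c` relative to `c'` seen from the horizontal edges. -/
noncomputable def et (c c' : Cn) : ℝ := ep c c' * if c = c' then -1 else 1

theorem ep_V (i j : ℤ) {c' : Cn} (hc' : c'.1 ∈ cnr c'.2) :
    et ((i, j + 1), (i, j)) c' = et ((i, j + 1), (i, j + 1)) c' ∧
    et ((i + 1, j + 1), (i, j)) c' = et ((i + 1, j + 1), (i, j + 1)) c' ∧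
    et ((i, j + 1), (i, j + 1)) c' = cut1 c'.2 (i, j + 1) * et ((i + 1, j + 1), (i, j + 1)) c' := by
  obtain ⟨⟨a', b'⟩, ⟨p', q'⟩⟩ := c'
  simp only [mem_cnr, Prod.mk.injEq] at hc'
  unfold et ep cut1
  simp only [Prod.mk.injEq]
  rcases hc' with ⟨rfl, rfl⟩ | ⟨rfl, rfl⟩ | ⟨rfl, rfl⟩ | ⟨rfl, rfl⟩ <;>
  refine ⟨?_, ?_, ?_⟩ <;> split_ifs <;> first | (exfalso; omega) | norm_num

theorem et_sq (c c' : Cn) : et c c' * et c c' = 1 := by
  unfold et
  have := ep_sq c c'
  split_ifs <;> linarith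

/-- The sign of a list of corners. -/
noncomputable def el : List Cn → ℝ
  | [] => 1
  | c :: l => (l.map (ep c)).prod * el l

/-- The faces of a list of corners. -/
def fcs (l : List Cn) : Multiset Site := (l.map Prod.snd : List Site)

/-- The spins of a list of corners. -/
def sps (l : List Cn) : Multiset Site := (l.map Prod.fst : List Site)

theorem fcs_cons (c : Cn) (l : List Cn) : fcs (c :: l) = c.2 ::ₘ fcs l := rfl

theorem sps_cons (c : Cn) (l : List Cn) : sps (c :: l) = c.1 ::ₘ sps l := rfl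

/-- The correlation of the fermions `l` in the presence of the disorders `R`. -/
noncomputable def Wf (Λ : Finset Site) (R : Multiset Site) (l : List Cn) : ℝ :=
  el l * QQ Λ (fcs l + R) (sps l) / QQ Λ R 0

theorem map_sq {ι : Type*} (l : List ι) (g : ι → ℝ) (hg : ∀ x, g x * g x = 1) :
    (l.map g).prod * (l.map g).prod = 1 := by
  induction l with
  | nil => simp
  | cons c l ih =>
    rw [List.map_cons, List.prod_cons]
    linear_combination ((l.map g).prod * (l.map g).prod) * hg c + ih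

theorem map_split {ι : Type*} (g : ι → ℝ) (l : List ι) (k : ℕ) (hk : k < l.length) :
    (l.map g).prod = g l[k] * ((l.eraseIdx k).map g).prod := by
  induction l generalizing k with
  | nil => simp at hk
  | cons c l ih =>
    cases k with
    | zero => simp
    | succ k =>
      have hk' : k < l.length := by simpa using hk
      rw [List.eraseIdx_cons_succ, List.map_cons, List.prod_cons, List.map_cons, List.prod_cons,
        ih k hk', List.getElem_cons_succ]
      ring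

/-- Moving a fermion to the front. -/
theorem el_erase (l : List Cn) (hl : ∀ c ∈ l, c.1 ∈ cnr c.2) (hnd : l.Nodup) (k : ℕ)
    (hk : k < l.length) :
    ((l.eraseIdx k).map (ep l[k])).prod * el l = (-1) ^ k * el (l.eraseIdx k) := by
  induction l generalizing k with
  | nil => simp at hk
  | cons c l ih =>
    cases k with
    | zero =>
      simp only [List.eraseIdx_cons_zero, List.getElem_cons_zero, pow_zero, one_mul, el]
      rw [← mul_assoc, map_sq l (ep c) (ep_sq c), one_mul]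
    | succ k =>
      have hk' : k < l.length := by simpa using hk
      have hnd' := List.nodup_cons.1 hnd
      have ih := ih (fun c h => hl c (List.mem_cons_of_mem _ h)) hnd'.2 k hk'
      rw [List.eraseIdx_cons_succ, List.getElem_cons_succ, List.map_cons, List.prod_cons]
      simp only [el]
      rw [map_split (ep c) l k hk']
      have ha : ep l[k] c * ep c l[k] = -1 := by
        refine ep_anti (hl _ (List.mem_cons_of_mem _ (List.getElem_mem hk')))
          (hl c (List.mem_cons_self ..)) ?_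
        intro h
        exact hnd'.1 (h ▸ List.getElem_mem hk')
      rw [pow_succ]
      linear_combination ((List.map (ep l[k]) (l.eraseIdx k)).prod *
        (List.map (ep c) (l.eraseIdx k)).prod * el l) * ha -
        (List.map (ep c) (l.eraseIdx k)).prod * ih

theorem fcs_erase (l : List Cn) (k : ℕ) (hk : k < l.length) :
    fcs l = l[k].2 ::ₘ fcs (l.eraseIdx k) := by
  induction l generalizing k with
  | nil => simp at hk
  | cons c l ih =>
    cases k with
    | zero => simp [fcs_cons]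
    | succ k =>
      have hk' : k < l.length := by simpa using hk
      rw [List.eraseIdx_cons_succ, List.getElem_cons_succ, fcs_cons, fcs_cons, ih k hk',
        Multiset.cons_swap]

theorem sps_erase (l : List Cn) (k : ℕ) (hk : k < l.length) :
    sps l = l[k].1 ::ₘ sps (l.eraseIdx k) := by
  induction l generalizing k with
  | nil => simp at hk
  | cons c l ih =>
    cases k with
    | zero => simp [sps_cons]
    | succ k =>
      have hk' : k < l.length := by simpa using hk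
      rw [List.eraseIdx_cons_succ, List.getElem_cons_succ, sps_cons, sps_cons, ih k hk',
        Multiset.cons_swap]

/-- The spinor of the fermions `l` in the natural gauge. -/
noncomputable def Xl (Λ : Finset Site) (R : Multiset Site) (l : List Cn) (c : Cn) : ℝ :=
  if c.1 ∈ Λ then QQ Λ (c.2 ::ₘ (fcs l + R)) (c.1 ::ₘ sps l) / QQ Λ R 0 else 0

/-- The spinor without the cuts of the fermions. -/
noncomputable def Tl (Λ : Finset Site) (R : Multiset Site) (l : List Cn) (c : Cn) : ℝ :=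
  (l.map (ep c)).prod * Xl Λ R l c

/-- The same, as seen from the horizontal edges. -/
noncomputable def Sl (Λ : Finset Site) (R : Multiset Site) (l : List Cn) (c : Cn) : ℝ :=
  (l.map (et c)).prod * Xl Λ R l c

open Classical in
theorem prod_et (l : List Cn) (hnd : l.Nodup) (c : Cn) :
    (l.map (et c)).prod = (l.map (ep c)).prod * if c ∈ l then -1 else 1 := by
  induction l with
  | nil => simp
  | cons c' l ih =>
    have hnd' := List.nodup_cons.1 hnd
    rw [List.map_cons, List.prod_cons, List.map_cons, List.prod_cons, ih hnd'.2]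
    unfold et
    by_cases h : c = c'
    · subst h
      rw [if_pos rfl, if_neg hnd'.1, if_pos (List.mem_cons_self ..)]
      ring
    · rw [if_neg h]
      by_cases h2 : c ∈ l
      · rw [if_pos h2, if_pos (List.mem_cons_of_mem _ h2)]; ring
      · rw [if_neg h2, if_neg (by
          intro h3
          rcases List.mem_cons.1 h3 with h4 | h4
          · exact h h4
          · exact h2 h4)]
        ring

theorem tauR_add (F R : Multiset Site) (f : Site) :
    tauR (F + R) f = (F.map fun r => cut1 r (f.1, f.2 + 1)).prod * tauR R f := by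
  unfold tauR cutS
  rw [Multiset.map_add, Multiset.prod_add]

theorem Xl_V {Λ : Finset Site} (R : Multiset Site) (l : List Cn) (hl : ∀ c ∈ l, c.1 ∈ Λ)
    {i j : ℤ} (h : ((i, j + 1) : Site) ∈ hor Λ) :
    Xl Λ R l ((i, j + 1), (i, j)) = √2 * Xl Λ R l ((i, j + 1), (i, j + 1)) -
      tauR (fcs l + R) (i, j) * Xl Λ R l ((i + 1, j + 1), (i, j + 1)) ∧
    Xl Λ R l ((i + 1, j + 1), (i, j)) = √2 * Xl Λ R l ((i + 1, j + 1), (i, j + 1)) -
      tauR (fcs l + R) (i, j) * Xl Λ R l ((i, j + 1), (i, j + 1)) := by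
  have hA : ∀ v ∈ sps l, v ∈ Λ := by
    intro v hv
    obtain ⟨c, hc, rfl⟩ := List.mem_map.1 (Multiset.mem_coe.1 hv)
    exact hl c hc
  have := (spr_QQ (fcs l + R) hA (QQ Λ R 0)).V i j h
  exact this

theorem Xl_V0 {Λ : Finset Site} (R : Multiset Site) (l : List Cn) (hl : ∀ c ∈ l, c.1 ∈ Λ)
    {i j : ℤ} (h : ((i, j + 1) : Site) ∉ hor Λ) :
    Xl Λ R l ((i, j + 1), (i, j)) = Xl Λ R l ((i, j + 1), (i, j + 1)) ∧
    Xl Λ R l ((i + 1, j + 1), (i, j)) = Xl Λ R l ((i + 1, j + 1), (i, j + 1)) := by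
  have hA : ∀ v ∈ sps l, v ∈ Λ := by
    intro v hv
    obtain ⟨c, hc, rfl⟩ := List.mem_map.1 (Multiset.mem_coe.1 hv)
    exact hl c hc
  exact (spr_QQ (fcs l + R) hA (QQ Λ R 0)).V0 i j h

theorem Xl_H {Λ : Finset Site} (R : Multiset Site) (l : List Cn) (hl : ∀ c ∈ l, c.1 ∈ Λ)
    {i j : ℤ} (h : ((i + 1, j) : Site) ∈ ver Λ) :
    Xl Λ R l ((i + 1, j), (i, j)) = theA (sps l) (i, j) * (√2 * Xl Λ R l ((i + 1, j), (i + 1, j)) -
      Xl Λ R l ((i + 1, j + 1), (i + 1, j))) ∧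
    Xl Λ R l ((i + 1, j + 1), (i, j)) = -(theA (sps l) (i, j) *
      (√2 * Xl Λ R l ((i + 1, j + 1), (i + 1, j)) - Xl Λ R l ((i + 1, j), (i + 1, j)))) := by
  have hA : ∀ v ∈ sps l, v ∈ Λ := by
    intro v hv
    obtain ⟨c, hc, rfl⟩ := List.mem_map.1 (Multiset.mem_coe.1 hv)
    exact hl c hc
  exact (spr_QQ (fcs l + R) hA (QQ Λ R 0)).H i j h

theorem Xl_H0 {Λ : Finset Site} (R : Multiset Site) (l : List Cn) (hl : ∀ c ∈ l, c.1 ∈ Λ)
    {i j : ℤ} (h : ((i + 1, j) : Site) ∉ ver Λ) :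
    Xl Λ R l ((i + 1, j), (i, j)) = theA (sps l) (i, j) * Xl Λ R l ((i + 1, j), (i + 1, j)) ∧
    Xl Λ R l ((i + 1, j + 1), (i, j)) = -(theA (sps l) (i, j) *
      Xl Λ R l ((i + 1, j + 1), (i + 1, j))) := by
  have hA : ∀ v ∈ sps l, v ∈ Λ := by
    intro v hv
    obtain ⟨c, hc, rfl⟩ := List.mem_map.1 (Multiset.mem_coe.1 hv)
    exact hl c hc
  exact (spr_QQ (fcs l + R) hA (QQ Λ R 0)).H0 i j h

theorem theA_cons (v : Site) (A : Multiset Site) (f : Site) :
    theA (v ::ₘ A) f = chi (sw f.1 f.2) v * theA A f := by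
  unfold theA; rw [chiM_cons]

/-- The products of the signs at the corners of a horizontal relation. -/
theorem prod_H (l : List Cn) (hl : ∀ c ∈ l, c.1 ∈ cnr c.2) (i j : ℤ) :
    (l.map (ep ((i + 1, j + 1), (i + 1, j)))).prod = (l.map (ep ((i + 1, j), (i + 1, j)))).prod ∧
    (l.map (ep ((i + 1, j), (i, j)))).prod =
      theA (sps l) (i, j) * (l.map (ep ((i + 1, j), (i + 1, j)))).prod ∧
    (l.map (ep ((i + 1, j + 1), (i, j)))).prod =
      theA (sps l) (i, j) * (l.map (ep ((i + 1, j), (i + 1, j)))).prod := by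
  induction l with
  | nil => simp [sps, theA, chiM]
  | cons c l ih =>
    have ih := ih fun c h => hl c (List.mem_cons_of_mem _ h)
    obtain ⟨h1, h2, h3⟩ := ep_H i j (hl c (List.mem_cons_self ..))
    rw [sps_cons, theA_cons]
    simp only [List.map_cons, List.prod_cons]
    rw [ih.1, ih.2.1, ih.2.2, h1, h2, h3]
    refine ⟨rfl, ?_, ?_⟩ <;> ring

theorem prod_V (l : List Cn) (hl : ∀ c ∈ l, c.1 ∈ cnr c.2) (i j : ℤ) :
    (l.map (et ((i, j + 1), (i, j)))).prod = (l.map (et ((i, j + 1), (i, j + 1)))).prod ∧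
    (l.map (et ((i + 1, j + 1), (i, j)))).prod = (l.map (et ((i + 1, j + 1), (i, j + 1)))).prod ∧
    (l.map (et ((i, j + 1), (i, j + 1)))).prod =
      ((fcs l).map fun r => cut1 r (i, j + 1)).prod *
        (l.map (et ((i + 1, j + 1), (i, j + 1)))).prod := by
  induction l with
  | nil => simp [fcs]
  | cons c l ih =>
    have ih := ih fun c h => hl c (List.mem_cons_of_mem _ h)
    obtain ⟨h1, h2, h3⟩ := ep_V i j (hl c (List.mem_cons_self ..))
    rw [fcs_cons, Multiset.map_cons, Multiset.prod_cons]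
    simp only [List.map_cons, List.prod_cons]
    rw [ih.1, ih.2.1, ih.2.2, h1, h2, h3]
    refine ⟨rfl, rfl, ?_⟩
    ring

theorem cutF_sq (F : Multiset Site) (x : Site) :
    (F.map fun r => cut1 r x).prod * (F.map fun r => cut1 r x).prod = 1 := cutS_sq F x

/-- Horizontal relations of `Tl`. -/
theorem Tl_H {Λ : Finset Site} (R : Multiset Site) (l : List Cn)
    (hl : ∀ c ∈ l, c.1 ∈ cnr c.2 ∧ c.1 ∈ Λ) {i j : ℤ} (h : ((i + 1, j) : Site) ∈ ver Λ) :
    Tl Λ R l ((i + 1, j), (i, j)) = √2 * Tl Λ R l ((i + 1, j), (i + 1, j)) -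
      Tl Λ R l ((i + 1, j + 1), (i + 1, j)) ∧
    Tl Λ R l ((i + 1, j + 1), (i, j)) = -(√2 * Tl Λ R l ((i + 1, j + 1), (i + 1, j)) -
      Tl Λ R l ((i + 1, j), (i + 1, j))) := by
  obtain ⟨p1, p2, p3⟩ := prod_H l (fun c hc => (hl c hc).1) i j
  obtain ⟨e1, e2⟩ := Xl_H R l (fun c hc => (hl c hc).2) h
  have t := chiM_sq (sw i j) (sps l)
  have t' : theA (sps l) (i, j) * theA (sps l) (i, j) = 1 := t
  unfold Tl
  rw [p1, p2, p3, e1, e2]
  constructor
  · linear_combination ((l.map (ep ((i + 1, j), (i + 1, j)))).prod *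
      (√2 * Xl Λ R l ((i + 1, j), (i + 1, j)) - Xl Λ R l ((i + 1, j + 1), (i + 1, j)))) * t'
  · linear_combination (-((l.map (ep ((i + 1, j), (i + 1, j)))).prod *
      (√2 * Xl Λ R l ((i + 1, j + 1), (i + 1, j)) - Xl Λ R l ((i + 1, j), (i + 1, j))))) * t'

theorem Tl_H0 {Λ : Finset Site} (R : Multiset Site) (l : List Cn)
    (hl : ∀ c ∈ l, c.1 ∈ cnr c.2 ∧ c.1 ∈ Λ) {i j : ℤ} (h : ((i + 1, j) : Site) ∉ ver Λ) :
    Tl Λ R l ((i + 1, j), (i, j)) = Tl Λ R l ((i + 1, j), (i + 1, j)) ∧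
    Tl Λ R l ((i + 1, j + 1), (i, j)) = -Tl Λ R l ((i + 1, j + 1), (i + 1, j)) := by
  obtain ⟨p1, p2, p3⟩ := prod_H l (fun c hc => (hl c hc).1) i j
  obtain ⟨e1, e2⟩ := Xl_H0 R l (fun c hc => (hl c hc).2) h
  have t := chiM_sq (sw i j) (sps l)
  have t' : theA (sps l) (i, j) * theA (sps l) (i, j) = 1 := t
  unfold Tl
  rw [p1, p2, p3, e1, e2]
  constructor
  · linear_combination ((l.map (ep ((i + 1, j), (i + 1, j)))).prod *
      Xl Λ R l ((i + 1, j), (i + 1, j))) * t'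
  · linear_combination (-((l.map (ep ((i + 1, j), (i + 1, j)))).prod *
      Xl Λ R l ((i + 1, j + 1), (i + 1, j)))) * t'

theorem Sl_V {Λ : Finset Site} (R : Multiset Site) (l : List Cn)
    (hl : ∀ c ∈ l, c.1 ∈ cnr c.2 ∧ c.1 ∈ Λ) {i j : ℤ} (h : ((i, j + 1) : Site) ∈ hor Λ) :
    Sl Λ R l ((i, j + 1), (i, j)) = √2 * Sl Λ R l ((i, j + 1), (i, j + 1)) -
      tauR R (i, j) * Sl Λ R l ((i + 1, j + 1), (i, j + 1)) ∧
    Sl Λ R l ((i + 1, j + 1), (i, j)) = √2 * Sl Λ R l ((i + 1, j + 1), (i, j + 1)) -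
      tauR R (i, j) * Sl Λ R l ((i, j + 1), (i, j + 1)) := by
  obtain ⟨p1, p2, p3⟩ := prod_V l (fun c hc => (hl c hc).1) i j
  obtain ⟨e1, e2⟩ := Xl_V R l (fun c hc => (hl c hc).2) h
  have t := cutF_sq (fcs l) (i, j + 1)
  unfold Sl
  rw [p1, p2, p3, e1, e2, tauR_add]
  simp only
  constructor
  · linear_combination (-((l.map (et ((i + 1, j + 1), (i, j + 1)))).prod *
      tauR R (i, j) * Xl Λ R l ((i + 1, j + 1), (i, j + 1)))) * t
  · ring

theorem Sl_V0 {Λ : Finset Site} (R : Multiset Site) (l : List Cn)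
    (hl : ∀ c ∈ l, c.1 ∈ cnr c.2 ∧ c.1 ∈ Λ) {i j : ℤ} (h : ((i, j + 1) : Site) ∉ hor Λ) :
    Sl Λ R l ((i, j + 1), (i, j)) = Sl Λ R l ((i, j + 1), (i, j + 1)) ∧
    Sl Λ R l ((i + 1, j + 1), (i, j)) = Sl Λ R l ((i + 1, j + 1), (i, j + 1)) := by
  obtain ⟨p1, p2, p3⟩ := prod_V l (fun c hc => (hl c hc).1) i j
  obtain ⟨e1, e2⟩ := Xl_V0 R l (fun c hc => (hl c hc).2) h
  unfold Sl
  rw [p1, p2, e1, e2]
  exact ⟨rfl, rfl⟩

end Vale.Agent.P144.AL
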