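import Vale.Agent.P144.U.AL.Fin2

/-!
Sub- and superharmonicity of the `H`-function in the diamond `dia N`, uniqueness of spinors.
-/

namespace Vale.Agent.P144.AL

open Finset Vale.Agent.P144

theorem mem_dia {N : ℕ} {x : Site} : x ∈ dia N ↔ |x.1| + |x.2| ≤ N := H436.mem_dia

theorem colConvex_dia (N : ℕ) : ColConvex (dia N) := by
  intro i j hv
  simp only [mem_dia] at hv ⊢
  rcases le_total 0 j with h | h
  · left
    intro y hy
    rw [abs_of_nonneg h] at hv
    rw [abs_of_nonneg (h.trans hy)]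
    lia
  · right
    intro y hy
    rw [abs_of_nonpos h] at hv
    rw [abs_of_nonpos (hy.trans h)]
    lia

section

variable {Λ : Finset Site} {τ θ A B C D Hs Hf : Site → ℝ} (h : Spr Λ τ θ A B C D)
  (hH : IsH Λ A B C D Hs Hf)

include h hH

theorem Spr.Hs_A {i j : ℤ} (hv : ((i, j) : Site) ∉ Λ ∨ ((i + 1, j) : Site) ∉ Λ ∨
    ((i, j + 1) : Site) ∉ Λ ∨ ((i + 1, j + 1) : Site) ∉ Λ) : Hs (i, j) = A (i, j) ^ 2 := by
  have := hH.a i j
  rw [h.Hf_out hH hv] at this
  linarith

theorem Spr.absN {i j : ℤ} (hv : ((i, j + 1) : Site) ∉ Λ) :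
    B (i - 1, j) = θ (i - 1, j) * A (i, j) ∧ Hs (i, j + 1) - Hs (i, j) = -A (i, j) ^ 2 := by
  have e1 := h.H0 (i - 1) j (by
    rw [sub_add_cancel, mem_ver]
    exact fun hh => hv hh.2)
  rw [sub_add_cancel] at e1
  refine ⟨e1.1, ?_⟩
  rw [h.Hs_A hH (Or.inr (Or.inr (Or.inl hv))), hH.out _ hv]
  ring

theorem Spr.absS {i j : ℤ} (hv : ((i, j - 1) : Site) ∉ Λ) :
    D (i - 1, j - 1) = -(θ (i - 1, j - 1) * C (i, j - 1)) ∧
      Hs (i, j - 1) - Hs (i, j) = -C (i, j - 1) ^ 2 := by
  have e1 := h.H0 (i - 1) (j - 1) (by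
    rw [sub_add_cancel, mem_ver]
    exact fun hh => hv hh.1)
  rw [sub_add_cancel] at e1
  refine ⟨e1.2, ?_⟩
  have e2 := hH.c i (j - 1)
  rw [sub_add_cancel, h.Hf_out hH (Or.inl hv)] at e2
  rw [hH.out _ hv]
  linarith

theorem Spr.absE {i j : ℤ} (hv : ((i + 1, j) : Site) ∉ Λ) :
    C (i, j - 1) = A (i, j) ∧ Hs (i + 1, j) - Hs (i, j) = -A (i, j) ^ 2 := by
  have e1 := h.V0 i (j - 1) (by
    rw [sub_add_cancel, mem_hor]
    exact fun hh => hv hh.2)
  rw [sub_add_cancel] at e1
  refine ⟨e1.1, ?_⟩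
  rw [h.Hs_A hH (Or.inr (Or.inl hv)), hH.out _ hv]
  ring

theorem Spr.absW {i j : ℤ} (hv : ((i - 1, j) : Site) ∉ Λ) :
    D (i - 1, j - 1) = B (i - 1, j) ∧ Hs (i - 1, j) - Hs (i, j) = -B (i - 1, j) ^ 2 := by
  have e1 := h.V0 (i - 1) (j - 1) (by
    rw [sub_add_cancel, mem_hor]
    exact fun hh => hv hh.1)
  rw [sub_add_cancel] at e1
  refine ⟨e1.2, ?_⟩
  have e2 := hH.b (i - 1) j
  rw [sub_add_cancel, h.Hf_out hH (Or.inl hv)] at e2
  rw [hH.out _ hv]
  linarith

omit h hH in
theorem quad_nonneg (a b c d t : ℝ) (ht : t * t = 1) :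
    0 ≤ 2 * (a ^ 2 + b ^ 2 + c ^ 2 + d ^ 2) - 2 * √2 * (t * (a * b) - t * (c * d) + a * c + b * d) := by
  have h2 := sqrt2_sq
  have e : 2 * (a ^ 2 + b ^ 2 + c ^ 2 + d ^ 2) -
      2 * √2 * (t * (a * b) - t * (c * d) + a * c + b * d) =
      (√2 * a - (t * b + c)) ^ 2 + (√2 * d - (b - t * c)) ^ 2 := by
    linear_combination (-(a ^ 2 + d ^ 2)) * h2 - (b ^ 2 + c ^ 2) * ht
  rw [e]
  positivity

omit h hH in
theorem quad_lower (a b c d t s : ℝ) (ht : t * t = 1) (hs : s * s = 1) :
    -(2 * √2 - 2) * (a ^ 2 + b ^ 2 + c ^ 2 + d ^ 2) ≤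
      2 * (a ^ 2 + b ^ 2 + c ^ 2 + d ^ 2) - 2 * √2 * (t * (a * b) - s * (c * d) + a * c + b * d) := by
  have h0 : (0:ℝ) ≤ √2 := by positivity
  have k1 : t * (a * b) ≤ (a ^ 2 + b ^ 2) / 2 := by
    rcases mul_self_eq_one_iff.1 ht with h | h <;> rw [h] <;> nlinarith [sq_nonneg (a - b), sq_nonneg (a + b)]
  have k2 : -(s * (c * d)) ≤ (c ^ 2 + d ^ 2) / 2 := by
    rcases mul_self_eq_one_iff.1 hs with h | h <;> rw [h] <;> nlinarith [sq_nonneg (c - d), sq_nonneg (c + d)]
  have k3 : a * c ≤ (a ^ 2 + c ^ 2) / 2 := by nlinarith [sq_nonneg (a - c)]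
  have k4 : b * d ≤ (b ^ 2 + d ^ 2) / 2 := by nlinarith [sq_nonneg (b - d)]
  have : t * (a * b) - s * (c * d) + a * c + b * d ≤ a ^ 2 + b ^ 2 + c ^ 2 + d ^ 2 := by linarith
  nlinarith

/-- The Laplacian of `Hs` at a site all of whose neighbours are in `Λ`. -/
theorem Spr.lap_int {i j : ℤ} (hv : ((i, j) : Site) ∈ Λ) (hN : ((i, j + 1) : Site) ∈ Λ)
    (hS : ((i, j - 1) : Site) ∈ Λ) (hE : ((i + 1, j) : Site) ∈ Λ) (hW : ((i - 1, j) : Site) ∈ Λ) :
    lap Hs (i, j) = 2 * (A (i, j) ^ 2 + B (i - 1, j) ^ 2 + C (i, j - 1) ^ 2 + D (i - 1, j - 1) ^ 2) -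
      2 * √2 * (θ (i - 1, j) * (A (i, j) * B (i - 1, j)) -
        θ (i - 1, j - 1) * (C (i, j - 1) * D (i - 1, j - 1)) + A (i, j) * C (i, j - 1) +
        B (i - 1, j) * D (i - 1, j - 1)) := by
  have e1 := h.dN hH (mem_ver.2 ⟨hv, hN⟩)
  have e2 := h.dS hH (i := i) (j := j) (mem_ver.2 ⟨hS, by simpa using hv⟩)
  have e3 := h.dE hH (mem_hor.2 ⟨hv, hE⟩)
  have e4 := h.dW hH (i := i) (j := j) (mem_hor.2 ⟨hW, by simpa using hv⟩)
  unfold lap
  simp only
  linear_combination e1 + e2 + e3 + e4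

/-- Lower bound at a site where a spin is inserted. -/
theorem Spr.lap_int_lower {i j : ℤ} (hv : ((i, j) : Site) ∈ Λ) (hN : ((i, j + 1) : Site) ∈ Λ)
    (hS : ((i, j - 1) : Site) ∈ Λ) (hE : ((i + 1, j) : Site) ∈ Λ) (hW : ((i - 1, j) : Site) ∈ Λ) :
    -(2 * √2 - 2) * (A (i, j) ^ 2 + B (i - 1, j) ^ 2 + C (i, j - 1) ^ 2 + D (i - 1, j - 1) ^ 2) ≤
      lap Hs (i, j) := by
  rw [h.lap_int hH hv hN hS hE hW]
  exact quad_lower _ _ _ _ _ _ (h.θ2 _) (h.θ2 _)

end

section dia

variable {N : ℕ} {τ θ A B C D Hs Hf : Site → ℝ} (h : Spr (dia N) τ θ A B C D)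
  (hH : IsH (dia N) A B C D Hs Hf)

include h hH

/-- `Hs` is subharmonic at all sites of the diamond where no spin is inserted. -/
theorem Spr.lap_nonneg {i j : ℤ} (hv : ((i, j) : Site) ∈ dia N)
    (hθ : θ (i - 1, j) = θ (i - 1, j - 1)) : 0 ≤ lap Hs (i, j) := by
  have hv' := mem_dia.1 hv
  simp only at hv'
  by_cases hlt : |i| + |j| < N
  · have key : ∀ x : Site, |x.1 - i| + |x.2 - j| ≤ 1 → x ∈ dia N := by
      intro x hx
      rw [mem_dia]
      have h1 : |x.1| ≤ |x.1 - i| + |i| := by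
        have := abs_add_le (x.1 - i) i; rwa [sub_add_cancel] at this
      have h2 : |x.2| ≤ |x.2 - j| + |j| := by
        have := abs_add_le (x.2 - j) j; rwa [sub_add_cancel] at this
      lia
    rw [h.lap_int hH hv (key _ (by simp)) (key _ (by simp)) (key _ (by simp)) (key _ (by simp)),
      ← hθ]
    exact quad_nonneg _ _ _ _ _ (h.θ2 _)
  · have hN : |i| + |j| = N := by lia
    have h2 := sqrt2_sq
    have hs : (1:ℝ) ≤ √2 := by
      rw [Real.one_le_sqrt]; norm_num
    have t2 := h.θ2 (i - 1, j)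
    have notN : 0 ≤ j → ((i, j + 1) : Site) ∉ dia N := by
      intro hj hh
      have := mem_dia.1 hh
      simp only at this
      rw [abs_of_nonneg (by lia : 0 ≤ j + 1)] at this
      rw [abs_of_nonneg hj] at hN
      lia
    have notS : j ≤ 0 → ((i, j - 1) : Site) ∉ dia N := by
      intro hj hh
      have := mem_dia.1 hh
      simp only at this
      rw [abs_of_nonpos (by lia : j - 1 ≤ 0)] at this
      rw [abs_of_nonpos hj] at hN
      lia
    have notE : 0 ≤ i → ((i + 1, j) : Site) ∉ dia N := by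
      intro hj hh
      have := mem_dia.1 hh
      simp only at this
      rw [abs_of_nonneg (by lia : 0 ≤ i + 1)] at this
      rw [abs_of_nonneg hj] at hN
      lia
    have notW : i ≤ 0 → ((i - 1, j) : Site) ∉ dia N := by
      intro hj hh
      have := mem_dia.1 hh
      simp only at this
      rw [abs_of_nonpos (by lia : i - 1 ≤ 0)] at this
      rw [abs_of_nonpos hj] at hN
      lia
    have inN : j < 0 → ((i, j + 1) : Site) ∈ dia N := by
      intro hj
      rw [mem_dia]
      simp only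
      rw [abs_of_nonpos (by lia : j + 1 ≤ 0)]
      rw [abs_of_neg hj] at hN
      lia
    have inS : 0 < j → ((i, j - 1) : Site) ∈ dia N := by
      intro hj
      rw [mem_dia]
      simp only
      rw [abs_of_nonneg (by lia : 0 ≤ j - 1)]
      rw [abs_of_pos hj] at hN
      lia
    have inE : i < 0 → ((i + 1, j) : Site) ∈ dia N := by
      intro hj
      rw [mem_dia]
      simp only
      rw [abs_of_nonpos (by lia : i + 1 ≤ 0)]
      rw [abs_of_neg hj] at hN
      lia
    have inW : 0 < i → ((i - 1, j) : Site) ∈ dia N := by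
      intro hj
      rw [mem_dia]
      simp only
      rw [abs_of_nonneg (by lia : 0 ≤ i - 1)]
      rw [abs_of_pos hj] at hN
      lia
    have vS : ((i, j - 1) : Site) ∈ dia N → ((i, j - 1) : Site) ∈ ver (dia N) :=
      fun hh => mem_ver.2 ⟨hh, by simpa using hv⟩
    have vW : ((i - 1, j) : Site) ∈ dia N → ((i - 1, j) : Site) ∈ hor (dia N) :=
      fun hh => mem_hor.2 ⟨hh, by simpa using hv⟩
    unfold lap
    simp only
    set a := A (i, j) with ha
    set b := B (i - 1, j) with hb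
    set c := C (i, j - 1) with hc
    set d := D (i - 1, j - 1) with hd
    set t := θ (i - 1, j) with ht
    rcases lt_trichotomy i 0 with hi | hi | hi <;> rcases lt_trichotomy j 0 with hj | hj | hj
    · -- i < 0, j < 0 : S, W absent
      have e1 := h.dN hH (mem_ver.2 ⟨hv, inN hj⟩)
      have e2 := h.absS hH (notS hj.le)
      have e3 := h.dE hH (mem_hor.2 ⟨hv, inE hi⟩)
      have e4 := h.absW hH (notW hi.le)
      rw [← hθ] at e2
      have hcb : c = -(t * b) := by
        linear_combination (-c) * t2 + t * e2.1 - t * e4.1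
      have : Hs (i + 1, j) + Hs (i - 1, j) + Hs (i, j + 1) + Hs (i, j - 1) - 4 * Hs (i, j) =
          2 * a ^ 2 := by
        linear_combination e1 + e2.2 + e3 + e4.2 - 2 * √2 * a * hcb
      rw [this]; positivity
    · -- i < 0, j = 0 : N, S, W absent
      have e1 := h.absN hH (notN hj.ge)
      have e2 := h.absS hH (notS hj.le)
      have e3 := h.dE hH (mem_hor.2 ⟨hv, inE hi⟩)
      have e4 := h.absW hH (notW hi.le)
      rw [← hθ] at e2
      have hcb : c = -a := by
        linear_combination (-c) * t2 + t * e2.1 - t * e4.1 - t * e1.1 - a * t2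
      have hba : b ^ 2 = a ^ 2 := by linear_combination (b + t * a) * e1.1 + a ^ 2 * t2
      have : Hs (i + 1, j) + Hs (i - 1, j) + Hs (i, j + 1) + Hs (i, j - 1) - 4 * Hs (i, j) =
          (2 * √2 - 1) * a ^ 2 := by
        linear_combination e1.2 + e2.2 + e3 + e4.2 - hba - 2 * √2 * a * hcb
      rw [this]
      have : 0 ≤ 2 * √2 - 1 := by linarith
      positivity
    · -- i < 0, j > 0 : N, W absent
      have e1 := h.absN hH (notN hj.le)
      have e2 := h.dS hH (i := i) (j := j) (vS (inS hj))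
      have e3 := h.dE hH (mem_hor.2 ⟨hv, inE hi⟩)
      have e4 := h.absW hH (notW hi.le)
      rw [← hθ] at e2
      have hda : d = t * a := by linear_combination e4.1 + e1.1
      have hba : b ^ 2 = a ^ 2 := by linear_combination (b + t * a) * e1.1 + a ^ 2 * t2
      have : Hs (i + 1, j) + Hs (i - 1, j) + Hs (i, j + 1) + Hs (i, j - 1) - 4 * Hs (i, j) =
          2 * c ^ 2 := by
        linear_combination e1.2 + e2 + e3 + e4.2 - hba + (d + t * a + 2 * √2 * t * c) * hda +
          (a ^ 2 + 2 * √2 * c * a) * t2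
      rw [this]; positivity
    · -- i = 0, j < 0 : S, E, W absent
      have e1 := h.dN hH (mem_ver.2 ⟨hv, inN hj⟩)
      have e2 := h.absS hH (notS hj.le)
      have e3 := h.absE hH (notE hi.ge)
      have e4 := h.absW hH (notW hi.le)
      rw [← hθ] at e2
      have hba : b = -(t * a) := by linear_combination e2.1 - e4.1 - t * e3.1
      have : Hs (i + 1, j) + Hs (i - 1, j) + Hs (i, j + 1) + Hs (i, j - 1) - 4 * Hs (i, j) =
          (2 * √2 - 1) * a ^ 2 := by
        linear_combination e1 + e2.2 + e3.2 + e4.2 - (c + a) * e3.1 - 2 * √2 * t * a * hba +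
          (2 * √2 * a ^ 2) * t2
      rw [this]
      have : 0 ≤ 2 * √2 - 1 := by linarith
      positivity
    · -- i = 0, j = 0 : all absent
      have e1 := h.absN hH (notN hj.ge)
      have e2 := h.absS hH (notS hj.le)
      have e3 := h.absE hH (notE hi.ge)
      have e4 := h.absW hH (notW hi.le)
      rw [← hθ] at e2
      have hba : t * a = 0 := by
        linear_combination (-1 / 2) * e1.1 - (1 / 2) * e4.1 + (1 / 2) * e2.1 - (1 / 2) * t * e3.1
      have ha0 : a = 0 := by
        have : a = t * (t * a) := by linear_combination (-a) * t2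
        rw [this, hba, mul_zero]
      have hb0 : b = 0 := by linear_combination e1.1 + hba
      have hc0 : c = 0 := by linear_combination e3.1 + ha0
      have : Hs (i + 1, j) + Hs (i - 1, j) + Hs (i, j + 1) + Hs (i, j - 1) - 4 * Hs (i, j) =
          0 := by
        linear_combination e1.2 + e2.2 + e3.2 + e4.2 - 2 * a * ha0 - b * hb0 - c * hc0
      rw [this]
    · -- i = 0, j > 0 : N, E, W absent
      have e1 := h.absN hH (notN hj.le)
      have e2 := h.dS hH (i := i) (j := j) (vS (inS hj))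
      have e3 := h.absE hH (notE hi.ge)
      have e4 := h.absW hH (notW hi.le)
      rw [← hθ] at e2
      have hda : d = t * a := by linear_combination e4.1 + e1.1
      have hba : b ^ 2 = a ^ 2 := by linear_combination (b + t * a) * e1.1 + a ^ 2 * t2
      have : Hs (i + 1, j) + Hs (i - 1, j) + Hs (i, j + 1) + Hs (i, j - 1) - 4 * Hs (i, j) =
          (2 * √2 - 1) * a ^ 2 := by
        linear_combination e1.2 + e2 + e3.2 + e4.2 - hba + (c + a + 2 * √2 * t * d) * e3.1 +
          (d + t * a + 2 * √2 * t * a) * hda + (a ^ 2 + 2 * √2 * a ^ 2) * t2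
      rw [this]
      have : 0 ≤ 2 * √2 - 1 := by linarith
      positivity
    · -- i > 0, j < 0 : S, E absent
      have e1 := h.dN hH (mem_ver.2 ⟨hv, inN hj⟩)
      have e2 := h.absS hH (notS hj.le)
      have e3 := h.absE hH (notE hi.le)
      have e4 := h.dW hH (i := i) (j := j) (vW (inW hi))
      rw [← hθ] at e2
      have hda : d = -(t * a) := by linear_combination e2.1 - t * e3.1
      have : Hs (i + 1, j) + Hs (i - 1, j) + Hs (i, j + 1) + Hs (i, j - 1) - 4 * Hs (i, j) =
          2 * b ^ 2 := by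
        linear_combination e1 + e2.2 + e3.2 + e4 - (c + a) * e3.1 + (d - t * a - 2 * √2 * b) * hda +
          a ^ 2 * t2
      rw [this]; positivity
    · -- i > 0, j = 0 : N, S, E absent
      have e1 := h.absN hH (notN hj.ge)
      have e2 := h.absS hH (notS hj.le)
      have e3 := h.absE hH (notE hi.le)
      have e4 := h.dW hH (i := i) (j := j) (vW (inW hi))
      rw [← hθ] at e2
      have hda : d = -(t * a) := by linear_combination e2.1 - t * e3.1
      have : Hs (i + 1, j) + Hs (i - 1, j) + Hs (i, j + 1) + Hs (i, j - 1) - 4 * Hs (i, j) =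
          (2 * √2 - 1) * a ^ 2 := by
        linear_combination e1.2 + e2.2 + e3.2 + e4 - (c + a) * e3.1 +
          (d - t * a - 2 * √2 * b) * hda + (b + t * a + 2 * √2 * t * a) * e1.1 +
          (2 * a ^ 2 + 2 * √2 * a ^ 2) * t2
      rw [this]
      have : 0 ≤ 2 * √2 - 1 := by linarith
      positivity
    · -- i > 0, j > 0 : N, E absent
      have e1 := h.absN hH (notN hj.le)
      have e2 := h.dS hH (i := i) (j := j) (vS (inS hj))
      have e3 := h.absE hH (notE hi.le)
      have e4 := h.dW hH (i := i) (j := j) (vW (inW hi))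
      rw [← hθ] at e2
      have : Hs (i + 1, j) + Hs (i - 1, j) + Hs (i, j + 1) + Hs (i, j - 1) - 4 * Hs (i, j) =
          2 * d ^ 2 := by
        linear_combination e1.2 + e2 + e3.2 + e4 + (c + a + 2 * √2 * t * d) * e3.1 +
          (b + t * a - 2 * √2 * d) * e1.1 + a ^ 2 * t2
      rw [this]; positivity

end dia

end Vale.Agent.P144.AL
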