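import Vale.Agent.P144.U.AL.Fin5

/-!
Total masses of the `H`-function in the diamond.
-/

namespace Vale.Agent.P144.AL

open Finset Vale.Agent.P144

/-- The four corners of a face. -/
def cnr (f : Site) : Finset Site := {f, (f.1 + 1, f.2), (f.1, f.2 + 1), (f.1 + 1, f.2 + 1)}

theorem mem_cnr {f v : Site} : v ∈ cnr f ↔
    v = f ∨ v = (f.1 + 1, f.2) ∨ v = (f.1, f.2 + 1) ∨ v = (f.1 + 1, f.2 + 1) := by
  unfold cnr; simp

theorem mem_cnr' {f v : Site} : v ∈ cnr f ↔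
    f = v ∨ f = (v.1 - 1, v.2) ∨ f = (v.1, v.2 - 1) ∨ f = (v.1 - 1, v.2 - 1) := by
  rw [mem_cnr]
  obtain ⟨a, b⟩ := f
  obtain ⟨c, d⟩ := v
  simp only [Prod.mk.injEq]
  lia

theorem sum_cnr (u : Site → ℝ) (f : Site) : ∑ v ∈ cnr f, u v =
    u f + u (f.1 + 1, f.2) + u (f.1, f.2 + 1) + u (f.1 + 1, f.2 + 1) := by
  unfold cnr
  obtain ⟨a, b⟩ := f
  rw [sum_insert (by simp), sum_insert (by simp), sum_insert (by simp), sum_singleton]
  ring

/-- Every site is a corner of four faces. -/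
theorem sum_sum_cnr {u : Site → ℝ} (hu : ∀ v, 0 ≤ u v) {T S : Finset Site}
    (hS : ∀ v ∉ S, u v = 0) : ∑ f ∈ T, ∑ v ∈ cnr f, u v ≤ 4 * ∑ v ∈ S, u v := by
  classical
  have e1 : ∀ f ∈ T, ∑ v ∈ cnr f, u v = ∑ v ∈ S, if v ∈ cnr f then u v else 0 := by
    intro f _
    rw [← sum_filter]
    refine (sum_subset (fun v hv => (mem_filter.1 hv).2) fun v hv hv' => ?_).symm
    exact hS v fun h => hv' (mem_filter.2 ⟨h, hv⟩)
  rw [sum_congr rfl e1, sum_comm, mul_sum]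
  refine sum_le_sum fun v _ => ?_
  rw [← sum_filter, sum_const, nsmul_eq_mul]
  refine mul_le_mul_of_nonneg_right ?_ (hu v)
  have : T.filter (fun f => v ∈ cnr f) ⊆
      ({v, (v.1 - 1, v.2), (v.1, v.2 - 1), (v.1 - 1, v.2 - 1)} : Finset Site) := by
    intro f hf
    have := mem_cnr'.1 (mem_filter.1 hf).2
    simpa using this
  have h2 := card_le_card this
  have h3 : ({v, (v.1 - 1, v.2), (v.1, v.2 - 1), (v.1 - 1, v.2 - 1)} : Finset Site).card ≤ 4 :=
    card_le_four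
  exact_mod_cast h2.trans h3

section

variable {Λ : Finset Site} {τ θ A B C D Hs Hf : Site → ℝ} (h : Spr Λ τ θ A B C D)
  (hH : IsH Λ A B C D Hs Hf)

include h hH

/-- `Hs ≥ 0` at sites with a neighbour outside. -/
theorem Spr.Hs_bdry {i j : ℤ} (hv : ((i + 1, j) : Site) ∉ Λ ∨ ((i - 1, j) : Site) ∉ Λ ∨
    ((i, j + 1) : Site) ∉ Λ ∨ ((i, j - 1) : Site) ∉ Λ) : 0 ≤ Hs (i, j) := by
  rcases hv with hv | hv | hv | hv
  · rw [h.Hs_A hH (Or.inr (Or.inl hv))]; positivity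
  · have := hH.b (i - 1) j
    rw [sub_add_cancel, h.Hf_out hH (Or.inl hv)] at this
    have e := sq_nonneg (B (i - 1, j))
    linarith
  · rw [h.Hs_A hH (Or.inr (Or.inr (Or.inl hv)))]; positivity
  · have := hH.c i (j - 1)
    rw [sub_add_cancel, h.Hf_out hH (Or.inl hv)] at this
    have e := sq_nonneg (C (i, j - 1))
    linarith

theorem Spr.lap_out {v : Site} (hv : v ∉ Λ) : 0 ≤ lap Hs v := by
  obtain ⟨i, j⟩ := v
  unfold lap
  simp only
  rw [hH.out _ hv]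
  have h1 := h.Hs_bdry hH (i := i + 1) (j := j) (Or.inr (Or.inl (by simpa using hv)))
  have h2 := h.Hs_bdry hH (i := i - 1) (j := j) (Or.inl (by simpa using hv))
  have h3 := h.Hs_bdry hH (i := i) (j := j + 1) (Or.inr (Or.inr (Or.inr (by simpa using hv))))
  have h4 := h.Hs_bdry hH (i := i) (j := j - 1) (Or.inr (Or.inr (Or.inl (by simpa using hv))))
  linarith

theorem Spr.Hs_le_lap {v w : Site} (hv : v ∉ Λ)
    (hw : w = (v.1 + 1, v.2) ∨ w = (v.1 - 1, v.2) ∨ w = (v.1, v.2 + 1) ∨ w = (v.1, v.2 - 1)) :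
    Hs w ≤ lap Hs v := by
  obtain ⟨i, j⟩ := v
  unfold lap
  simp only at hw ⊢
  rw [hH.out _ hv]
  have h1 := h.Hs_bdry hH (i := i + 1) (j := j) (Or.inr (Or.inl (by simpa using hv)))
  have h2 := h.Hs_bdry hH (i := i - 1) (j := j) (Or.inl (by simpa using hv))
  have h3 := h.Hs_bdry hH (i := i) (j := j + 1) (Or.inr (Or.inr (Or.inr (by simpa using hv))))
  have h4 := h.Hs_bdry hH (i := i) (j := j - 1) (Or.inr (Or.inr (Or.inl (by simpa using hv))))
  rcases hw with rfl | rfl | rfl | rfl <;> linarith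

theorem Spr.Hf_le (f v : Site) (hv : v ∈ cnr f) : Hf f ≤ Hs v := by
  obtain ⟨i, j⟩ := f
  rcases mem_cnr.1 hv with rfl | rfl | rfl | rfl
  · have := hH.a i j; have := sq_nonneg (A (i, j)); linarith
  · have := hH.b i j; have := sq_nonneg (B (i, j)); simp only; linarith
  · have := hH.c i j; have := sq_nonneg (C (i, j)); simp only; linarith
  · have := hH.d i j; have := sq_nonneg (D (i, j)); simp only; linarith

theorem Spr.Hf_zero {f v : Site} (hv : v ∈ cnr f) (hΛ : v ∉ Λ) : Hf f = 0 := by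
  obtain ⟨i, j⟩ := f
  rcases mem_cnr.1 hv with rfl | rfl | rfl | rfl
  · exact h.Hf_out hH (Or.inl hΛ)
  · exact h.Hf_out hH (Or.inr (Or.inl hΛ))
  · exact h.Hf_out hH (Or.inr (Or.inr (Or.inl hΛ)))
  · exact h.Hf_out hH (Or.inr (Or.inr (Or.inr hΛ)))

/-- `lap Hf` at a face which has a corner outside. -/
theorem Spr.lapf_outer {f u : Site} (hu : u ∈ cnr f) (hΛ : u ∉ Λ) :
    lap Hf f ≤ 4 * ∑ v ∈ (cnr f).filter (· ∉ Λ), lap Hs v := by
  classical
  have hS0 : 0 ≤ ∑ v ∈ (cnr f).filter (· ∉ Λ), lap Hs v :=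
    sum_nonneg fun v hv => h.lap_out hH (mem_filter.1 hv).2
  have hle : ∀ v ∈ cnr f, v ∉ Λ → lap Hs v ≤ ∑ v ∈ (cnr f).filter (· ∉ Λ), lap Hs v := by
    intro v hv hv'
    exact single_le_sum (f := fun v => lap Hs v) (fun v hv => h.lap_out hH (mem_filter.1 hv).2)
      (mem_filter.2 ⟨hv, hv'⟩)
  -- a neighbouring face `f'`
  have key : ∀ f' w w' : Site, (∀ v ∈ cnr f, v ∈ cnr f' ∨ v = w ∨ v = w') →
      w ∈ cnr f → w' ∈ cnr f →
      (∃ x ∈ cnr f', x = (w.1 + 1, w.2) ∨ x = (w.1 - 1, w.2) ∨ x = (w.1, w.2 + 1) ∨ x = (w.1, w.2 - 1)) →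
      (∃ x ∈ cnr f', x = (w'.1 + 1, w'.2) ∨ x = (w'.1 - 1, w'.2) ∨ x = (w'.1, w'.2 + 1) ∨
        x = (w'.1, w'.2 - 1)) → Hf f' ≤ ∑ v ∈ (cnr f).filter (· ∉ Λ), lap Hs v := by
    intro f' w w' h1 hw hw' ⟨x, hx, hx'⟩ ⟨y, hy, hy'⟩
    rcases h1 u hu with h2 | h2 | h2
    · rw [h.Hf_zero hH h2 hΛ]; exact hS0
    · subst h2
      exact (h.Hf_le hH f' x hx).trans ((h.Hs_le_lap hH hΛ hx').trans (hle _ hw hΛ))
    · subst h2
      exact (h.Hf_le hH f' y hy).trans ((h.Hs_le_lap hH hΛ hy').trans (hle _ hw' hΛ))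
  obtain ⟨i, j⟩ := f
  have k1 := key (i + 1, j) (i, j) (i, j + 1) (by
      intro v hv
      rw [mem_cnr] at hv ⊢
      rcases hv with rfl | rfl | rfl | rfl <;> simp [add_assoc])
    (by simp [mem_cnr]) (by simp [mem_cnr])
    ⟨(i + 1, j), by simp [mem_cnr], by simp⟩ ⟨(i + 1, j + 1), by simp [mem_cnr], by simp⟩
  have k2 := key (i - 1, j) (i + 1, j) (i + 1, j + 1) (by
      intro v hv
      rw [mem_cnr] at hv ⊢
      rcases hv with rfl | rfl | rfl | rfl <;> simp)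
    (by simp [mem_cnr]) (by simp [mem_cnr])
    ⟨(i, j), by simp [mem_cnr], by simp⟩ ⟨(i, j + 1), by simp [mem_cnr], by simp⟩
  have k3 := key (i, j + 1) (i, j) (i + 1, j) (by
      intro v hv
      rw [mem_cnr] at hv ⊢
      rcases hv with rfl | rfl | rfl | rfl <;> simp)
    (by simp [mem_cnr]) (by simp [mem_cnr])
    ⟨(i, j + 1), by simp [mem_cnr], by simp⟩ ⟨(i + 1, j + 1), by simp [mem_cnr], by simp⟩
  have k4 := key (i, j - 1) (i, j + 1) (i + 1, j + 1) (by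
      intro v hv
      rw [mem_cnr] at hv ⊢
      rcases hv with rfl | rfl | rfl | rfl <;> simp)
    (by simp [mem_cnr]) (by simp [mem_cnr])
    ⟨(i, j), by simp [mem_cnr], by simp⟩ ⟨(i + 1, j), by simp [mem_cnr], by simp⟩
  have h0 := h.Hf_zero hH hu hΛ
  show Hf (i + 1, j) + Hf (i - 1, j) + Hf (i, j + 1) + Hf (i, j - 1) - 4 * Hf (i, j) ≤ _
  rw [h0]
  linarith

end

theorem supp_lap {u : Site → ℝ} {M : ℕ} (hu : ∀ x ∉ box M, u x = 0) :
    ∀ x ∉ box (M + 1), lap u x = 0 := by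
  rintro ⟨i, j⟩ hx
  have hx' : ∀ a b : ℤ, |a - i| + |b - j| ≤ 1 → ((a, b) : Site) ∉ box M := by
    intro a b hab hh
    refine hx ?_
    rw [H436.mem_box] at hh ⊢
    have h1 := abs_le.1 hh.1
    have h2 := abs_le.1 hh.2
    have h3 : |a - i| ≤ 1 := by have := abs_nonneg (b - j); lia
    have h4 : |b - j| ≤ 1 := by have := abs_nonneg (a - i); lia
    rw [abs_le] at h3 h4
    push_cast
    constructor <;> rw [abs_le] <;> constructor <;> simp only at * <;> lia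
  unfold lap
  simp only
  rw [hu _ (hx' (i + 1) j (by simp)), hu _ (hx' (i - 1) j (by simp)), hu _ (hx' i (j + 1) (by simp)),
    hu _ (hx' i (j - 1) (by simp)), hu _ (hx' i j (by simp))]
  ring

theorem mass_any {u : Site → ℝ} {Λ P : Finset Site} (hu : ∀ x ∉ Λ, u x = 0)
    (hP : ∀ x ∉ P, 0 ≤ lap u x) (T : Finset Site) :
    ∑ w ∈ T, |lap u w| ≤ 2 * ∑ p ∈ P, max 0 (-lap u p) := by
  classical
  obtain ⟨M, hM⟩ : ∃ M : ℕ, Λ ∪ P ⊆ box M := (H436.subset_box (Λ ∪ P)).exists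
  have hu' : ∀ x ∉ box M, u x = 0 := fun x hx => hu x fun h => hx (hM (mem_union_left _ h))
  have hs := supp_lap hu'
  have key := H436.mass_le (u := u) (Λ := Λ) (S := box (M + 1)) (P := P) hu
    (fun x hx => by rw [lap436]; exact hs x hx) (fun x hx => by rw [lap436]; exact hP x hx)
    (fun x hx => H436.box_mono (Nat.le_succ M) (hM (mem_union_right _ hx)))
  simp only [lap436] at key
  refine le_trans ?_ key
  have e : ∑ w ∈ T, |lap u w| = ∑ w ∈ T ∩ box (M + 1), |lap u w| := by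
    refine (sum_subset inter_subset_left fun x hx hx' => ?_).symm
    rw [hs x fun h => hx' (mem_inter.2 ⟨hx, h⟩), abs_zero]
  rw [e]
  exact sum_le_sum_of_subset_of_nonneg inter_subset_right fun _ _ _ => abs_nonneg _

/-- Exceptional spins `P` and faces `R` of a spinor in the diamond; the faces of `G` have no
exceptional corner. -/
structure Exc (N : ℕ) (τ θ : Site → ℝ) (P R G : Finset Site) : Prop where
  θc : ∀ i j : ℤ, ((i, j) : Site) ∉ P → θ (i - 1, j) = θ (i - 1, j - 1)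
  τc : ∀ i j : ℤ, ((i, j) : Site) ∉ R → τ (i, j) = τ (i, j - 1)
  inP : ∀ v ∈ P, |v.1| + |v.2| + 1 ≤ (N : ℤ)
  inR : ∀ v ∈ R, |v.1| + |v.2| + 4 ≤ (N : ℤ)
  sub : G ⊆ R
  neg : ∀ f ∈ G, τ (f.1, f.2) = -τ (f.1, f.2 - 1)
  good : ∀ f ∈ G, ∀ v ∈ cnr f, v ∉ P

section

variable {N : ℕ} {τ θ A B C D Hs Hf : Site → ℝ} {P R G : Finset Site}
  (h : Spr (dia N) τ θ A B C D) (hH : IsH (dia N) A B C D Hs Hf) (hE : Exc N τ θ P R G)

include h hH hE

theorem Spr.lap_nn {v : Site} (hv : v ∉ P) : 0 ≤ lap Hs v := by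
  obtain ⟨i, j⟩ := v
  by_cases hΛ : ((i, j) : Site) ∈ dia N
  · exact h.lap_nonneg hH hΛ (hE.θc i j hv)
  · exact h.lap_out hH hΛ

theorem Spr.lap_P {v : Site} (hv : v ∈ P) : max 0 (-lap Hs v) ≤ sqS A B C D v := by
  obtain ⟨i, j⟩ := v
  have h0 := sqS_nonneg A B C D (i, j)
  have hin := hE.inP _ hv
  simp only at hin
  have mem : ∀ x : Site, |x.1 - i| + |x.2 - j| ≤ 1 → x ∈ dia N := by
    intro x hx
    rw [mem_dia]
    have h1 : |x.1| ≤ |x.1 - i| + |i| := by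
      have := abs_add_le (x.1 - i) i; rwa [sub_add_cancel] at this
    have h2 : |x.2| ≤ |x.2 - j| + |j| := by
      have := abs_add_le (x.2 - j) j; rwa [sub_add_cancel] at this
    lia
  have key := h.lap_int_lower hH (mem (i, j) (by simp)) (mem (i, j + 1) (by simp))
    (mem (i, j - 1) (by simp)) (mem (i + 1, j) (by simp)) (mem (i - 1, j) (by simp))
  refine max_le h0 ?_
  have e : sqS A B C D (i, j) = A (i, j) ^ 2 + B (i - 1, j) ^ 2 + C (i, j - 1) ^ 2 +
    D (i - 1, j - 1) ^ 2 := rfl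
  rw [← e] at key
  have h2 : √2 ≤ 3 / 2 := by
    rw [Real.sqrt_le_left (by norm_num)]; norm_num
  nlinarith

/-- Total mass of `Hs`. -/
theorem Spr.mass_s (T : Finset Site) :
    ∑ v ∈ T, |lap Hs v| ≤ 2 * ∑ p ∈ P, sqS A B C D p := by
  refine (mass_any hH.out (fun x hx => h.lap_nn hH hE hx) T).trans ?_
  refine mul_le_mul_of_nonneg_left (sum_le_sum fun p hp => h.lap_P hH hE hp) (by norm_num)

theorem Spr.lapf_R {f : Site} (hf : f ∈ R) : max 0 (lap Hf f) ≤ sqF A B C D f := by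
  obtain ⟨i, j⟩ := f
  have h0 := sqF_nonneg A B C D (i, j)
  have hin := hE.inR _ hf
  simp only at hin
  have mem : ∀ x : Site, |x.1 - i| + |x.2 - j| ≤ 4 → x ∈ dia N := by
    intro x hx
    rw [mem_dia]
    have h1 : |x.1| ≤ |x.1 - i| + |i| := by
      have := abs_add_le (x.1 - i) i; rwa [sub_add_cancel] at this
    have h2 : |x.2| ≤ |x.2 - j| + |j| := by
      have := abs_add_le (x.2 - j) j; rwa [sub_add_cancel] at this
    lia
  have key := h.lapf_upper hH (mem (i, j) (by simp)) (mem (i + 1, j) (by simp))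
    (mem (i, j + 1) (by simp)) (mem (i + 1, j + 1) (by simp))
  refine max_le h0 (key.trans ?_)
  unfold sqF at h0 ⊢
  have h2 : √2 ≤ 3 / 2 := by
    rw [Real.sqrt_le_left (by norm_num)]; norm_num
  nlinarith

theorem Spr.lapf_G {f : Site} (hf : f ∈ G) : max 0 (lap Hf f) ≤ 3 * ∑ v ∈ cnr f, |lap Hs v| := by
  refine (h.lapf_R hH hE (hE.sub hf)).trans ?_
  have hgood := hE.good f hf
  have hneg := hE.neg f hf
  have hin := hE.inR _ (hE.sub hf)
  obtain ⟨i, j⟩ := f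
  simp only at hin hneg
  have np : ∀ x y : ℤ, ((x, y) : Site) ∈ cnr (i, j) → θ (x - 1, y) = θ (x - 1, y - 1) :=
    fun x y hxy => hE.θc x y (hgood _ hxy)
  have t1 := np i j (by simp [mem_cnr])
  have t2 := np (i + 1) j (by simp [mem_cnr])
  have t3 := np i (j + 1) (by simp [mem_cnr])
  have t4 := np (i + 1) (j + 1) (by simp [mem_cnr])
  rw [add_sub_cancel_right] at t2 t3
  rw [add_sub_cancel_right, add_sub_cancel_right] at t4
  have key := h.branch_face hH (i := i) (j := j) (by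
    intro x y h1 h2 h3 h4
    rw [mem_dia]
    have e1 : |x| ≤ |x - i| + |i| := by
      have := abs_add_le (x - i) i; rwa [sub_add_cancel] at this
    have e2 : |y| ≤ |y - j| + |j| := by
      have := abs_add_le (y - j) j; rwa [sub_add_cancel] at this
    have e3 : |x - i| ≤ 2 := by rw [abs_le]; lia
    have e4 : |y - j| ≤ 2 := by rw [abs_le]; lia
    simp only
    lia) t1 t2 t3 t4 hneg
  have hs : lap Hs (i, j) + lap Hs (i + 1, j) + lap Hs (i, j + 1) + lap Hs (i + 1, j + 1) ≤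
      ∑ v ∈ cnr (i, j), |lap Hs v| := by
    rw [sum_cnr]
    have := le_abs_self (lap Hs (i, j))
    have := le_abs_self (lap Hs (i + 1, j))
    have := le_abs_self (lap Hs (i, j + 1))
    have := le_abs_self (lap Hs (i + 1, j + 1))
    simp only
    linarith
  have h0 := sqF_nonneg A B C D (i, j)
  have h2 : √2 ≤ 17 / 12 := by
    rw [Real.sqrt_le_left (by norm_num)]; norm_num
  nlinarith

/-- Total mass of `Hf`. -/
theorem Spr.mass_f (T : Finset Site) :
    ∑ f ∈ T, |lap Hf f| ≤ 112 * ∑ p ∈ P, sqS A B C D p + 2 * ∑ f ∈ R \ G, sqF A B C D f := by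
  classical
  have hout : ∀ x ∉ dia N, Hf x = 0 := fun x hx => h.Hf_zero hH (v := x) (by simp [mem_cnr]) hx
  obtain ⟨M, hM⟩ : ∃ M : ℕ, dia N ∪ R ⊆ box M := (H436.subset_box (dia N ∪ R)).exists
  have hout' : ∀ x ∉ box M, Hf x = 0 := fun x hx => hout x fun h => hx (hM (mem_union_left _ h))
  have hs := supp_lap hout'
  set O : Finset Site := (box (M + 1)).filter fun f => ∃ u ∈ cnr f, u ∉ dia N with hO
  have hP : ∀ x ∉ R ∪ O, 0 ≤ lap (fun y => -Hf y) x := by
    intro x hx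
    have e : lap (fun y => -Hf y) x = -lap Hf x := by unfold lap; ring
    rw [e]
    by_cases hb : x ∈ box (M + 1)
    · have h1 : ∀ u ∈ cnr x, u ∈ dia N := by
        by_contra hcon
        push Not at hcon
        exact hx (mem_union_right _ (mem_filter.2 ⟨hb, hcon⟩))
      have h2 : x ∉ R := fun h => hx (mem_union_left _ h)
      obtain ⟨i, j⟩ := x
      have := h.lapf_nonpos hH (h1 (i, j) (by simp [mem_cnr])) (h1 (i + 1, j) (by simp [mem_cnr]))
        (h1 (i, j + 1) (by simp [mem_cnr])) (h1 (i + 1, j + 1) (by simp [mem_cnr])) (hE.τc i j h2)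
      linarith
    · rw [hs x hb]; simp
  have key := mass_any (u := fun y => -Hf y) (Λ := dia N) (P := R ∪ O)
    (fun x hx => by simp [hout x hx]) hP T
  have e : ∀ x, lap (fun y => -Hf y) x = -lap Hf x := fun x => by unfold lap; ring
  simp only [e, abs_neg, neg_neg] at key
  have hRO : ∑ p ∈ R ∪ O, max 0 (lap Hf p) ≤
      ∑ p ∈ R \ G, max 0 (lap Hf p) + ∑ p ∈ G, max 0 (lap Hf p) + ∑ p ∈ O, max 0 (lap Hf p) := by
    have h1 : R ∪ O ⊆ ((R \ G) ∪ G) ∪ O := by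
      intro x hx
      rw [mem_union] at hx
      rw [mem_union, mem_union, mem_sdiff]
      tauto
    have nn : ∀ x : Site, 0 ≤ max 0 (lap Hf x) := fun x => le_max_left _ _
    calc _ ≤ ∑ p ∈ ((R \ G) ∪ G) ∪ O, max 0 (lap Hf p) :=
          sum_le_sum_of_subset_of_nonneg h1 fun x _ _ => nn x
      _ ≤ ∑ p ∈ (R \ G) ∪ G, max 0 (lap Hf p) + ∑ p ∈ O, max 0 (lap Hf p) := by
          rw [← sum_union_inter]; linarith [sum_nonneg (s := ((R \ G) ∪ G) ∩ O) fun x _ => nn x]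
      _ ≤ _ := by
          have : ∑ p ∈ (R \ G) ∪ G, max 0 (lap Hf p) ≤
              ∑ p ∈ R \ G, max 0 (lap Hf p) + ∑ p ∈ G, max 0 (lap Hf p) := by
            rw [← sum_union_inter]; linarith [sum_nonneg (s := (R \ G) ∩ G) fun x _ => nn x]
          linarith
  have hms := h.mass_s hH hE (box (M + 2))
  have hsum : ∀ T' : Finset Site, ∑ f ∈ T', ∑ v ∈ cnr f, |lap Hs v| ≤
      4 * ∑ v ∈ box (M + 2), |lap Hs v| := by
    intro T'
    refine sum_sum_cnr (fun v => abs_nonneg _) fun v hv => ?_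
    have : ∀ x ∉ box (M + 1), Hs x = 0 := fun x hx =>
      hH.out x fun h => hx (H436.box_mono (Nat.le_succ M) (hM (mem_union_left _ h)))
    rw [supp_lap this v hv, abs_zero]
  have b1 : ∑ p ∈ R \ G, max 0 (lap Hf p) ≤ ∑ f ∈ R \ G, sqF A B C D f :=
    sum_le_sum fun f hf => h.lapf_R hH hE (mem_sdiff.1 hf).1
  have b2 : ∑ p ∈ G, max 0 (lap Hf p) ≤ 12 * ∑ v ∈ box (M + 2), |lap Hs v| := by
    refine (sum_le_sum fun f hf => h.lapf_G hH hE hf).trans ?_
    rw [← mul_sum]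
    have := hsum G
    linarith
  have b3 : ∑ p ∈ O, max 0 (lap Hf p) ≤ 16 * ∑ v ∈ box (M + 2), |lap Hs v| := by
    have h1 : ∀ f ∈ O, max 0 (lap Hf f) ≤ 4 * ∑ v ∈ cnr f, |lap Hs v| := by
      intro f hf
      obtain ⟨-, u, hu, hΛ⟩ := mem_filter.1 hf
      refine max_le (mul_nonneg (by norm_num) (sum_nonneg fun _ _ => abs_nonneg _)) ?_
      refine (h.lapf_outer hH hu hΛ).trans (mul_le_mul_of_nonneg_left ?_ (by norm_num))
      exact (sum_le_sum fun v _ => le_abs_self _).trans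
        (sum_le_sum_of_subset_of_nonneg (filter_subset _ _) fun _ _ _ => abs_nonneg _)
    refine (sum_le_sum h1).trans ?_
    rw [← mul_sum]
    have := hsum O
    linarith
  linarith

end

end Vale.Agent.P144.AL
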