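import Vale.Agent.P144.U.Gauge
import Mathlib.Data.Multiset.Basic

/-!
Free critical model in a finite region: correlations of spins `A` and disorders `R` with vertical
cuts going up, and the relations that move a disorder by one step.
-/

namespace Vale.Agent.P144.AL

open Finset Vale.Agent.P144

/-- The sign of the cut that goes up from the face `r`, on the horizontal edge with left end
`x`. -/
noncomputable def cut1 (r x : Site) : ℝ := if x.1 = r.1 ∧ r.2 < x.2 then -1 else 1

/-- The signs of the cuts of all faces of `R`. -/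
noncomputable def cutS (R : Multiset Site) (x : Site) : ℝ := (R.map fun r => cut1 r x).prod

theorem cut1_sq (r x : Site) : cut1 r x * cut1 r x = 1 := by
  unfold cut1; split_ifs <;> norm_num

theorem cutS_cons (r : Site) (R : Multiset Site) (x : Site) :
    cutS (r ::ₘ R) x = cut1 r x * cutS R x := by
  unfold cutS; rw [Multiset.map_cons, Multiset.prod_cons]

theorem cutS_zero (x : Site) : cutS 0 x = 1 := by simp [cutS]

theorem cutS_sq (R : Multiset Site) (x : Site) : cutS R x * cutS R x = 1 := by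
  induction R using Multiset.induction_on with
  | empty => simp [cutS]
  | cons r R ih => rw [cutS_cons]; linear_combination cut1_sq r x * (cutS R x * cutS R x) + ih

theorem cutS_pm (R : Multiset Site) (x : Site) : cutS R x = 1 ∨ cutS R x = -1 :=
  mul_self_eq_one_iff.1 (cutS_sq R x)

theorem cutS_abs (R : Multiset Site) (x : Site) : |cutS R x| ≤ 1 := by
  rcases cutS_pm R x with h | h <;> rw [h] <;> norm_num

/-- The product of the spins of `A`. -/
noncomputable def spn (A : Multiset Site) (T : Finset Site) : ℝ := (A.map (tv T)).prod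

theorem spn_cons (v : Site) (A : Multiset Site) (T : Finset Site) :
    spn (v ::ₘ A) T = tv T v * spn A T := by
  unfold spn; rw [Multiset.map_cons, Multiset.prod_cons]

theorem spn_zero (T : Finset Site) : spn 0 T = 1 := by simp [spn]

theorem spn_sq (A : Multiset Site) (T : Finset Site) : spn A T * spn A T = 1 := by
  induction A using Multiset.induction_on with
  | empty => simp [spn]
  | cons r R ih => rw [spn_cons]; linear_combination tv_sq T r * (spn R T * spn R T) + ih

theorem spn_pm (A : Multiset Site) (T : Finset Site) : spn A T = 1 ∨ spn A T = -1 :=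
  mul_self_eq_one_iff.1 (spn_sq A T)

/-- Unnormalised correlation of the spins `A` with edge signs `a`, `b`. -/
noncomputable def NG (Λ : Finset Site) (a b : Site → ℝ) (A : Multiset Site) : ℝ :=
  ∑ T ∈ Λ.powerset, spn A T * WW Λ a b (tv T)

/-- Unnormalised correlation of the spins `A` and the disorders `R`. -/
noncomputable def QQ (Λ : Finset Site) (R A : Multiset Site) : ℝ := NG Λ (cutS R) 1 A

/-- The sign of `A` under the gauge transformation on `S`. -/
noncomputable def chiM (S : Site → Prop) (A : Multiset Site) : ℝ := (A.map (chi S)).prod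

theorem chiM_cons (S : Site → Prop) (v : Site) (A : Multiset Site) :
    chiM S (v ::ₘ A) = chi S v * chiM S A := by
  unfold chiM; rw [Multiset.map_cons, Multiset.prod_cons]

theorem chiM_zero (S : Site → Prop) : chiM S 0 = 1 := by simp [chiM]

theorem chiM_sq (S : Site → Prop) (A : Multiset Site) : chiM S A * chiM S A = 1 := by
  induction A using Multiset.induction_on with
  | empty => simp [chiM]
  | cons r R ih => rw [chiM_cons]; linear_combination chi_sq S r * (chiM S R * chiM S R) + ih

open Classical in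
theorem NG_gauge (Λ : Finset Site) (a b : Site → ℝ) (S : Site → Prop) {A : Multiset Site}
    (hA : ∀ v ∈ A, v ∈ Λ) :
    NG Λ a b A = chiM S A * NG Λ (fun x => a x * (chi S x * chi S (x.1 + 1, x.2)))
      (fun x => b x * (chi S x * chi S (x.1, x.2 + 1))) A := by
  unfold NG
  rw [mul_sum]
  have key : ∑ T ∈ Λ.powerset, spn A T * WW Λ a b (tv T) =
      ∑ T ∈ Λ.powerset, spn A (symmDiff T (Λ.filter S)) *
        WW Λ a b (tv (symmDiff T (Λ.filter S))) := by
    have hm : ∀ T ∈ Λ.powerset, symmDiff T (Λ.filter S) ∈ Λ.powerset := by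
      intro T hT
      rw [mem_powerset] at hT ⊢
      intro x hx
      rw [Finset.mem_symmDiff] at hx
      rcases hx with h | h
      · exact hT h.1
      · exact (mem_filter.1 h.1).1
    refine sum_nbij' (fun T => symmDiff T (Λ.filter S)) (fun T => symmDiff T (Λ.filter S))
      hm hm ?_ ?_ ?_
    · intro T _; simp
    · intro T _; simp
    · intro T _; simp
  rw [key]
  refine sum_congr rfl fun T _ => ?_
  have h1 : spn A (symmDiff T (Λ.filter S)) = chiM S A * spn A T := by
    clear key
    induction A using Multiset.induction_on with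
    | empty => simp [spn, chiM]
    | cons r R ih =>
      rw [spn_cons, spn_cons, chiM_cons, ih fun v hv => hA v (Multiset.mem_cons_of_mem hv),
        tv_symmDiff S (hA r (Multiset.mem_cons_self r R))]
      ring
  have h2 : WW Λ a b (tv (symmDiff T (Λ.filter S))) =
      WW Λ (fun x => a x * (chi S x * chi S (x.1 + 1, x.2)))
      (fun x => b x * (chi S x * chi S (x.1, x.2 + 1))) (tv T) := by
    refine WW_congr (fun x hx => ?_) fun x hx => ?_
    · rw [mem_hor] at hx
      rw [tv_symmDiff S hx.1, tv_symmDiff S hx.2]; ring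
    · rw [mem_ver] at hx
      rw [tv_symmDiff S hx.1, tv_symmDiff S hx.2]; ring
  rw [h1, h2]; ring

/-- The weights only depend on the signs of the edges of `Λ`. -/
theorem WW_congr' {Λ : Finset Site} {a b a' b' : Site → ℝ} (ha : ∀ x ∈ hor Λ, a x = a' x)
    (hb : ∀ x ∈ ver Λ, b x = b' x) (s : Site → ℝ) : WW Λ a b s = WW Λ a' b' s :=
  WW_congr (fun x hx => by rw [ha x hx]) fun x hx => by rw [hb x hx]

theorem NG_congr {Λ : Finset Site} {a b a' b' : Site → ℝ} (ha : ∀ x ∈ hor Λ, a x = a' x)
    (hb : ∀ x ∈ ver Λ, b x = b' x) (A : Multiset Site) : NG Λ a b A = NG Λ a' b' A := by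
  unfold NG
  exact sum_congr rfl fun T _ => by rw [WW_congr' ha hb]

open Classical in
/-- Changing the sign of a horizontal edge. -/
theorem NG_flipH {Λ : Finset Site} {a b a' : Site → ℝ} {u : Site} (hu : u ∈ hor Λ)
    (ha : a u = 1 ∨ a u = -1) (ha' : ∀ x, a' x = if x = u then - a u else a x)
    (A : Multiset Site) :
    NG Λ a' b A = √2 * NG Λ a b A - a u * NG Λ a b (u ::ₘ (u.1 + 1, u.2) ::ₘ A) := by
  unfold NG
  rw [mul_sum, mul_sum, ← sum_sub_distrib]
  refine sum_congr rfl fun T _ => ?_
  have key : WW Λ a' b (tv T) = (√2 - a u * (tv T u * tv T (u.1 + 1, u.2))) * WW Λ a b (tv T) := by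
    unfold WW
    rw [← mul_assoc]
    congr 1
    rw [← mul_prod_erase _ _ hu, ← mul_prod_erase _ _ hu]
    have e : 1 + a' u * tc * (tv T u * tv T (u.1 + 1, u.2)) =
        (√2 - a u * (tv T u * tv T (u.1 + 1, u.2))) *
          (1 + a u * tc * (tv T u * tv T (u.1 + 1, u.2))) := by
      rw [ha' u, if_pos rfl]
      have h := flip_factor (prod_pm ha (prod_pm (tv_eq T u) (tv_eq T (u.1 + 1, u.2))))
      linear_combination h
    rw [e, mul_assoc]
    congr 2
    refine prod_congr rfl fun x hx => ?_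
    rw [ha' x, if_neg (ne_of_mem_erase hx)]
  rw [key, spn_cons, spn_cons]
  ring

open Classical in
/-- Changing the sign of a vertical edge. -/
theorem NG_flipV {Λ : Finset Site} {a b b' : Site → ℝ} {u : Site} (hu : u ∈ ver Λ)
    (hb : b u = 1 ∨ b u = -1) (hb' : ∀ x, b' x = if x = u then - b u else b x)
    (A : Multiset Site) :
    NG Λ a b' A = √2 * NG Λ a b A - b u * NG Λ a b (u ::ₘ (u.1, u.2 + 1) ::ₘ A) := by
  unfold NG
  rw [mul_sum, mul_sum, ← sum_sub_distrib]
  refine sum_congr rfl fun T _ => ?_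
  have key : WW Λ a b' (tv T) = (√2 - b u * (tv T u * tv T (u.1, u.2 + 1))) * WW Λ a b (tv T) := by
    unfold WW
    rw [mul_left_comm]
    congr 1
    rw [← mul_prod_erase _ _ hu, ← mul_prod_erase _ _ hu]
    have e : 1 + b' u * tc * (tv T u * tv T (u.1, u.2 + 1)) =
        (√2 - b u * (tv T u * tv T (u.1, u.2 + 1))) *
          (1 + b u * tc * (tv T u * tv T (u.1, u.2 + 1))) := by
      rw [hb' u, if_pos rfl]
      have h := flip_factor (prod_pm hb (prod_pm (tv_eq T u) (tv_eq T (u.1, u.2 + 1))))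
      linear_combination h
    rw [e, mul_assoc]
    congr 2
    refine prod_congr rfl fun x hx => ?_
    rw [hb' x, if_neg (ne_of_mem_erase hx)]
  rw [key, spn_cons, spn_cons]
  ring

theorem QQ_spin_pair (Λ : Finset Site) (R A : Multiset Site) (u : Site) :
    QQ Λ R (u ::ₘ u ::ₘ A) = QQ Λ R A := by
  unfold QQ NG
  refine sum_congr rfl fun T _ => ?_
  rw [spn_cons, spn_cons, ← mul_assoc, tv_sq, one_mul]

theorem QQ_dis_pair (Λ : Finset Site) (R A : Multiset Site) (r : Site) :
    QQ Λ (r ::ₘ r ::ₘ R) A = QQ Λ R A := by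
  unfold QQ
  refine NG_congr (fun x _ => ?_) (fun _ _ => rfl) A
  rw [cutS_cons, cutS_cons, ← mul_assoc, cut1_sq, one_mul]

theorem cut1_V (i j : ℤ) (x : Site) :
    cut1 (i, j) x = if x = (i, j + 1) then - cut1 (i, j + 1) (i, j + 1) else cut1 (i, j + 1) x := by
  unfold cut1
  by_cases h : x = (i, j + 1)
  · subst h
    simp
  · have h' : ¬ (x.1 = i ∧ x.2 = j + 1) := fun h2 => h (Prod.ext h2.1 h2.2)
    rw [if_neg h]
    split_ifs <;> first | (exfalso; lia) | rfl

/-- Moving a disorder down across an edge of `Λ`. -/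
theorem QQ_V {Λ : Finset Site} {i j : ℤ} (h : ((i, j + 1) : Site) ∈ hor Λ) (R A : Multiset Site) :
    QQ Λ ((i, j) ::ₘ R) A = √2 * QQ Λ ((i, j + 1) ::ₘ R) A -
      cutS R (i, j + 1) * QQ Λ ((i, j + 1) ::ₘ R) ((i, j + 1) ::ₘ (i + 1, j + 1) ::ₘ A) := by
  classical
  unfold QQ
  have h1 : cutS ((i, j + 1) ::ₘ R) (i, j + 1) = cutS R (i, j + 1) := by
    rw [cutS_cons]
    have : cut1 (i, j + 1) (i, j + 1) = 1 := by unfold cut1; rw [if_neg (by simp)]
    rw [this, one_mul]
  rw [← h1]
  refine NG_flipH (a := cutS ((i, j + 1) ::ₘ R)) h (cutS_pm _ _) (fun x => ?_) A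
  rw [cutS_cons, cut1_V]
  split_ifs with hx
  · subst hx
    rw [cutS_cons]; ring
  · rw [cutS_cons]

/-- Moving a disorder vertically where there is no edge. -/
theorem QQ_V0 {Λ : Finset Site} {i j : ℤ} (h : ((i, j + 1) : Site) ∉ hor Λ) (R A : Multiset Site) :
    QQ Λ ((i, j) ::ₘ R) A = QQ Λ ((i, j + 1) ::ₘ R) A := by
  unfold QQ
  refine NG_congr (fun x hx => ?_) (fun _ _ => rfl) A
  rw [cutS_cons, cutS_cons, cut1_V, if_neg]
  rintro rfl; exact h hx

/-- The set swept by moving a disorder from the face `(i, j)` to the face `(i + 1, j)`. -/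
def sw (i j : ℤ) : Site → Prop := fun x => x.1 = i + 1 ∧ j < x.2

theorem gauge_H (i j : ℤ) (x : Site) :
    cut1 (i, j) x * (chi (sw i j) x * chi (sw i j) (x.1 + 1, x.2)) = cut1 (i + 1, j) x := by
  unfold cut1 chi sw
  simp only
  split_ifs <;> first | (exfalso; lia) | norm_num

open Classical in
theorem gauge_H' (i j : ℤ) (x : Site) :
    chi (sw i j) x * chi (sw i j) (x.1, x.2 + 1) = if x = (i + 1, j) then -1 else 1 := by
  unfold chi sw
  by_cases h : x = (i + 1, j)
  · subst h
    simp
  · have h' : ¬ (x.1 = i + 1 ∧ x.2 = j) := fun h2 => h (Prod.ext h2.1 h2.2)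
    rw [if_neg h]
    split_ifs <;> first | (exfalso; lia) | norm_num

open Classical in
theorem QQ_gaugeH {Λ : Finset Site} {i j : ℤ} (R : Multiset Site) {A : Multiset Site}
    (hA : ∀ v ∈ A, v ∈ Λ) :
    QQ Λ ((i, j) ::ₘ R) A = chiM (sw i j) A * NG Λ (cutS ((i + 1, j) ::ₘ R))
      (fun x => if x = (i + 1, j) then -1 else 1) A := by
  unfold QQ
  rw [NG_gauge Λ _ _ (sw i j) hA]
  congr 1
  refine NG_congr (fun x _ => ?_) (fun x _ => ?_) A
  · rw [cutS_cons, cutS_cons, ← gauge_H i j x]; ring
  · simp only [Pi.one_apply, one_mul]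
    exact gauge_H' i j x

/-- Moving a disorder to the right across an edge of `Λ`. -/
theorem QQ_H {Λ : Finset Site} {i j : ℤ} (h : ((i + 1, j) : Site) ∈ ver Λ) (R : Multiset Site)
    {A : Multiset Site} (hA : ∀ v ∈ A, v ∈ Λ) :
    QQ Λ ((i, j) ::ₘ R) A = chiM (sw i j) A * (√2 * QQ Λ ((i + 1, j) ::ₘ R) A -
      QQ Λ ((i + 1, j) ::ₘ R) ((i + 1, j) ::ₘ (i + 1, j + 1) ::ₘ A)) := by
  classical
  rw [QQ_gaugeH R hA]
  congr 1
  have := NG_flipV (Λ := Λ) (a := cutS ((i + 1, j) ::ₘ R)) (b := 1)
    (b' := fun x => if x = (i + 1, j) then -1 else 1) (u := (i + 1, j)) h (Or.inl rfl)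
    (fun x => by simp only [Pi.one_apply]) A
  rw [this]
  unfold QQ
  simp only [Pi.one_apply, one_mul]

/-- Moving a disorder to the right where there is no edge. -/
theorem QQ_H0 {Λ : Finset Site} {i j : ℤ} (h : ((i + 1, j) : Site) ∉ ver Λ) (R : Multiset Site)
    {A : Multiset Site} (hA : ∀ v ∈ A, v ∈ Λ) :
    QQ Λ ((i, j) ::ₘ R) A = chiM (sw i j) A * QQ Λ ((i + 1, j) ::ₘ R) A := by
  classical
  rw [QQ_gaugeH R hA]
  congr 1
  unfold QQ
  refine NG_congr (fun _ _ => rfl) (fun x hx => ?_) A
  rw [if_neg]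
  · rfl
  · rintro rfl; exact h hx

end Vale.Agent.P144.AL
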