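import Vale.Agent.P144.U.AL.Pf
import Vale.Agent.P144.H436.Corn
import Vale.Agent.P144.H436.Norm3

/-!
The mixed correlations of the free model with spins at the tips as centred Pfaffians.
-/

namespace Vale.Agent.P144.AL

open Finset Vale.Agent.P144

section gen

variable {J : ℝ} (hJ : 0 < J) {Λ : Finset Site}

include hJ

open Classical in
/-- Free critical expectations with linear weights. -/
theorem gibbs_WW (F : Config → ℝ) :
    gibbs J 0 (fun _ => 0) (Kc / J) none Λ F =
      (∑ T ∈ Λ.powerset, F (ext Λ (fun _ => true) T) * WW Λ 1 1 (tv T)) /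
        ∑ T ∈ Λ.powerset, WW Λ 1 1 (tv T) := by
  unfold gibbs expect
  simp only [weight_eq hJ]
  have hc : 0 < (Real.exp Kc / (1 + tc)) ^ ((hor Λ).card + (ver Λ).card) := by
    have := tc_pos
    positivity
  have h1 : ∑ T ∈ Λ.powerset, F (ext Λ (fun _ => true) T) *
      ((Real.exp Kc / (1 + tc)) ^ ((hor Λ).card + (ver Λ).card) * WW Λ 1 1 (tv T)) =
      (Real.exp Kc / (1 + tc)) ^ ((hor Λ).card + (ver Λ).card) *
      ∑ T ∈ Λ.powerset, F (ext Λ (fun _ => true) T) * WW Λ 1 1 (tv T) := by
    rw [mul_sum]
    exact sum_congr rfl fun T _ => by ring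
  rw [h1, ← mul_sum, mul_div_mul_left _ _ hc.ne']

/-- Free critical correlations of a multiset of spins. -/
theorem gibbs_spn {A : Multiset Site} (hA : ∀ v ∈ A, v ∈ Λ) :
    gibbs J 0 (fun _ => 0) (Kc / J) none Λ (fun σ => (A.map fun x => sp (σ x)).prod) =
      QQ Λ 0 A / QQ Λ 0 0 := by
  rw [gibbs_WW hJ]
  have e : cutS 0 = 1 := by funext x; exact cutS_zero x
  unfold QQ NG
  rw [e]
  congr 1
  · refine sum_congr rfl fun T _ => ?_
    congr 1
    unfold spn
    congr 1
    refine Multiset.map_congr rfl fun x hx => ?_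
    exact sp_ext (hA x hx)
  · refine sum_congr rfl fun T _ => ?_
    rw [spn_zero, one_mul]

end gen

theorem cutS_add (R R' : Multiset Site) (x : Site) : cutS (R + R') x = cutS R x * cutS R' x := by
  unfold cutS; rw [Multiset.map_add, Multiset.prod_add]

theorem QQ_cancel (Λ : Finset Site) (F R A : Multiset Site) : QQ Λ (F + (F + R)) A = QQ Λ R A := by
  unfold QQ
  refine NG_congr (fun x _ => ?_) (fun _ _ => rfl) A
  rw [cutS_add, cutS_add, ← mul_assoc, cutS_sq, one_mul]

/-- The sign of a list of fermions after the insertion of a pair. -/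
theorem el_pair (p s : List Cn) (e e' : Cn) (he : e.1 ∈ cnr e.2) (he' : e'.1 ∈ cnr e'.2)
    (hp : ∀ c ∈ p, c.1 ∈ cnr c.2 ∧ c ≠ e ∧ c ≠ e') :
    el (p ++ e :: e' :: s) = ep e e' * ((p ++ s).map fun z => ep e z * ep e' z).prod *
      el (p ++ s) := by
  induction p with
  | nil =>
    simp only [List.nil_append, el, List.map_cons, List.prod_cons]
    rw [List.prod_map_mul]
    ring
  | cons c p ih =>
    have hc := hp c (List.mem_cons_self ..)
    have ih := ih fun c' h => hp c' (List.mem_cons_of_mem _ h)
    rw [List.cons_append, List.cons_append, el, el, ih]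
    simp only [List.map_append, List.map_cons, List.prod_append, List.prod_cons]
    have a1 := ep_anti hc.1 he hc.2.1
    have a2 := ep_anti hc.1 he' hc.2.2
    have b1 := ep_sq e c
    have b2 := ep_sq e' c
    have key : ep c e * ep c e' = ep e c * ep e' c := by
      linear_combination (-(ep c e * ep c e')) * b1 - ep c e * ep c e' * ep e c * ep e c * b2 +
        (ep e c * ep e' c * (ep c e' * ep e' c)) * a1 - (ep e c * ep e' c) * a2
    linear_combination ((p.map (ep c)).prod * (s.map (ep c)).prod * (ep e e' *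
      ((p.map fun z => ep e z * ep e' z).prod * (s.map fun z => ep e z * ep e' z).prod) *
      el (p ++ s))) * key

/-- The lower corner of an energy. -/
def eLo (v : Site) : Cn := (v, v)

/-- The upper corner of an energy. -/
def eHi (v : Site) (j : Fin 2) : Cn := (v + dir j, v)

theorem eLo_cnr (v : Site) : (eLo v).1 ∈ cnr (eLo v).2 := mem_cnr.2 (Or.inl rfl)

theorem eHi_cnr (v : Site) (j : Fin 2) : (eHi v j).1 ∈ cnr (eHi v j).2 := by
  unfold eHi dir
  rw [mem_cnr]
  by_cases h : j = 0
  · rw [if_pos h]; right; left; ext <;> simp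
  · rw [if_neg h]; right; right; left; ext <;> simp

theorem eLo_ne_eHi (v : Site) (j : Fin 2) : eLo v ≠ eHi v j := by
  unfold eLo eHi dir
  intro h
  have h1 := congrArg (fun c : Cn => c.1.1) h
  have h2 := congrArg (fun c : Cn => c.1.2) h
  by_cases hj : j = 0
  · rw [if_pos hj] at h1; simp at h1
  · rw [if_neg hj] at h2; simp at h2

/-- The signs of two energies relative to each other. -/
theorem ep_four (v w : Site) (i j : Fin 2) (h : v ≠ w) :
    ep (eLo v) (eLo w) * ep (eHi v i) (eLo w) * (ep (eLo v) (eHi w j) * ep (eHi v i) (eHi w j)) =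
      1 := by
  obtain ⟨a, b⟩ := v
  obtain ⟨c, d⟩ := w
  have h' : ¬ (a = c ∧ b = d) := fun hh => h (Prod.ext hh.1 hh.2)
  unfold ep eLo eHi dir
  by_cases hi : i = 0 <;> by_cases hj : j = 0 <;>
    simp only [hi, hj, if_true, if_false, Prod.mk_add_mk, add_zero] <;>
    split_ifs <;> first | (exfalso; omega) | norm_num

/-- The outer face at a tip. -/
def tface (N : ℕ) : Fin 4 → Site := ![((N : ℤ), 0), (0, (N : ℤ)), (-(N : ℤ) - 1, 0), (0, -(N : ℤ) - 1)]

/-- The corner at a tip. -/
def tcn (N : ℕ) (c : Fin 4) : Cn := (H436.tip N c, tface N c)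

/-- The set on which the gauge transformation of a tip acts. -/
def tset (c : Fin 4) (x : Site) : Prop := c = 3 ∧ 0 < x.1

theorem tcn_cnr (N : ℕ) (c : Fin 4) : (tcn N c).1 ∈ cnr (tcn N c).2 := by
  rw [mem_cnr]
  fin_cases c <;> simp [tcn, H436.tip, tface]

theorem fin4 (c : Fin 4) : c = 0 ∨ c = 1 ∨ c = 2 ∨ c = 3 := by fin_cases c <;> simp

theorem chi_tset (c : Fin 4) (hc : c ≠ 3) (x : Site) : chi (tset c) x = 1 := by
  unfold chi tset
  rw [if_neg fun h => hc h.1]

theorem chi_tset3 (x : Site) : chi (tset 3) x = if 0 < x.1 then -1 else 1 := by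
  unfold chi tset
  simp

theorem cut1_tface {N : ℕ} (c : Fin 4) {x : Site} (hx : x ∈ hor (dia N)) :
    cut1 (tface N c) x = chi (tset c) x * chi (tset c) (x.1 + 1, x.2) := by
  rw [mem_hor, mem_dia, mem_dia] at hx
  obtain ⟨h1, h2⟩ := hx
  simp only at h2
  have a1 := le_abs_self x.1
  have a2 := neg_abs_le x.1
  have a3 := le_abs_self x.2
  have a4 := neg_abs_le x.2
  have a5 := le_abs_self (x.1 + 1)
  have a6 := neg_abs_le (x.1 + 1)
  rcases fin4 c with rfl | rfl | rfl | rfl
  · rw [chi_tset 0 (by decide), chi_tset 0 (by decide), show tface N 0 = ((N : ℤ), 0) from rfl]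
    unfold cut1
    simp only
    split_ifs <;> first | (exfalso; omega) | norm_num
  · rw [chi_tset 1 (by decide), chi_tset 1 (by decide), show tface N 1 = (0, (N : ℤ)) from rfl]
    unfold cut1
    simp only
    split_ifs <;> first | (exfalso; omega) | norm_num
  · rw [chi_tset 2 (by decide), chi_tset 2 (by decide), show tface N 2 = (-(N : ℤ) - 1, 0) from rfl]
    unfold cut1
    simp only
    split_ifs <;> first | (exfalso; omega) | norm_num
  · rw [chi_tset3, chi_tset3, show tface N 3 = (0, -(N : ℤ) - 1) from rfl]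
    unfold cut1
    simp only
    split_ifs <;> first | (exfalso; omega) | norm_num

theorem QQ_tface {N : ℕ} (c : Fin 4) (R : Multiset Site) {A : Multiset Site}
    (hA : ∀ v ∈ A, v ∈ dia N) :
    QQ (dia N) (tface N c ::ₘ R) A = chiM (tset c) A * QQ (dia N) R A := by
  unfold QQ
  rw [NG_gauge (dia N) (cutS R) 1 (tset c) hA, ← mul_assoc, chiM_sq, one_mul]
  refine NG_congr (fun x hx => ?_) (fun x hx => ?_) A
  · rw [cutS_cons, cut1_tface c hx]; ring
  · have : chi (tset c) (x.1, x.2 + 1) = chi (tset c) x := by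
      unfold chi tset; rfl
    rw [this, chi_sq]; simp

theorem QQ_tfaces {N : ℕ} (C : List (Fin 4)) (R : Multiset Site) {A : Multiset Site}
    (hA : ∀ v ∈ A, v ∈ dia N) :
    QQ (dia N) (fcs (C.map (tcn N)) + R) A = (C.map fun c => chiM (tset c) A).prod *
      QQ (dia N) R A := by
  induction C with
  | nil => simp [fcs]
  | cons c C ih =>
    rw [List.map_cons, fcs_cons, Multiset.cons_add, List.map_cons, List.prod_cons]
    have : (tcn N c).2 = tface N c := rfl
    rw [this, QQ_tface c _ hA, ih, mul_assoc]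

/-- The sign of an energy relative to a tip. -/
theorem ep_tip {N : ℕ} (c : Fin 4) {v : Site} (j : Fin 2) (hv : |v.1| + |v.2| + 2 ≤ N) :
    ep (eLo v) (tcn N c) * ep (eHi v j) (tcn N c) = chi (tset c) v * chi (tset c) (v + dir j) := by
  obtain ⟨a, b⟩ := v
  simp only at hv
  have a1 := le_abs_self a
  have a2 := neg_abs_le a
  have a3 := le_abs_self b
  have a4 := neg_abs_le b
  rcases fin4 c with rfl | rfl | rfl | rfl
  · rw [chi_tset 0 (by decide), chi_tset 0 (by decide),
      show tcn N 0 = (((N : ℤ), 0), ((N : ℤ), 0)) from rfl]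
    unfold ep eLo eHi dir
    by_cases hj : j = 0 <;> simp only [hj, if_true, if_false, Prod.mk_add_mk, add_zero] <;>
    split_ifs <;> first | (exfalso; omega) | norm_num
  · rw [chi_tset 1 (by decide), chi_tset 1 (by decide),
      show tcn N 1 = ((0, (N : ℤ)), (0, (N : ℤ))) from rfl]
    unfold ep eLo eHi dir
    by_cases hj : j = 0 <;> simp only [hj, if_true, if_false, Prod.mk_add_mk, add_zero] <;>
    split_ifs <;> first | (exfalso; omega) | norm_num
  · rw [chi_tset 2 (by decide), chi_tset 2 (by decide),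
      show tcn N 2 = ((-(N : ℤ), 0), (-(N : ℤ) - 1, 0)) from rfl]
    unfold ep eLo eHi dir
    by_cases hj : j = 0 <;> simp only [hj, if_true, if_false, Prod.mk_add_mk, add_zero] <;>
    split_ifs <;> first | (exfalso; omega) | norm_num
  · rw [chi_tset3, chi_tset3,
      show tcn N 3 = ((0, -(N : ℤ)), (0, -(N : ℤ) - 1)) from rfl]
    unfold ep eLo eHi dir
    by_cases hj : j = 0 <;> simp only [hj, if_true, if_false, Prod.mk_add_mk, add_zero] <;>
    split_ifs <;> first | (exfalso; omega) | norm_num

theorem chiM_sps (S : Site → Prop) (l : List Cn) :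
    chiM S (sps l) = (l.map fun c => chi S c.1).prod := by
  induction l with
  | nil => simp [sps, chiM]
  | cons c l ih => rw [sps_cons, chiM_cons, ih, List.map_cons, List.prod_cons]

theorem sps_append (l l' : List Cn) : sps (l ++ l') = sps l + sps l' := by
  unfold sps; rw [List.map_append]; rfl

theorem fcs_append (l l' : List Cn) : fcs (l ++ l') = fcs l + fcs l' := by
  unfold fcs; rw [List.map_append]; rfl

/-- The sign of a list of corners in the presence of the tips `C`. -/
noncomputable def SG (C : List (Fin 4)) (l : List Cn) : ℝ :=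
  (C.map fun c => chiM (tset c) (sps l)).prod * el l

/-- The sign of an energy relative to the sources `P`. -/
noncomputable def sk (P : List Cn) (v : Site) (j : Fin 2) : ℝ :=
  ep (eLo v) (eHi v j) * (P.map fun z => ep (eLo v) z * ep (eHi v j) z).prod

theorem list_prod_one {ι : Type*} (l : List ι) (g : ι → ℝ) (h : ∀ x ∈ l, g x = 1) :
    (l.map g).prod = 1 := by
  induction l with
  | nil => rfl
  | cons x l ih =>
    rw [List.map_cons, List.prod_cons, h x (List.mem_cons_self ..),
      ih fun y hy => h y (List.mem_cons_of_mem _ hy), mul_one]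

theorem flat_map_prod {ι : Type*} (e e' : ι → Cn) (g : Cn → ℝ) (s : List ι) :
    ((flat e e' s).map g).prod = (s.map fun k => g (e k) * g (e' k)).prod := by
  induction s with
  | nil => rfl
  | cons k s ih =>
    rw [flat_cons, List.map_cons, List.map_cons, List.prod_cons, List.prod_cons, ih, List.map_cons,
      List.prod_cons, mul_assoc]

section

variable {N : ℕ} {κ : Type*} (P : List Cn) (C : List (Fin 4)) (v : κ → Site) (j : κ → Fin 2)
  (hP : ∀ c ∈ P, c.1 ∈ cnr c.2 ∧ c.1 ∈ dia N)

theorem SG_flat (s : List κ) (hP : ∀ c ∈ P, c.1 ∈ cnr c.2)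
    (hPs : ∀ c ∈ P, ∀ k ∈ s, c ≠ eLo (v k) ∧ c ≠ eHi (v k) (j k))
    (hv : ∀ k ∈ s, |(v k).1| + |(v k).2| + 2 ≤ N) (hinj : (s.map v).Nodup) :
    SG C (P ++ (flat (fun k => eLo (v k)) (fun k => eHi (v k) (j k)) s ++ C.map (tcn N))) =
      SG C (P ++ C.map (tcn N)) * (s.map fun k => sk P (v k) (j k)).prod := by
  induction s with
  | nil => simp [flat]
  | cons k s ih =>
    have ih := ih (fun c hc k' hk' => hPs c hc k' (List.mem_cons_of_mem _ hk'))
      (fun k' hk' => hv k' (List.mem_cons_of_mem _ hk'))
      (List.nodup_cons.1 (by simpa only [List.map_cons] using hinj)).2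
    rw [List.map_cons, List.prod_cons]
    have hk := List.mem_cons_self (a := k) (l := s)
    set E := flat (fun k => eLo (v k)) (fun k => eHi (v k) (j k)) s with hE
    rw [flat_cons, List.cons_append, List.cons_append, ← hE]
    unfold SG at ih ⊢
    rw [el_pair P (E ++ C.map (tcn N)) (eLo (v k)) (eHi (v k) (j k)) (eLo_cnr _) (eHi_cnr _ _)
      fun c hc => ⟨hP c hc, hPs c hc k hk⟩]
    have h1 : (C.map fun c => chiM (tset c) (sps (P ++ eLo (v k) :: eHi (v k) (j k) ::
        (E ++ C.map (tcn N))))).prod =
        (C.map fun c => chi (tset c) (v k) * chi (tset c) (v k + dir (j k))).prod *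
        (C.map fun c => chiM (tset c) (sps (P ++ (E ++ C.map (tcn N))))).prod := by
      rw [← List.prod_map_mul]
      congr 1
      refine List.map_congr_left fun c _ => ?_
      rw [chiM_sps, chiM_sps]
      simp only [List.map_append, List.map_cons, List.prod_append, List.prod_cons]
      have e1 : (eLo (v k)).1 = v k := rfl
      have e2 : (eHi (v k) (j k)).1 = v k + dir (j k) := rfl
      rw [e1, e2]
      ring
    have h2 : ((P ++ (E ++ C.map (tcn N))).map fun z => ep (eLo (v k)) z *
        ep (eHi (v k) (j k)) z).prod =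
        (P.map fun z => ep (eLo (v k)) z * ep (eHi (v k) (j k)) z).prod *
        (C.map fun c => chi (tset c) (v k) * chi (tset c) (v k + dir (j k))).prod := by
      rw [List.map_append, List.map_append, List.prod_append, List.prod_append, List.map_map]
      have e1 : (E.map fun z => ep (eLo (v k)) z * ep (eHi (v k) (j k)) z).prod = 1 := by
        rw [hE, flat_map_prod]
        refine list_prod_one _ _ fun k' hk' => ?_
        refine ep_four _ _ _ _ ?_
        intro h
        rw [List.map_cons] at hinj
        exact (List.nodup_cons.1 hinj).1 (List.mem_map.2 ⟨k', hk', h.symm⟩)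
      rw [e1, one_mul]
      congr 2
      refine List.map_congr_left fun c _ => ?_
      exact ep_tip c (j k) (hv k hk)
    have h3 := map_sq C (fun c => chi (tset c) (v k) * chi (tset c) (v k + dir (j k))) fun c => by
      have g1 := chi_sq (tset c) (v k)
      have g2 := chi_sq (tset c) (v k + dir (j k))
      linear_combination (chi (tset c) (v k + dir (j k)) * chi (tset c) (v k + dir (j k))) * g1 + g2
    rw [h1, h2, show sk P (v k) (j k) = ep (eLo (v k)) (eHi (v k) (j k)) *
      (P.map fun z => ep (eLo (v k)) z * ep (eHi (v k) (j k)) z).prod from rfl]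
    linear_combination (ep (eLo (v k)) (eHi (v k) (j k)) *
      (P.map fun z => ep (eLo (v k)) z * ep (eHi (v k) (j k)) z).prod) * ih +
      (ep (eLo (v k)) (eHi (v k) (j k)) *
      (P.map fun z => ep (eLo (v k)) z * ep (eHi (v k) (j k)) z).prod *
      ((C.map fun c => chiM (tset c) (sps (P ++ (E ++ C.map (tcn N))))).prod *
        el (P ++ (E ++ C.map (tcn N))))) * h3

end

theorem el_sq (l : List Cn) : el l * el l = 1 := by
  induction l with
  | nil => simp [el]
  | cons c l ih =>
    have := map_sq l (ep c) (ep_sq c)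
    simp only [el]
    linear_combination (el l * el l) * this + ih

theorem cutS_flat {κ : Type*} (v : κ → Site) (j : κ → Fin 2) (s : List κ) (x : Site) :
    cutS (fcs (flat (fun k => eLo (v k)) (fun k => eHi (v k) (j k)) s)) x = 1 := by
  induction s with
  | nil => simp [flat, fcs, cutS]
  | cons k s ih =>
    rw [flat_cons, fcs_cons, fcs_cons, cutS_cons, cutS_cons, ih]
    have e1 : (eLo (v k)).2 = v k := rfl
    have e2 : (eHi (v k) (j k)).2 = v k := rfl
    rw [e1, e2, mul_one]
    exact cut1_sq _ _

section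

variable {N : ℕ} {κ : Type*} (P : List Cn) (C : List (Fin 4)) (v : κ → Site) (j : κ → Fin 2)

theorem QQ_list (s : List κ) {l : List Cn}
    (hl : l = P ++ (flat (fun k => eLo (v k)) (fun k => eHi (v k) (j k)) s ++ C.map (tcn N)))
    (hd : ∀ c ∈ l, c.1 ∈ dia N) :
    QQ (dia N) (fcs l + fcs P) (sps l) =
      (C.map fun c => chiM (tset c) (sps l)).prod * QQ (dia N) 0 (sps l) := by
  have hA : ∀ x ∈ sps l, x ∈ dia N := by
    intro x hx
    unfold sps at hx
    obtain ⟨c, hc, rfl⟩ := List.mem_map.1 (Multiset.mem_coe.1 hx)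
    exact hd c hc
  rw [← QQ_tfaces C 0 hA, add_zero]
  unfold QQ
  refine NG_congr (fun x _ => ?_) (fun _ _ => rfl) _
  rw [cutS_add, hl, fcs_append, cutS_add, fcs_append, cutS_add, cutS_flat, one_mul]
  have := cutS_sq (fcs P) x
  linear_combination cutS (fcs (C.map (tcn N))) x * this

theorem Wf_list (s : List κ) {l : List Cn}
    (hl : l = P ++ (flat (fun k => eLo (v k)) (fun k => eHi (v k) (j k)) s ++ C.map (tcn N)))
    (hd : ∀ c ∈ l, c.1 ∈ dia N) :
    QQ (dia N) 0 (sps l) / QQ (dia N) 0 0 =
      H436.MM (dia N) (fcs P) * SG C l * Wf (dia N) (fcs P) l := by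
  have h := QQ_list P C v j s hl hd
  have h0 := (QQ_pos (dia N) 0).ne'
  have h1 := (QQ_pos (dia N) (fcs P)).ne'
  unfold SG Wf H436.MM
  rw [h]
  have e1 := el_sq l
  have e2 := map_sq C (fun c => chiM (tset c) (sps l)) fun c => chiM_sq _ _
  field_simp
  generalize (C.map fun c => chiM (tset c) (sps l)).prod = a at *
  generalize el l = b at *
  linear_combination (-(a * a) * QQ (dia N) 0 (sps l)) * e1 - QQ (dia N) 0 (sps l) * e2

end

/-- The labels of the fermions: sources, lower and upper corners of the energies, tips. -/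
inductive Lb (n m : ℕ) where
  | src (i : Fin n)
  | lo (k : Fin m)
  | hi (k : Fin m)
  | tp (c : Fin 4)

section

variable {n m : ℕ} (N : ℕ) (u : Fin n → Site) (v : Fin m → Site) (j : Fin m → Fin 2)

/-- The corners of the labels. -/
def cn : Lb n m → Cn
  | .src i => (u i, u i)
  | .lo k => eLo (v k)
  | .hi k => eHi (v k) (j k)
  | .tp c => tcn N c

/-- The sources. -/
def srcs (u : Fin n → Site) : List Cn := (List.finRange n).map fun i => (u i, u i)

/-- The list of labels. -/
def lbs (ks : List (Fin m)) (C : List (Fin 4)) : List (Lb n m) :=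
  (List.finRange n).map Lb.src ++ (flat Lb.lo Lb.hi ks ++ C.map Lb.tp)

theorem flat_map {ι α β : Type*} (g : α → β) (e e' : ι → α) (ks : List ι) :
    (flat e e' ks).map g = flat (fun k => g (e k)) (fun k => g (e' k)) ks := by
  induction ks with
  | nil => rfl
  | cons k ks ih => rw [flat_cons, List.map_cons, List.map_cons, ih, flat_cons]

theorem lbs_map (ks : List (Fin m)) (C : List (Fin 4)) :
    (lbs (n := n) ks C).map (cn N u v j) =
      srcs u ++ (flat (fun k => eLo (v k)) (fun k => eHi (v k) (j k)) ks ++ C.map (tcn N)) := by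
  unfold lbs srcs
  rw [List.map_append, List.map_append, flat_map, List.map_map, List.map_map]
  rfl

/-- The signs of the labels. -/
noncomputable def wl : Lb n m → ℝ
  | .hi k => sk (srcs u) (v k) (j k)
  | _ => 1

theorem lbs_sign (ks : List (Fin m)) (C : List (Fin 4)) :
    ((lbs (n := n) ks C).map (wl u v j)).prod = (ks.map fun k => sk (srcs u) (v k) (j k)).prod := by
  unfold lbs
  rw [List.map_append, List.map_append, List.prod_append, List.prod_append, List.map_map,
    List.map_map]
  have h1 : ((List.finRange n).map (wl u v j ∘ Lb.src)).prod = 1 :=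
    list_prod_one _ _ fun _ _ => rfl
  have h2 : (C.map (wl u v j ∘ Lb.tp)).prod = 1 := list_prod_one _ _ fun _ _ => rfl
  rw [h1, h2, one_mul, mul_one]
  induction ks with
  | nil => rfl
  | cons k ks ih =>
    rw [flat_cons, List.map_cons, List.map_cons, List.prod_cons, List.prod_cons, ih, List.map_cons,
      List.prod_cons]
    show (1:ℝ) * (sk (srcs u) (v k) (j k) * _) = _
    rw [one_mul]

/-- The kernel of the fermions with the signs of the energies. -/
noncomputable def KK (x y : Lb n m) : ℝ :=
  wl u v j x * wl u v j y * Wf (dia N) (fcs (srcs u)) [cn N u v j x, cn N u v j y]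

/-- The points are well separated and inside. -/
structure Sep : Prop where
  u_in : ∀ i, |(u i).1| + |(u i).2| + 2 ≤ N
  v_in : ∀ k, |(v k).1| + |(v k).2| + 2 ≤ N
  u_inj : Function.Injective u
  v_inj : Function.Injective v
  uv : ∀ i k, u i ≠ v k

theorem tip_norm (c : Fin 4) : |(H436.tip N c).1| + |(H436.tip N c).2| = N := by
  rcases fin4 c with rfl | rfl | rfl | rfl <;> simp [H436.tip]

theorem dir_norm (i : Fin 2) (x : Site) : |(x + dir i).1| + |(x + dir i).2| ≤ |x.1| + |x.2| + 1 := by
  have h1 := abs_add_le x.1 1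
  have h2 := abs_add_le x.2 1
  unfold dir
  rw [abs_one] at h1 h2
  by_cases hi : i = 0 <;> simp only [hi, if_true, if_false, Prod.fst_add, Prod.snd_add, add_zero] <;>
    omega

variable {N u v j}

theorem Sep.cn_dia (h : Sep N u v) (x : Lb n m) : (cn N u v j x).1 ∈ dia N := by
  rw [mem_dia]
  cases x with
  | src i => have := h.u_in i; simp only [cn]; omega
  | lo k => have := h.v_in k; simp only [cn, eLo]; omega
  | hi k =>
    have := h.v_in k
    have h2 := dir_norm (j k) (v k)
    simp only [cn, eHi]; omega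
  | tp c => have := tip_norm N c; simp only [cn, tcn]; omega

theorem Sep.cn_cnr (x : Lb n m) : (cn N u v j x).1 ∈ cnr (cn N u v j x).2 := by
  cases x with
  | src i => exact mem_cnr.2 (Or.inl rfl)
  | lo k => exact eLo_cnr _
  | hi k => exact eHi_cnr _ _
  | tp c => exact tcn_cnr _ _

theorem tcn_inj {N : ℕ} (hN : 1 ≤ N) {c d : Fin 4} (h : tcn N c = tcn N d) : c = d :=
  H436.tip_inj hN (congrArg Prod.fst h)

theorem Sep.cn_inj (h : Sep N u v) (hN : 1 ≤ N) : Function.Injective (cn N u v j) := by
  have tu : ∀ i c, (u i, u i) ≠ tcn N c := by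
    intro i c hh
    have h1 := congrArg Prod.fst hh
    have h2 := h.u_in i
    have h3 := tip_norm N c
    simp only [tcn] at h1
    rw [h1] at h2
    omega
  have tv : ∀ k c, eLo (v k) ≠ tcn N c := by
    intro k c hh
    have h1 := congrArg Prod.fst hh
    have h2 := h.v_in k
    have h3 := tip_norm N c
    simp only [tcn, eLo] at h1
    rw [h1] at h2
    omega
  have tw : ∀ k c, eHi (v k) (j k) ≠ tcn N c := by
    intro k c hh
    have h1 := congrArg Prod.fst hh
    have h2 := h.v_in k
    have h3 := tip_norm N c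
    have h4 := dir_norm (j k) (v k)
    simp only [tcn, eHi] at h1
    rw [h1] at h4
    omega
  intro x y hxy
  cases x with
  | src i =>
    cases y with
    | src i' => exact congrArg Lb.src (h.u_inj (congrArg Prod.snd hxy))
    | lo k => exact absurd (congrArg Prod.snd hxy) (h.uv i k)
    | hi k => exact absurd (congrArg Prod.snd hxy) (h.uv i k)
    | tp c => exact absurd hxy (tu i c)
  | lo k =>
    cases y with
    | src i' => exact absurd (congrArg Prod.snd hxy).symm (h.uv i' k)
    | lo k' => exact congrArg Lb.lo (h.v_inj (congrArg Prod.snd hxy))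
    | hi k' =>
      have h1 : v k = v k' := congrArg Prod.snd hxy
      simp only [cn] at hxy
      rw [h1] at hxy
      exact absurd hxy (eLo_ne_eHi _ _)
    | tp c => exact absurd hxy (tv k c)
  | hi k =>
    cases y with
    | src i' => exact absurd (congrArg Prod.snd hxy).symm (h.uv i' k)
    | lo k' =>
      have h1 : v k = v k' := congrArg Prod.snd hxy
      simp only [cn] at hxy
      rw [h1] at hxy
      exact absurd hxy.symm (eLo_ne_eHi _ _)
    | hi k' => exact congrArg Lb.hi (h.v_inj (congrArg Prod.snd hxy))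
    | tp c => exact absurd hxy (tw k c)
  | tp c =>
    cases y with
    | src i' => exact absurd hxy.symm (tu i' c)
    | lo k' => exact absurd hxy.symm (tv k' c)
    | hi k' => exact absurd hxy.symm (tw k' c)
    | tp d => exact congrArg Lb.tp (tcn_inj hN hxy)

theorem lbs_nodup {ks : List (Fin m)} {C : List (Fin 4)} (hk : ks.Nodup) (hC : C.Nodup) :
    (lbs (n := n) ks C).Nodup := by
  have hm : ∀ x ∈ flat (Lb.lo (n := n)) Lb.hi ks, ∃ k ∈ ks, x = Lb.lo k ∨ x = Lb.hi k := by
    intro x hx
    unfold flat at hx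
    rw [List.mem_flatMap] at hx
    obtain ⟨k, hk, hx⟩ := hx
    simp only [List.mem_cons, List.not_mem_nil, or_false] at hx
    exact ⟨k, hk, hx⟩
  unfold lbs
  rw [List.nodup_append, List.nodup_append]
  refine ⟨?_, ⟨?_, ?_, ?_⟩, ?_⟩
  · exact (List.nodup_finRange n).map fun a b h => by injection h
  · induction ks with
    | nil => exact List.nodup_nil
    | cons k ks ih =>
      have hk' := List.nodup_cons.1 hk
      have ih := ih hk'.2 fun x hx => by
        unfold flat at hx
        rw [List.mem_flatMap] at hx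
        obtain ⟨k, hk, hx⟩ := hx
        simp only [List.mem_cons, List.not_mem_nil, or_false] at hx
        exact ⟨k, hk, hx⟩
      have hm' : ∀ x ∈ flat (Lb.lo (n := n)) Lb.hi ks, ∃ k ∈ ks, x = Lb.lo k ∨ x = Lb.hi k := by
        intro x hx
        unfold flat at hx
        rw [List.mem_flatMap] at hx
        obtain ⟨k, hk, hx⟩ := hx
        simp only [List.mem_cons, List.not_mem_nil, or_false] at hx
        exact ⟨k, hk, hx⟩
      rw [flat_cons, List.nodup_cons, List.nodup_cons]
      refine ⟨?_, ?_, ih⟩
      · rw [List.mem_cons, not_or]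
        refine ⟨by simp, fun hx => ?_⟩
        obtain ⟨k', hk1, h | h⟩ := hm' _ hx
        · injection h with h; exact hk'.1 (h ▸ hk1)
        · cases h
      · intro hx
        obtain ⟨k', hk1, h | h⟩ := hm' _ hx
        · cases h
        · injection h with h; exact hk'.1 (h ▸ hk1)
  · exact hC.map fun a b h => by injection h
  · intro x hx y hy hxy
    subst hxy
    obtain ⟨k, _, h⟩ := hm _ hx
    obtain ⟨c, _, rfl⟩ := List.mem_map.1 hy
    rcases h with h | h <;> cases h
  · intro x hx y hy hxy
    subst hxy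
    obtain ⟨i, _, rfl⟩ := List.mem_map.1 hx
    rcases List.mem_append.1 hy with hy | hy
    · obtain ⟨k, _, h⟩ := hm _ hy
      rcases h with h | h <;> cases h
    · obtain ⟨c, _, h⟩ := List.mem_map.1 hy
      cases h

end

theorem lbs_length {n m : ℕ} (ks : List (Fin m)) (C : List (Fin 4)) :
    (lbs (n := n) ks C).length = n + (2 * ks.length + C.length) := by
  unfold lbs
  rw [List.length_append, List.length_append, List.length_map, List.length_finRange, flat_length,
    List.length_map]

section

variable {n m N : ℕ} {u : Fin n → Site} {v : Fin m → Site} {j : Fin m → Fin 2}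
  {J : ℝ}

/-- The product of the spins of the sources and the tips. -/
def GG (N : ℕ) (u : Fin n → Site) (C : List (Fin 4)) (σ : Config) : ℝ :=
  ((srcs u ++ C.map (tcn N)).map fun c => sp (σ c.1)).prod

theorem GG_eq (C : Finset (Fin 4)) (σ : Config) :
    GG N u C.toList σ = (∏ i, sp (σ (u i))) * ∏ c ∈ C, sp (σ (H436.tip N c)) := by
  unfold GG srcs
  rw [List.map_append, List.prod_append, List.map_map, List.map_map]
  have h1 : ((List.finRange n).map ((fun c : Cn => sp (σ c.1)) ∘ fun i => (u i, u i))).prod =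
      ∏ i, sp (σ (u i)) := by
    rw [← List.ofFn_eq_map, List.prod_ofFn]; rfl
  have h2 : (C.toList.map ((fun c : Cn => sp (σ c.1)) ∘ tcn N)).prod =
      ∏ c ∈ C, sp (σ (H436.tip N c)) := by
    rw [← Finset.prod_map_toList]; rfl
  rw [h1, h2]

/-- The energy at `v k`. -/
def XX (v : Fin m → Site) (j : Fin m → Fin 2) (k : Fin m) (σ : Config) : ℝ :=
  sp (σ (v k)) * sp (σ (v k + dir (j k)))

theorem base (hJ : 0 < J) (hs : Sep N u v) (hN : 1 ≤ N) {ks : List (Fin m)} {C : List (Fin 4)}
    (hk : ks.Nodup) (hC : C.Nodup) (hev : Even (n + C.length)) :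
    gibbs J 0 (fun _ => 0) (Kc / J) none (dia N)
      (fun σ => GG N u C σ * (ks.map fun k => XX v j k σ).prod) =
      H436.MM (dia N) (fcs (srcs u)) * SG C (srcs u ++ C.map (tcn N)) *
        Pf (KK N u v j) (lbs ks C) := by
  set l : List Cn := (lbs (n := n) ks C).map (cn N u v j) with hl
  have hl' := lbs_map N u v j ks C
  rw [← hl] at hl'
  have hd : ∀ c ∈ l, c.1 ∈ dia N := by
    intro c hc
    rw [hl] at hc
    obtain ⟨x, _, rfl⟩ := List.mem_map.1 hc
    exact hs.cn_dia x
  have hcn : ∀ c ∈ l, c.1 ∈ cnr c.2 := by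
    intro c hc
    rw [hl] at hc
    obtain ⟨x, _, rfl⟩ := List.mem_map.1 hc
    exact Sep.cn_cnr x
  have hnd : l.Nodup := (lbs_nodup hk hC).map (hs.cn_inj hN)
  have hlen : Even l.length := by
    rw [hl, List.length_map, lbs_length]
    have : n + (2 * ks.length + C.length) = 2 * ks.length + (n + C.length) := by ring
    rw [this]
    exact (even_two_mul _).add hev
  have e1 : (fun σ => GG N u C σ * (ks.map fun k => XX v j k σ).prod) =
      fun σ : Config => ((sps l).map fun x => sp (σ x)).prod := by
    funext σ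
    have h1 : ((sps l).map fun x => sp (σ x)).prod = (l.map fun c => sp (σ c.1)).prod := by
      unfold sps
      rw [Multiset.map_coe, Multiset.prod_coe, List.map_map]; rfl
    rw [h1, hl']
    unfold GG
    simp only [List.map_append, List.prod_append]
    have h2 : ((flat (fun k => eLo (v k)) (fun k => eHi (v k) (j k)) ks).map
        fun c => sp (σ c.1)).prod = (ks.map fun k => XX v j k σ).prod := by
      induction ks with
      | nil => rfl
      | cons k ks ih =>
        have := ih (List.nodup_cons.1 hk).2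
        rw [flat_cons, List.map_cons, List.map_cons, List.prod_cons, List.prod_cons, List.map_cons,
          List.prod_cons]
        rw [flat_map_prod] at *
        unfold XX eLo eHi
        ring
    rw [h2]; ring
  have hSG := SG_flat (N := N) (srcs u) C v j ks (by
    intro c hc
    unfold srcs at hc
    obtain ⟨i, _, rfl⟩ := List.mem_map.1 hc
    exact mem_cnr.2 (Or.inl rfl)) (by
    intro c hc k _
    unfold srcs at hc
    obtain ⟨i, _, rfl⟩ := List.mem_map.1 hc
    exact ⟨fun h => hs.uv i k (congrArg Prod.snd h), fun h => hs.uv i k (congrArg Prod.snd h)⟩)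
    (fun k _ => hs.v_in k) (hk.map hs.v_inj)
  rw [← hl'] at hSG
  rw [e1, gibbs_spn hJ (by
    intro x hx
    unfold sps at hx
    obtain ⟨c, hc, rfl⟩ := List.mem_map.1 (Multiset.mem_coe.1 hx)
    exact hd c hc), Wf_list (srcs u) C v j ks hl' hd, hSG, Wf_Pf _ _ (fun c hc => ⟨hcn c hc, hd c hc⟩)
    hnd hlen, hl, Pf_map]
  have e3 := Pf_scale (fun x y : Lb n m => Wf (dia N) (fcs (srcs u)) [cn N u v j x, cn N u v j y])
    (wl u v j) (lbs ks C) (by rw [← List.length_map (f := cn N u v j), ← hl]; exact hlen)
  rw [lbs_sign] at e3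
  unfold KK
  rw [e3]
  ring

theorem gibbs_lin (hJ : 0 < J) (Λ : Finset Site) (F G : Config → ℝ) (c : ℝ) :
    gibbs J 0 (fun _ => 0) (Kc / J) none Λ (fun σ => F σ - c * G σ) =
      gibbs J 0 (fun _ => 0) (Kc / J) none Λ F - c * gibbs J 0 (fun _ => 0) (Kc / J) none Λ G := by
  rw [gibbs_WW hJ, gibbs_WW hJ, gibbs_WW hJ, ← mul_div_assoc, ← sub_div, mul_sum, ← sum_sub_distrib]
  congr 1
  exact sum_congr rfl fun T _ => by ring

theorem SG_sq (C : List (Fin 4)) (l : List Cn) : SG C l * SG C l = 1 := by
  unfold SG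
  have e1 := el_sq l
  have e2 := map_sq C (fun c => chiM (tset c) (sps l)) fun c => chiM_sq _ _
  linear_combination (el l * el l) * e2 + e1

/-- Correlations of an odd number of spins vanish. -/
theorem QQ_odd {Λ : Finset Site} (R : Multiset Site) {A : Multiset Site} (hA : ∀ v ∈ A, v ∈ Λ)
    (ho : Odd A.card) : QQ Λ R A = 0 := by
  have h1 : chiM (fun _ => True) A = -1 := by
    have h0 : ∀ x, chi (fun _ => True) x = -1 := fun x => by unfold chi; simp
    unfold chiM
    rw [Multiset.map_congr rfl (fun x _ => h0 x), Multiset.map_const', Multiset.prod_replicate]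
    exact ho.neg_one_pow
  have h2 := NG_gauge Λ (cutS R) 1 (fun _ => True) hA
  rw [h1] at h2
  have h3 : NG Λ (fun x => cutS R x * (chi (fun _ => True) x * chi (fun _ => True) (x.1 + 1, x.2)))
      (fun x => (1 : Site → ℝ) x * (chi (fun _ => True) x * chi (fun _ => True) (x.1, x.2 + 1))) A =
      NG Λ (cutS R) 1 A := by
    refine NG_congr (fun x _ => ?_) (fun x _ => ?_) A
    · rw [show chi (fun _ => True) (x.1 + 1, x.2) = chi (fun _ => True) x by unfold chi; rfl,
        chi_sq, mul_one]
    · rw [show chi (fun _ => True) (x.1, x.2 + 1) = chi (fun _ => True) x by unfold chi; rfl,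
        chi_sq, mul_one]
  rw [h3] at h2
  unfold QQ
  linarith

theorem Pf_odd {α : Type*} (K : α → α → ℝ) (l : List α) (ho : ¬ Even l.length) : Pf K l = 0 := by
  induction hn : l.length using Nat.strong_induction_on generalizing l with
  | _ n ih =>
    cases l with
    | nil => exact absurd (by simp) ho
    | cons c l =>
      rw [Pf]
      refine sum_eq_zero fun i _ => ?_
      have h2 : (l.eraseIdx i).length + 2 = (c :: l).length := by
        have := i.2
        rw [List.length_eraseIdx, if_pos i.2, List.length_cons]; omega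
      rw [ih (l.eraseIdx i).length (by rw [← hn]; omega) _ (fun h => ho (by
        rw [← h2]; exact h.add even_two)) rfl, mul_zero]

theorem base' (hJ : 0 < J) (hs : Sep N u v) (hN : 1 ≤ N) {ks : List (Fin m)} {C : List (Fin 4)}
    (hk : ks.Nodup) (hC : C.Nodup) :
    gibbs J 0 (fun _ => 0) (Kc / J) none (dia N)
      (fun σ => GG N u C σ * (ks.map fun k => XX v j k σ).prod) =
      H436.MM (dia N) (fcs (srcs u)) * SG C (srcs u ++ C.map (tcn N)) *
        Pf (KK N u v j) (lbs ks C) := by
  by_cases hev : Even (n + C.length)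
  · exact base hJ hs hN hk hC hev
  · have hlen : ¬ Even (lbs (n := n) ks C).length := by
      rw [lbs_length]
      intro h
      apply hev
      have : n + (2 * ks.length + C.length) = 2 * ks.length + (n + C.length) := by ring
      rw [this] at h
      exact (Nat.even_add.1 h).1 (even_two_mul _)
    rw [Pf_odd _ _ hlen, mul_zero]
    have e1 := gibbs_spn hJ (Λ := dia N) (A := sps ((lbs (n := n) ks C).map (cn N u v j))) (by
      intro x hx
      unfold sps at hx
      obtain ⟨c, hc, rfl⟩ := List.mem_map.1 (Multiset.mem_coe.1 hx)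
      obtain ⟨y, _, rfl⟩ := List.mem_map.1 hc
      exact hs.cn_dia y)
    rw [QQ_odd 0 (by
      intro x hx
      unfold sps at hx
      obtain ⟨c, hc, rfl⟩ := List.mem_map.1 (Multiset.mem_coe.1 hx)
      obtain ⟨y, _, rfl⟩ := List.mem_map.1 hc
      exact hs.cn_dia y) (by
      unfold sps
      rw [Multiset.coe_card, List.length_map, List.length_map]
      exact Nat.not_even_iff_odd.1 hlen), zero_div] at e1
    refine Eq.trans ?_ e1
    refine congrArg (gibbs J 0 (fun _ => 0) (Kc / J) none (dia N)) (funext fun σ => ?_)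
    have h1 : ((sps ((lbs (n := n) ks C).map (cn N u v j))).map fun x => sp (σ x)).prod =
        (((lbs (n := n) ks C).map (cn N u v j)).map fun c => sp (σ c.1)).prod := by
      unfold sps
      rw [Multiset.map_coe, Multiset.prod_coe, List.map_map]; rfl
    rw [h1, lbs_map]
    unfold GG
    simp only [List.map_append, List.prod_append]
    rw [flat_map_prod]
    have h2 : (ks.map fun k => sp (σ (eLo (v k)).1) * sp (σ (eHi (v k) (j k)).1)).prod =
        (ks.map fun k => XX v j k σ).prod := rfl
    rw [h2]; ring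

/-- The centred mixed correlations. -/
theorem mix (hJ : 0 < J) (hs : Sep N u v) (hN : 1 ≤ N) {ks : List (Fin m)} {C : List (Fin 4)}
    (hk : ks.Nodup) (hC : C.Nodup) (t : Fin m → ℝ) :
    gibbs J 0 (fun _ => 0) (Kc / J) none (dia N)
      (fun σ => GG N u C σ * (ks.map fun k => XX v j k σ - t k).prod) =
      H436.MM (dia N) (fcs (srcs u)) * SG C (srcs u ++ C.map (tcn N)) *
        Pf (cenK (KK N u v j) Lb.lo Lb.hi t ks) (lbs ks C) := by
  set M := H436.MM (dia N) (fcs (srcs u)) * SG C (srcs u ++ C.map (tcn N)) with hM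
  have hM0 : M ≠ 0 := by
    refine mul_ne_zero ?_ ?_
    · exact (div_pos (QQ_pos _ _) (QQ_pos _ _)).ne'
    · intro h
      have := SG_sq C (srcs u ++ C.map (tcn N))
      rw [h] at this
      norm_num at this
  have h := cen_pf (L := fun F => gibbs J 0 (fun _ => 0) (Kc / J) none (dia N) F / M)
    (fun f g c => by
      show gibbs J 0 (fun _ => 0) (Kc / J) none (dia N) (fun σ => f σ - c * g σ) / M = _
      rw [gibbs_lin hJ]; ring)
    (XX v j) t (GG N u C) Lb.lo Lb.hi (KK N u v j) ((List.finRange n).map Lb.src) (C.map Lb.tp) ks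
    (lbs_nodup hk hC) (fun s hs' => by
      show gibbs J 0 (fun _ => 0) (Kc / J) none (dia N) _ / M = _
      rw [base' hJ hs hN (hk.sublist hs') hC, mul_div_cancel_left₀ _ hM0]
      rfl)
  rw [div_eq_iff hM0] at h
  rw [h, mul_comm]
  rfl

/-- The mean of an energy. -/
theorem mean_eq (hJ : 0 < J) {x : Site} (i : Fin 2) (hx : |x.1| + |x.2| + 2 ≤ N) :
    gibbs J 0 (fun _ => 0) (Kc / J) none (dia N) (fun σ => sp (σ x) * sp (σ (x + dir i))) =
      ep (eLo x) (eHi x i) * Wf (dia N) 0 [eLo x, eHi x i] := by
  have h1 := gibbs_spn (Λ := dia N) hJ (A := x ::ₘ (x + dir i) ::ₘ 0) (by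
    intro y hy
    have := dir_norm i x
    rw [Multiset.mem_cons, Multiset.mem_cons] at hy
    rw [mem_dia]
    rcases hy with rfl | rfl | hy
    · omega
    · omega
    · simp at hy)
  simp only [Multiset.map_cons, Multiset.prod_cons, Multiset.map_zero, Multiset.prod_zero,
    mul_one] at h1
  rw [h1]
  unfold Wf
  have e1 : fcs [eLo x, eHi x i] + 0 = x ::ₘ x ::ₘ 0 := by rw [add_zero]; rfl
  have e2 : sps [eLo x, eHi x i] = x ::ₘ (x + dir i) ::ₘ 0 := rfl
  rw [e1, e2, QQ_dis_pair]
  simp only [el, List.map_cons, List.map_nil, List.prod_cons, List.prod_nil, mul_one]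
  have := ep_sq (eLo x) (eHi x i)
  linear_combination (-(QQ (dia N) 0 (x ::ₘ (x + dir i) ::ₘ 0) / QQ (dia N) 0 0)) * this

end

end Vale.Agent.P144.AL
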