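import Vale.Agent.P144.U.AL.Stmt2
import Vale.Agent.P144.U.Final

/-!
No data, even with constants that depend on the domain and the boundary condition.
-/

namespace Vale.Agent.P144

open Filter Topology MeasureTheory

theorem HasData.toD {J : ℝ} {V : Finset Site → ℝ} {lam : ℝ} (h : HasData J V lam) :
    HasDataD J V lam := by
  obtain ⟨β, hβ, Zσ, hσ, Zε, hε, hE, hD⟩ := h
  exact ⟨β, hβ, Zσ, hσ, Zε, hε, hE, fun D h1 h2 h3 b hb => ⟨Zσ, Zε, hD D h1 h2 h3 b hb⟩⟩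

theorem noDataD {J : ℝ} (hJ : 0 < J) (hall : AllLim Dia (crit J Dia (some altb))) {lam : ℝ}
    (hl : 0 < lam) : ¬ HasDataD J Vk lam := by
  rintro ⟨β, hβ, Zσ, hσ, Zε, _, ⟨E, hE, hId⟩, hD⟩
  obtain ⟨Zσ', Zε', hI⟩ := hD Dia H436.Dia_open H436.Dia_connected H436.Dia_bounded (some altb) hall
  have h1 := hI ⟨1, 0, ![0], ![], ![]⟩ (good_x1 zero_mem_Dia _ _) 0 (crit_zero hJ zero_mem_Dia)
  rw [mul_zero] at h1
  exact core (Zε := Zε) hJ hl hβ (compare_ev hJ hl hβ) (fun a ha => H436.disc_Dia ha) hE hσ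
    (fun E₀ hE₀ c hc => hId E₀ hE₀ p2 good_p2 c hc) h1

end Vale.Agent.P144
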