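import Vale.Agent.P144.U.AL.Full1
import Vale.Agent.P144.U.AL.Fin0
import Vale.Agent.P144.H365.Merge

/-!
All limits of the critical model with the alternating boundary condition of the square exist.
-/

namespace Vale.Agent.P144.AL

open Vale.Agent.P144

theorem allLim {J : ℝ} (hJ : 0 < J) : AllLim Dia (crit J Dia (some altb)) :=
  allLim_of_merge hJ (H365.merge hJ)

end Vale.Agent.P144.AL
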