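import Vale.Agent.P144.U.AL.Fin1
import Vale.Agent.P144.H436.Cor

/-!
Spinors on the corners of the square lattice, their `H`-function, sub- and superharmonicity, and
uniqueness.
-/

namespace Vale.Agent.P144.AL

open Finset Vale.Agent.P144

/-- A solution of the relations of `Λ`. `A f, B f, C f, D f` are the values at the four corners of
the face `f = (i, j)` (lower left, lower right, upper left, upper right). `τ (i, j)` is the sign of
the relation between the faces `(i, j)` and `(i, j + 1)`, `θ (i, j)` of the one between `(i, j)`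
and `(i + 1, j)`. -/
structure Spr (Λ : Finset Site) (τ θ : Site → ℝ) (A B C D : Site → ℝ) : Prop where
  τ2 : ∀ f, τ f * τ f = 1
  θ2 : ∀ f, θ f * θ f = 1
  zA : ∀ i j : ℤ, ((i, j) : Site) ∉ Λ → A (i, j) = 0
  zB : ∀ i j : ℤ, ((i + 1, j) : Site) ∉ Λ → B (i, j) = 0
  zC : ∀ i j : ℤ, ((i, j + 1) : Site) ∉ Λ → C (i, j) = 0
  zD : ∀ i j : ℤ, ((i + 1, j + 1) : Site) ∉ Λ → D (i, j) = 0
  V : ∀ i j : ℤ, ((i, j + 1) : Site) ∈ hor Λ →
    C (i, j) = √2 * A (i, j + 1) - τ (i, j) * B (i, j + 1) ∧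
    D (i, j) = √2 * B (i, j + 1) - τ (i, j) * A (i, j + 1)
  V0 : ∀ i j : ℤ, ((i, j + 1) : Site) ∉ hor Λ → C (i, j) = A (i, j + 1) ∧ D (i, j) = B (i, j + 1)
  H : ∀ i j : ℤ, ((i + 1, j) : Site) ∈ ver Λ →
    B (i, j) = θ (i, j) * (√2 * A (i + 1, j) - C (i + 1, j)) ∧
    D (i, j) = -(θ (i, j) * (√2 * C (i + 1, j) - A (i + 1, j)))
  H0 : ∀ i j : ℤ, ((i + 1, j) : Site) ∉ ver Λ →
    B (i, j) = θ (i, j) * A (i + 1, j) ∧ D (i, j) = -(θ (i, j) * C (i + 1, j))

/-- The discrete Laplacian. -/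
def lap (u : Site → ℝ) (x : Site) : ℝ :=
  u (x.1 + 1, x.2) + u (x.1 - 1, x.2) + u (x.1, x.2 + 1) + u (x.1, x.2 - 1) - 4 * u x

/-- `Hs` on spins and `Hf` on faces is the `H`-function of the spinor. -/
structure IsH (Λ : Finset Site) (A B C D Hs Hf : Site → ℝ) : Prop where
  a : ∀ i j : ℤ, Hs (i, j) - Hf (i, j) = A (i, j) ^ 2
  b : ∀ i j : ℤ, Hs (i + 1, j) - Hf (i, j) = B (i, j) ^ 2
  c : ∀ i j : ℤ, Hs (i, j + 1) - Hf (i, j) = C (i, j) ^ 2
  d : ∀ i j : ℤ, Hs (i + 1, j + 1) - Hf (i, j) = D (i, j) ^ 2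
  out : ∀ v ∉ Λ, Hs v = 0

/-- Every column of the complement goes to infinity up or down. -/
def ColConvex (Λ : Finset Site) : Prop :=
  ∀ i j : ℤ, ((i, j) : Site) ∉ Λ →
    (∀ y, j ≤ y → ((i, y) : Site) ∉ Λ) ∨ (∀ y, y ≤ j → ((i, y) : Site) ∉ Λ)

section

variable {Λ : Finset Site} {τ θ A B C D : Site → ℝ} (h : Spr Λ τ θ A B C D)

include h

theorem Spr.quadV (i j : ℤ) :
    C (i, j) ^ 2 - A (i, j + 1) ^ 2 = D (i, j) ^ 2 - B (i, j + 1) ^ 2 := by
  by_cases hh : ((i, j + 1) : Site) ∈ hor Λ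
  · obtain ⟨h1, h2⟩ := h.V i j hh
    rw [h1, h2]
    linear_combination (B (i, j + 1) ^ 2 - A (i, j + 1) ^ 2) * (h.τ2 (i, j)) +
      (A (i, j + 1) ^ 2 - B (i, j + 1) ^ 2) * sqrt2_sq
  · obtain ⟨h1, h2⟩ := h.V0 i j hh
    rw [h1, h2]; ring

theorem Spr.quadH (i j : ℤ) :
    B (i, j) ^ 2 - A (i + 1, j) ^ 2 = D (i, j) ^ 2 - C (i + 1, j) ^ 2 := by
  by_cases hh : ((i + 1, j) : Site) ∈ ver Λ
  · obtain ⟨h1, h2⟩ := h.H i j hh
    rw [h1, h2]
    linear_combination ((√2 * A (i + 1, j) - C (i + 1, j)) ^ 2 -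
      (√2 * C (i + 1, j) - A (i + 1, j)) ^ 2) * (h.θ2 (i, j)) +
      (A (i + 1, j) ^ 2 - C (i + 1, j) ^ 2) * sqrt2_sq
  · obtain ⟨h1, h2⟩ := h.H0 i j hh
    rw [h1, h2]
    linear_combination (A (i + 1, j) ^ 2 - C (i + 1, j) ^ 2) * (h.θ2 (i, j))

/-- The `H`-function exists. -/
theorem Spr.exists_H (hc : ColConvex Λ) : ∃ Hs Hf : Site → ℝ, IsH Λ A B C D Hs Hf := by
  obtain ⟨M, hM⟩ : ∃ M : ℕ, Λ ⊆ box M := (H436.subset_box Λ).exists
  have hout : ∀ x : Site, (x.1 < -(M:ℤ) ∨ (M:ℤ) < x.1 ∨ x.2 < -(M:ℤ) ∨ (M:ℤ) < x.2) → x ∉ Λ := by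
    intro x hx hxΛ
    have := hM hxΛ
    rw [H436.mem_box, abs_le, abs_le] at this
    lia
  set Hf : Site → ℝ := fun f => ∑ y ∈ Finset.Ico f.2 ((M:ℤ) + 1), (A (f.1, y + 1) ^ 2 - C (f.1, y) ^ 2)
    with hHf
  have step : ∀ i j : ℤ, Hf (i, j) = Hf (i, j + 1) + A (i, j + 1) ^ 2 - C (i, j) ^ 2 := by
    intro i j
    simp only [hHf]
    by_cases hj : j < (M:ℤ) + 1
    · have : Finset.Ico j ((M:ℤ) + 1) = insert j (Finset.Ico (j + 1) ((M:ℤ) + 1)) := by
        ext y; simp only [mem_Ico, mem_insert]; lia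
      rw [this, sum_insert (by simp)]
      ring
    · rw [Finset.Ico_eq_empty (by lia), Finset.Ico_eq_empty (by lia),
        h.zA i (j + 1) (hout _ (by simp only; lia)), h.zC i j (hout _ (by simp only; lia))]
      simp
  have high : ∀ i j : ℤ, (M:ℤ) < j → Hf (i, j) = 0 := by
    intro i j hj
    simp only [hHf]
    rw [Finset.Ico_eq_empty (by lia)]
    simp
  have horz : ∀ i j : ℤ, Hf (i + 1, j) - Hf (i, j) = B (i, j) ^ 2 - A (i + 1, j) ^ 2 := by
    intro i j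
    -- downward induction from the top
    have key : ∀ n : ℕ, ∀ j : ℤ, (M:ℤ) + 1 - n ≤ j →
        Hf (i + 1, j) - Hf (i, j) = B (i, j) ^ 2 - A (i + 1, j) ^ 2 := by
      intro n
      induction n with
      | zero =>
        intro j hj
        rw [high _ _ (by lia), high _ _ (by lia), h.zB i j (hout _ (by simp only; lia)),
          h.zA (i + 1) j (hout _ (by simp only; lia))]
        simp
      | succ n ih =>
        intro j hj
        by_cases hj' : (M:ℤ) + 1 - n ≤ j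
        · exact ih j hj'
        · have e := ih (j + 1) (by lia)
          have e1 := step (i + 1) j
          have e2 := step i j
          have e3 := h.quadV i j
          have e4 := h.quadH i j
          linarith
    exact key ((M:ℤ) + 1 - j).toNat j (by lia)
  have left : ∀ i j : ℤ, i < -(M:ℤ) - 1 → Hf (i, j) = 0 := by
    intro i j hi
    simp only [hHf]
    refine sum_eq_zero fun y _ => ?_
    rw [h.zA i (y + 1) (hout _ (by simp only; lia)), h.zC i y (hout _ (by simp only; lia))]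
    simp
  have low : ∀ i j : ℤ, j < -(M:ℤ) - 1 → Hf (i, j) = 0 := by
    intro i j hj
    have key : ∀ n : ℕ, Hf (-(M:ℤ) - 2 + n, j) = 0 := by
      intro n
      induction n with
      | zero => exact left _ _ (by simp only [Nat.cast_zero, add_zero]; lia)
      | succ n ih =>
        have := horz (-(M:ℤ) - 2 + n) j
        rw [h.zB _ j (hout _ (by simp only; lia)), h.zA _ j (hout _ (by simp only; lia)), ih] at this
        have e : -(M:ℤ) - 2 + ((n + 1 : ℕ) : ℤ) = -(M:ℤ) - 2 + n + 1 := by push_cast; ring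
        rw [e]
        linarith
    by_cases hi : i < -(M:ℤ) - 1
    · exact left i j hi
    · have := key (i - (-(M:ℤ) - 2)).toNat
      have e : -(M:ℤ) - 2 + ((i - (-(M:ℤ) - 2)).toNat : ℤ) = i := by lia
      rwa [e] at this
  refine ⟨fun v => Hf v + A v ^ 2, Hf, ?_⟩
  have hb : ∀ i j : ℤ, Hf (i + 1, j) + A (i + 1, j) ^ 2 - Hf (i, j) = B (i, j) ^ 2 := by
    intro i j; linarith [horz i j]
  have hcc : ∀ i j : ℤ, Hf (i, j + 1) + A (i, j + 1) ^ 2 - Hf (i, j) = C (i, j) ^ 2 := by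
    intro i j; linarith [step i j]
  refine ⟨fun i j => by simp, hb, hcc, fun i j => ?_, ?_⟩
  · have e1 := hb i (j + 1)
    have e2 := step i j
    have e3 := h.quadV i j
    linarith
  · rintro ⟨i, j⟩ hv
    have vert : ∀ y : ℤ, ((i, y) : Site) ∉ Λ → ((i, y + 1) : Site) ∉ Λ →
        Hf (i, y) + A (i, y) ^ 2 = Hf (i, y + 1) + A (i, y + 1) ^ 2 := by
      intro y h1 h2
      have := hcc i y
      rw [h.zC i y h2] at this
      rw [h.zA i y h1]
      linarith
    rcases hc i j hv with hup | hdn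
    · have key : ∀ n : ℕ, Hf (i, j) + A (i, j) ^ 2 = Hf (i, j + n) + A (i, j + n) ^ 2 := by
        intro n
        induction n with
        | zero => simp
        | succ n ih =>
          rw [ih, vert (j + n) (hup _ (by lia)) (hup _ (by lia))]
          have e : j + ((n + 1 : ℕ) : ℤ) = j + n + 1 := by push_cast; ring
          rw [e]
      show Hf (i, j) + A (i, j) ^ 2 = 0
      rw [key ((M:ℤ) + 1 - j).toNat, high _ _ (by lia), h.zA _ _ (hout _ (by simp only; lia))]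
      simp
    · have key : ∀ n : ℕ, Hf (i, j) + A (i, j) ^ 2 = Hf (i, j - n) + A (i, j - n) ^ 2 := by
        intro n
        induction n with
        | zero => simp
        | succ n ih =>
          have e := vert (j - n - 1) (hdn _ (by lia)) (hdn _ (by lia))
          rw [sub_add_cancel] at e
          rw [ih, ← e]
          have e : j - ((n + 1 : ℕ) : ℤ) = j - n - 1 := by push_cast; ring
          rw [e]
      show Hf (i, j) + A (i, j) ^ 2 = 0
      rw [key (j + M + 2).toNat, low _ _ (by lia), h.zA _ _ (hout _ (by simp only; lia))]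
      simp

variable {Hs Hf : Site → ℝ} (hH : IsH Λ A B C D Hs Hf)

include hH

theorem Spr.Hf_out {i j : ℤ} (hv : ((i, j) : Site) ∉ Λ ∨ ((i + 1, j) : Site) ∉ Λ ∨
    ((i, j + 1) : Site) ∉ Λ ∨ ((i + 1, j + 1) : Site) ∉ Λ) : Hf (i, j) = 0 := by
  rcases hv with hv | hv | hv | hv
  · have := hH.a i j
    rw [hH.out _ hv, h.zA i j hv] at this
    linarith
  · have := hH.b i j
    rw [hH.out _ hv, h.zB i j hv] at this
    linarith
  · have := hH.c i j
    rw [hH.out _ hv, h.zC i j hv] at this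
    linarith
  · have := hH.d i j
    rw [hH.out _ hv, h.zD i j hv] at this
    linarith

/-- Differences of `Hs` along an edge in terms of the values at the first end. -/
theorem Spr.dN {i j : ℤ} (he : ((i, j) : Site) ∈ ver Λ) :
    Hs (i, j + 1) - Hs (i, j) = A (i, j) ^ 2 + B (i - 1, j) ^ 2 -
      2 * √2 * (θ (i - 1, j) * (A (i, j) * B (i - 1, j))) := by
  have e1 := h.H (i - 1) j (by rwa [sub_add_cancel])
  rw [sub_add_cancel] at e1
  have e2 := hH.c i j
  have e3 := hH.a i j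
  have e4 : C (i, j) = √2 * A (i, j) - θ (i - 1, j) * B (i - 1, j) := by
    rw [e1.1]; linear_combination (√2 * A (i, j) - C (i, j)) * h.θ2 (i - 1, j)
  have e5 : Hs (i, j + 1) - Hs (i, j) = C (i, j) ^ 2 - A (i, j) ^ 2 := by linarith
  rw [e5, e4]
  linear_combination (A (i, j) ^ 2) * sqrt2_sq + (B (i - 1, j) ^ 2) * h.θ2 (i - 1, j)

theorem Spr.dS {i j : ℤ} (he : ((i, j - 1) : Site) ∈ ver Λ) :
    Hs (i, j - 1) - Hs (i, j) = C (i, j - 1) ^ 2 + D (i - 1, j - 1) ^ 2 +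
      2 * √2 * (θ (i - 1, j - 1) * (C (i, j - 1) * D (i - 1, j - 1))) := by
  have e1 := h.H (i - 1) (j - 1) (by rwa [sub_add_cancel])
  rw [sub_add_cancel] at e1
  have e2 := hH.c i (j - 1)
  have e3 := hH.a i (j - 1)
  rw [sub_add_cancel] at e2
  have e4 : A (i, j - 1) = √2 * C (i, j - 1) + θ (i - 1, j - 1) * D (i - 1, j - 1) := by
    rw [e1.2]; linear_combination (√2 * C (i, j - 1) - A (i, j - 1)) * h.θ2 (i - 1, j - 1)
  have e5 : Hs (i, j - 1) - Hs (i, j) = A (i, j - 1) ^ 2 - C (i, j - 1) ^ 2 := by linarith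
  rw [e5, e4]
  linear_combination (C (i, j - 1) ^ 2) * sqrt2_sq + (D (i - 1, j - 1) ^ 2) * h.θ2 (i - 1, j - 1)

theorem Spr.dE {i j : ℤ} (he : ((i, j) : Site) ∈ hor Λ) :
    Hs (i + 1, j) - Hs (i, j) = A (i, j) ^ 2 + C (i, j - 1) ^ 2 -
      2 * √2 * (A (i, j) * C (i, j - 1)) := by
  have e1 := h.V i (j - 1) (by rwa [sub_add_cancel])
  rw [sub_add_cancel] at e1
  have e2 := hH.b i j
  have e3 := hH.a i j
  have e4 : B (i, j) = τ (i, j - 1) * (√2 * A (i, j) - C (i, j - 1)) := by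
    rw [e1.1]; linear_combination (-B (i, j)) * h.τ2 (i, j - 1)
  have e5 : Hs (i + 1, j) - Hs (i, j) = B (i, j) ^ 2 - A (i, j) ^ 2 := by linarith
  rw [e5, e4]
  linear_combination (A (i, j) ^ 2) * sqrt2_sq + (√2 * A (i, j) - C (i, j - 1)) ^ 2 * h.τ2 (i, j - 1)

theorem Spr.dW {i j : ℤ} (he : ((i - 1, j) : Site) ∈ hor Λ) :
    Hs (i - 1, j) - Hs (i, j) = B (i - 1, j) ^ 2 + D (i - 1, j - 1) ^ 2 -
      2 * √2 * (B (i - 1, j) * D (i - 1, j - 1)) := by
  have e1 := h.V (i - 1) (j - 1) (by rwa [sub_add_cancel])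
  rw [sub_add_cancel] at e1
  have e2 := hH.b (i - 1) j
  have e3 := hH.a (i - 1) j
  rw [sub_add_cancel] at e2
  have e4 : A (i - 1, j) = τ (i - 1, j - 1) * (√2 * B (i - 1, j) - D (i - 1, j - 1)) := by
    rw [e1.2]; linear_combination (-A (i - 1, j)) * h.τ2 (i - 1, j - 1)
  have e5 : Hs (i - 1, j) - Hs (i, j) = A (i - 1, j) ^ 2 - B (i - 1, j) ^ 2 := by linarith
  rw [e5, e4]
  linear_combination (B (i - 1, j) ^ 2) * sqrt2_sq +
    (√2 * B (i - 1, j) - D (i - 1, j - 1)) ^ 2 * h.τ2 (i - 1, j - 1)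

end

end Vale.Agent.P144.AL
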