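import Vale.Agent.P144.U.AL.Fin3

/-!
The relations in terms of the lower left and upper right corners, superharmonicity of `Hf`, the
masses at a disorder.
-/

namespace Vale.Agent.P144.AL

open Finset Vale.Agent.P144

section

variable {Λ : Finset Site} {τ θ A B C D Hs Hf : Site → ℝ} (h : Spr Λ τ θ A B C D)

include h

/-- The relation at the edges to the east and to the south of `(i, j)`. -/
theorem Spr.CR1 {i j : ℤ} (hE : ((i, j) : Site) ∈ hor Λ) (hS : ((i, j - 1) : Site) ∈ ver Λ) :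
    τ (i, j - 1) * D (i, j - 1) - θ (i - 1, j - 1) * D (i - 1, j - 1) =
      A (i, j) - A (i, j - 1) := by
  have e1 := h.V i (j - 1) (by rwa [sub_add_cancel])
  have e2 := h.H (i - 1) (j - 1) (by rwa [sub_add_cancel])
  rw [sub_add_cancel] at e1 e2
  have t1 := h.τ2 (i, j - 1)
  have t2 := h.θ2 (i - 1, j - 1)
  have h2 := sqrt2_sq
  linear_combination τ (i, j - 1) * e1.2 - θ (i - 1, j - 1) * e2.2 + √2 * e1.1 +
    (-A (i, j)) * t1 + (√2 * C (i, j - 1) - A (i, j - 1)) * t2 + A (i, j) * h2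

/-- The relation at the edges to the north and to the west of `(i, j)`. -/
theorem Spr.CR2 {i j : ℤ} (hN : ((i, j) : Site) ∈ ver Λ) (hW : ((i - 1, j) : Site) ∈ hor Λ) :
    D (i - 1, j) - D (i - 1, j - 1) =
      τ (i - 1, j - 1) * A (i - 1, j) - θ (i - 1, j) * A (i, j) := by
  have e1 := h.V (i - 1) (j - 1) (by rwa [sub_add_cancel])
  have e2 := h.H (i - 1) j (by rwa [sub_add_cancel])
  rw [sub_add_cancel] at e1 e2
  have t1 := h.τ2 (i - 1, j - 1)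
  have t2 := h.θ2 (i - 1, j)
  have h2 := sqrt2_sq
  have e3 : D (i - 1, j) = √2 * B (i - 1, j) - θ (i - 1, j) * A (i, j) := by
    linear_combination e2.2 - √2 * e2.1 - θ (i - 1, j) * A (i, j) * h2
  have e4 := e1.2
  linear_combination e3 - e4

/-- The lower right corner at `(i, j)` in terms of the lower left and the upper right ones. -/
theorem Spr.sqb {i j : ℤ} (hW : ((i - 1, j) : Site) ∈ hor Λ) :
    √2 * B (i - 1, j) = D (i - 1, j - 1) + τ (i - 1, j - 1) * A (i - 1, j) := by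
  have e1 := h.V (i - 1) (j - 1) (by rwa [sub_add_cancel])
  rw [sub_add_cancel] at e1
  linear_combination -e1.2

theorem Spr.sqc {i j : ℤ} (hS : ((i, j - 1) : Site) ∈ ver Λ) :
    √2 * C (i, j - 1) = A (i, j - 1) - θ (i - 1, j - 1) * D (i - 1, j - 1) := by
  have e2 := h.H (i - 1) (j - 1) (by rwa [sub_add_cancel])
  rw [sub_add_cancel] at e2
  have t2 := h.θ2 (i - 1, j - 1)
  linear_combination θ (i - 1, j - 1) * e2.2 + (A (i, j - 1) - √2 * C (i, j - 1)) * t2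

/-- The signed Laplacian of the upper right corner values. -/
theorem Spr.harmD {i j : ℤ} (h0 : ((i, j) : Site) ∈ Λ) (hN : ((i, j + 1) : Site) ∈ Λ)
    (hE : ((i + 1, j) : Site) ∈ Λ) (hS : ((i, j - 1) : Site) ∈ Λ) (hW : ((i - 1, j) : Site) ∈ Λ)
    (hSW : ((i - 1, j - 1) : Site) ∈ Λ) :
    D (i - 1, j) + D (i - 1, j - 2) + τ (i, j - 1) * θ (i - 1, j - 1) * D (i, j - 1) +
      τ (i - 1, j - 1) * θ (i - 2, j - 1) * D (i - 2, j - 1) - 4 * D (i - 1, j - 1) =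
    (θ (i - 1, j - 1) - θ (i - 1, j)) * A (i, j) +
      (τ (i - 1, j - 1) - τ (i - 1, j - 2)) * A (i - 1, j - 1) := by
  have c1 := h.CR1 (i := i) (j := j) (mem_hor.2 ⟨h0, hE⟩) (mem_ver.2 ⟨hS, by simpa using h0⟩)
  have c2 := h.CR2 (i := i) (j := j) (mem_ver.2 ⟨h0, hN⟩) (mem_hor.2 ⟨hW, by simpa using h0⟩)
  have c3 := h.CR1 (i := i - 1) (j := j) (mem_hor.2 ⟨hW, by simpa using h0⟩)
    (mem_ver.2 ⟨hSW, by simpa using hW⟩)
  have c4 := h.CR2 (i := i) (j := j - 1) (mem_ver.2 ⟨hS, by simpa using h0⟩)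
    (mem_hor.2 ⟨hSW, by simpa using hS⟩)
  rw [show i - 1 - 1 = i - 2 by ring] at c3
  rw [show j - 1 - 1 = j - 2 by ring] at c4
  have t1 := h.θ2 (i - 1, j - 1)
  have t2 := h.τ2 (i - 1, j - 1)
  linear_combination θ (i - 1, j - 1) * c1 + c2 - τ (i - 1, j - 1) * c3 - c4 +
    D (i - 1, j - 1) * t1 + D (i - 1, j - 1) * t2

/-- The signed Laplacian of the lower left corner values. -/
theorem Spr.harmA {i j : ℤ} (h0 : ((i, j) : Site) ∈ Λ) (hN : ((i, j + 1) : Site) ∈ Λ)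
    (hE : ((i + 1, j) : Site) ∈ Λ) (hS : ((i, j - 1) : Site) ∈ Λ) (hW : ((i - 1, j) : Site) ∈ Λ)
    (hNE : ((i + 1, j + 1) : Site) ∈ Λ) :
    A (i, j + 1) + A (i, j - 1) + τ (i, j - 1) * θ (i, j) * A (i + 1, j) +
      θ (i - 1, j) * τ (i - 1, j - 1) * A (i - 1, j) - 4 * A (i, j) =
    (τ (i, j) - τ (i, j - 1)) * D (i, j) + (θ (i - 1, j - 1) - θ (i - 1, j)) * D (i - 1, j - 1) := by
  have c1 := h.CR1 (i := i) (j := j) (mem_hor.2 ⟨h0, hE⟩) (mem_ver.2 ⟨hS, by simpa using h0⟩)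
  have c2 := h.CR2 (i := i) (j := j) (mem_ver.2 ⟨h0, hN⟩) (mem_hor.2 ⟨hW, by simpa using h0⟩)
  have c3 := h.CR1 (i := i) (j := j + 1) (mem_hor.2 ⟨hN, hNE⟩)
    (mem_ver.2 ⟨by simpa using h0, by simpa using hN⟩)
  have c4 := h.CR2 (i := i + 1) (j := j) (mem_ver.2 ⟨hE, hNE⟩)
    (mem_hor.2 ⟨by simpa using h0, by simpa using hE⟩)
  rw [add_sub_cancel_right] at c3 c4
  have t1 := h.θ2 (i - 1, j)
  have t2 := h.τ2 (i, j - 1)
  linear_combination c1 + (-θ (i - 1, j)) * c2 - c3 + τ (i, j - 1) * c4 +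
    A (i, j) * t1 + A (i, j) * t2

variable (hH : IsH Λ A B C D Hs Hf)

include hH

/-- Differences of `Hf` between a face and its neighbours, in terms of the values at the face. -/
theorem Spr.fN {i j : ℤ} (he : ((i, j + 1) : Site) ∈ hor Λ) :
    Hf (i, j + 1) - Hf (i, j) = -(C (i, j) ^ 2 + D (i, j) ^ 2) -
      2 * √2 * (τ (i, j) * (C (i, j) * D (i, j))) := by
  have e1 := h.V i j he
  have e2 := hH.c i j
  have e3 := hH.a i (j + 1)
  have e4 : A (i, j + 1) = √2 * C (i, j) + τ (i, j) * D (i, j) := by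
    rw [e1.2, e1.1]
    linear_combination (-A (i, j + 1)) * sqrt2_sq + A (i, j + 1) * h.τ2 (i, j)
  have e5 : Hf (i, j + 1) - Hf (i, j) = C (i, j) ^ 2 - A (i, j + 1) ^ 2 := by linarith
  rw [e5, e4]
  linear_combination (-(C (i, j) ^ 2)) * sqrt2_sq - (D (i, j) ^ 2) * h.τ2 (i, j)

theorem Spr.fS {i j : ℤ} (he : ((i, j) : Site) ∈ hor Λ) :
    Hf (i, j - 1) - Hf (i, j) = -(A (i, j) ^ 2 + B (i, j) ^ 2) +
      2 * √2 * (τ (i, j - 1) * (A (i, j) * B (i, j))) := by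
  have e1 := h.V i (j - 1) (by rwa [sub_add_cancel])
  have e2 := hH.c i (j - 1)
  have e3 := hH.a i j
  rw [sub_add_cancel] at e1 e2
  have e5 : Hf (i, j - 1) - Hf (i, j) = A (i, j) ^ 2 - C (i, j - 1) ^ 2 := by linarith
  rw [e5, e1.1]
  linear_combination (-(A (i, j) ^ 2)) * sqrt2_sq - (B (i, j) ^ 2) * h.τ2 (i, j - 1)

theorem Spr.fE {i j : ℤ} (he : ((i + 1, j) : Site) ∈ ver Λ) :
    Hf (i + 1, j) - Hf (i, j) = -(B (i, j) ^ 2 + D (i, j) ^ 2) +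
      2 * √2 * (B (i, j) * D (i, j)) := by
  have e1 := h.H i j he
  have e2 := hH.b i j
  have e3 := hH.a (i + 1) j
  have e4 : A (i + 1, j) = θ (i, j) * (√2 * B (i, j) - D (i, j)) := by
    rw [e1.2, e1.1]
    linear_combination (-(θ (i, j) ^ 2 * A (i + 1, j))) * sqrt2_sq - A (i + 1, j) * h.θ2 (i, j)
  have e5 : Hf (i + 1, j) - Hf (i, j) = B (i, j) ^ 2 - A (i + 1, j) ^ 2 := by linarith
  rw [e5, e4]
  linear_combination (-(√2 * B (i, j) - D (i, j)) ^ 2) * h.θ2 (i, j) - B (i, j) ^ 2 * sqrt2_sq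

theorem Spr.fW {i j : ℤ} (he : ((i, j) : Site) ∈ ver Λ) :
    Hf (i - 1, j) - Hf (i, j) = -(A (i, j) ^ 2 + C (i, j) ^ 2) +
      2 * √2 * (A (i, j) * C (i, j)) := by
  have e1 := h.H (i - 1) j (by rwa [sub_add_cancel])
  have e2 := hH.b (i - 1) j
  have e3 := hH.a i j
  rw [sub_add_cancel] at e1 e2
  have e5 : Hf (i - 1, j) - Hf (i, j) = A (i, j) ^ 2 - B (i - 1, j) ^ 2 := by linarith
  rw [e5, e1.1]
  linear_combination (-(√2 * A (i, j) - C (i, j)) ^ 2) * h.θ2 (i - 1, j) - A (i, j) ^ 2 * sqrt2_sq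

/-- The Laplacian of `Hf` at an inner face. -/
theorem Spr.lapf {i j : ℤ} (h1 : ((i, j) : Site) ∈ Λ) (h2 : ((i + 1, j) : Site) ∈ Λ)
    (h3 : ((i, j + 1) : Site) ∈ Λ) (h4 : ((i + 1, j + 1) : Site) ∈ Λ) :
    lap Hf (i, j) = -(2 * (B (i, j) ^ 2 + A (i, j) ^ 2 + D (i, j) ^ 2 + C (i, j) ^ 2) -
      2 * √2 * (τ (i, j - 1) * (B (i, j) * A (i, j)) - τ (i, j) * (D (i, j) * C (i, j)) +
        B (i, j) * D (i, j) + A (i, j) * C (i, j))) := by
  have e1 := h.fN hH (mem_hor.2 ⟨h3, h4⟩)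
  have e2 := h.fS hH (mem_hor.2 ⟨h1, h2⟩)
  have e3 := h.fE hH (mem_ver.2 ⟨h2, h4⟩)
  have e4 := h.fW hH (mem_ver.2 ⟨h1, h3⟩)
  unfold lap
  simp only
  linear_combination e1 + e2 + e3 + e4

/-- `Hf` is superharmonic at inner faces without a disorder. -/
theorem Spr.lapf_nonpos {i j : ℤ} (h1 : ((i, j) : Site) ∈ Λ) (h2 : ((i + 1, j) : Site) ∈ Λ)
    (h3 : ((i, j + 1) : Site) ∈ Λ) (h4 : ((i + 1, j + 1) : Site) ∈ Λ)
    (hτ : τ (i, j) = τ (i, j - 1)) : lap Hf (i, j) ≤ 0 := by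
  rw [h.lapf hH h1 h2 h3 h4, hτ]
  have := quad_nonneg (B (i, j)) (A (i, j)) (D (i, j)) (C (i, j)) (τ (i, j - 1)) (h.τ2 _)
  linarith

/-- Upper bound at any inner face. -/
theorem Spr.lapf_upper {i j : ℤ} (h1 : ((i, j) : Site) ∈ Λ) (h2 : ((i + 1, j) : Site) ∈ Λ)
    (h3 : ((i, j + 1) : Site) ∈ Λ) (h4 : ((i + 1, j + 1) : Site) ∈ Λ) :
    lap Hf (i, j) ≤ (2 * √2 - 2) * (A (i, j) ^ 2 + B (i, j) ^ 2 + C (i, j) ^ 2 + D (i, j) ^ 2) := by
  rw [h.lapf hH h1 h2 h3 h4]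
  have := quad_lower (B (i, j)) (A (i, j)) (D (i, j)) (C (i, j)) (τ (i, j - 1)) (τ (i, j))
    (h.τ2 _) (h.τ2 _)
  linarith

omit h hH in
theorem quad_id (a b c d t : ℝ) (ht : t * t = 1) :
    2 * (a ^ 2 + b ^ 2 + c ^ 2 + d ^ 2) - 2 * √2 * (t * (a * b) - t * (c * d) + a * c + b * d) =
      (√2 * a - (t * b + c)) ^ 2 + (√2 * d - (b - t * c)) ^ 2 ∧
    2 * (a ^ 2 + b ^ 2 + c ^ 2 + d ^ 2) - 2 * √2 * (t * (a * b) - t * (c * d) + a * c + b * d) =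
      (√2 * b - (t * a + d)) ^ 2 + (√2 * c - (a - t * d)) ^ 2 := by
  have h2 := sqrt2_sq
  constructor
  · linear_combination (-(a ^ 2 + d ^ 2)) * h2 - (b ^ 2 + c ^ 2) * ht
  · linear_combination (-(b ^ 2 + c ^ 2)) * h2 - (a ^ 2 + d ^ 2) * ht

omit h hH in
theorem four_cycle (A B C D s : ℝ) (hs : s * s = 1) :
    (6 - 4 * √2) * (A ^ 2 + B ^ 2 + C ^ 2 + D ^ 2) ≤
      (C + s * B - √2 * A) ^ 2 + (D + s * A - √2 * B) ^ 2 + (A + s * D - √2 * C) ^ 2 +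
        (B + s * C - √2 * D) ^ 2 := by
  have h2 := sqrt2_sq
  have h1 : (1:ℝ) ≤ √2 := by rw [Real.one_le_sqrt]; norm_num
  have key : (C + s * B - √2 * A) ^ 2 + (D + s * A - √2 * B) ^ 2 + (A + s * D - √2 * C) ^ 2 +
      (B + s * C - √2 * D) ^ 2 - (6 - 4 * √2) * (A ^ 2 + B ^ 2 + C ^ 2 + D ^ 2) =
      (2 * √2 - 2) * ((A - s * D) ^ 2 + (s * B - C) ^ 2) +
        2 * √2 * ((A + s * D) - (s * B + C)) ^ 2 := by
    linear_combination (A ^ 2 + B ^ 2 + C ^ 2 + D ^ 2) * h2 +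
      (A ^ 2 + B ^ 2 + C ^ 2 + D ^ 2 - (2 * √2 - 2) * (D ^ 2 + B ^ 2) - 2 * √2 * (D ^ 2 + B ^ 2 - 2 * B * D)) * hs
  have : 0 ≤ (2 * √2 - 2) * ((A - s * D) ^ 2 + (s * B - C) ^ 2) +
        2 * √2 * ((A + s * D) - (s * B + C)) ^ 2 := by
    have : 0 ≤ 2 * √2 - 2 := by linarith
    positivity
  linarith

end

end Vale.Agent.P144.AL
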