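import Vale.Agent.P144.U.AL.Fin4
import Vale.Agent.P144.H436.Ker

/-!
Total masses of the `H`-function in the diamond.
-/

namespace Vale.Agent.P144.AL

open Finset Vale.Agent.P144

theorem lap436 (u : Site → ℝ) (x : Site) : H436.lap u x = lap u x := by
  unfold lap H436.lap
  have e1 : x + (1, 0) = (x.1 + 1, x.2) := by ext <;> simp
  have e2 : x + (-1, 0) = (x.1 - 1, x.2) := by ext <;> simp [sub_eq_add_neg]
  have e3 : x + (0, 1) = (x.1, x.2 + 1) := by ext <;> simp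
  have e4 : x + (0, -1) = (x.1, x.2 - 1) := by ext <;> simp [sub_eq_add_neg]
  rw [e1, e2, e3, e4]

/-- The sum of the squares of the four values at a face. -/
def sqF (A B C D : Site → ℝ) (f : Site) : ℝ := A f ^ 2 + B f ^ 2 + C f ^ 2 + D f ^ 2

/-- The sum of the squares of the four values at a spin. -/
def sqS (A B C D : Site → ℝ) (v : Site) : ℝ :=
  A v ^ 2 + B (v.1 - 1, v.2) ^ 2 + C (v.1, v.2 - 1) ^ 2 + D (v.1 - 1, v.2 - 1) ^ 2

theorem sqF_nonneg (A B C D : Site → ℝ) (f : Site) : 0 ≤ sqF A B C D f := by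
  unfold sqF; positivity

theorem sqS_nonneg (A B C D : Site → ℝ) (f : Site) : 0 ≤ sqS A B C D f := by
  unfold sqS; positivity

section

variable {Λ : Finset Site} {τ θ A B C D Hs Hf : Site → ℝ} (h : Spr Λ τ θ A B C D)
  (hH : IsH Λ A B C D Hs Hf)

include h hH

/-- The mass of `Hs` at the corners of a disorder controls the values there. -/
theorem Spr.branch_face {i j : ℤ}
    (hb : ∀ x y : ℤ, i - 1 ≤ x → x ≤ i + 2 → j - 1 ≤ y → y ≤ j + 2 → ((x, y) : Site) ∈ Λ)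
    (t1 : θ (i - 1, j) = θ (i - 1, j - 1)) (t2 : θ (i, j) = θ (i, j - 1))
    (t3 : θ (i - 1, j + 1) = θ (i - 1, j)) (t4 : θ (i, j + 1) = θ (i, j))
    (hτ : τ (i, j) = -τ (i, j - 1)) :
    (6 - 4 * √2) * sqF A B C D (i, j) ≤
      lap Hs (i, j) + lap Hs (i + 1, j) + lap Hs (i, j + 1) + lap Hs (i + 1, j + 1) := by
  have mem : ∀ x y : ℤ, i - 1 ≤ x → x ≤ i + 2 → j - 1 ≤ y → y ≤ j + 2 → ((x, y) : Site) ∈ Λ := hb
  have l1 := h.lap_int hH (i := i) (j := j) (mem _ _ (by lia) (by lia) (by lia) (by lia))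
    (mem _ _ (by lia) (by lia) (by lia) (by lia)) (mem _ _ (by lia) (by lia) (by lia) (by lia))
    (mem _ _ (by lia) (by lia) (by lia) (by lia)) (mem _ _ (by lia) (by lia) (by lia) (by lia))
  have l2 := h.lap_int hH (i := i + 1) (j := j) (mem _ _ (by lia) (by lia) (by lia) (by lia))
    (mem _ _ (by lia) (by lia) (by lia) (by lia)) (mem _ _ (by lia) (by lia) (by lia) (by lia))
    (mem _ _ (by lia) (by lia) (by lia) (by lia)) (mem _ _ (by lia) (by lia) (by lia) (by lia))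
  have l3 := h.lap_int hH (i := i) (j := j + 1) (mem _ _ (by lia) (by lia) (by lia) (by lia))
    (mem _ _ (by lia) (by lia) (by lia) (by lia)) (mem _ _ (by lia) (by lia) (by lia) (by lia))
    (mem _ _ (by lia) (by lia) (by lia) (by lia)) (mem _ _ (by lia) (by lia) (by lia) (by lia))
  have l4 := h.lap_int hH (i := i + 1) (j := j + 1) (mem _ _ (by lia) (by lia) (by lia) (by lia))
    (mem _ _ (by lia) (by lia) (by lia) (by lia)) (mem _ _ (by lia) (by lia) (by lia) (by lia))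
    (mem _ _ (by lia) (by lia) (by lia) (by lia)) (mem _ _ (by lia) (by lia) (by lia) (by lia))
  rw [← t1] at l1
  rw [add_sub_cancel_right, ← t2] at l2
  rw [add_sub_cancel_right, t3] at l3
  rw [add_sub_cancel_right, add_sub_cancel_right, t4] at l4
  rw [(quad_id _ _ _ _ _ (h.θ2 _)).1] at l1
  rw [(quad_id _ _ _ _ _ (h.θ2 _)).2] at l2
  rw [(quad_id _ _ _ _ _ (h.θ2 _)).2] at l3
  rw [(quad_id _ _ _ _ _ (h.θ2 _)).1] at l4
  have eN := h.V i j (mem_hor.2 ⟨mem _ _ (by lia) (by lia) (by lia) (by lia),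
    mem _ _ (by lia) (by lia) (by lia) (by lia)⟩)
  have eS := h.V i (j - 1) (by
    rw [sub_add_cancel]
    exact mem_hor.2 ⟨mem _ _ (by lia) (by lia) (by lia) (by lia),
      mem _ _ (by lia) (by lia) (by lia) (by lia)⟩)
  have eE := h.H i j (mem_ver.2 ⟨mem _ _ (by lia) (by lia) (by lia) (by lia),
    mem _ _ (by lia) (by lia) (by lia) (by lia)⟩)
  have eW := h.H (i - 1) j (by
    rw [sub_add_cancel]
    exact mem_ver.2 ⟨mem _ _ (by lia) (by lia) (by lia) (by lia),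
      mem _ _ (by lia) (by lia) (by lia) (by lia)⟩)
  rw [sub_add_cancel] at eS eW
  have q2 := sqrt2_sq
  have th1 := h.θ2 (i - 1, j)
  have th2 := h.θ2 (i, j)
  have ta := h.τ2 (i, j)
  -- first corner
  have f1 : √2 * A (i, j) - (θ (i - 1, j) * B (i - 1, j) + C (i, j - 1)) =
      -(C (i, j) * (-1) + τ (i, j - 1) * B (i, j) * (-1) + √2 * A (i, j)) := by
    rw [eW.1, eS.1]
    linear_combination (-(√2 * A (i, j) - C (i, j))) * th1
  have f2 : √2 * B (i, j) - (θ (i, j) * A (i + 1, j) + D (i, j - 1)) =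
      D (i, j) + τ (i, j - 1) * A (i, j) - √2 * B (i, j) := by
    rw [eS.2, eE.1, eE.2]
    linear_combination (θ (i, j) * A (i + 1, j)) * q2
  have f3 : √2 * C (i, j) - (A (i, j + 1) - θ (i - 1, j) * D (i - 1, j)) =
      A (i, j) - τ (i, j) * D (i, j) - √2 * C (i, j) := by
    rw [eW.2, eN.1, eN.2]
    linear_combination (-(√2 * (√2 * A (i, j + 1) - τ (i, j) * B (i, j + 1)) - A (i, j))) * th1 +
      A (i, j + 1) * q2 - A (i, j + 1) * ta
  have f4 : √2 * D (i, j) - (B (i, j + 1) - θ (i, j) * C (i + 1, j)) =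
      B (i, j) - τ (i, j) * C (i, j) - √2 * D (i, j) := by
    have g1 : B (i, j + 1) = √2 * D (i, j) + τ (i, j) * C (i, j) := by
      rw [eN.1, eN.2]
      linear_combination (-(B (i, j + 1))) * q2 + B (i, j + 1) * ta
    have g2 : θ (i, j) * C (i + 1, j) = B (i, j) - √2 * D (i, j) := by
      rw [eE.1, eE.2]
      linear_combination (-(θ (i, j) * C (i + 1, j))) * q2
    rw [g1, g2]; ring
  rw [f1] at l1
  rw [f2] at l2
  rw [f3, hτ] at l3
  rw [f4, hτ] at l4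
  have key := four_cycle (A (i, j)) (B (i, j)) (C (i, j)) (D (i, j)) (τ (i, j - 1)) (h.τ2 _)
  unfold sqF
  rw [l1, l2, l3, l4]
  refine key.trans (le_of_sub_nonneg ?_)
  have e : (-(C (i, j) * -1 + τ (i, j - 1) * B (i, j) * -1 + √2 * A (i, j))) ^ 2 +
      (√2 * D (i - 1, j - 1) - (B (i - 1, j) - θ (i - 1, j) * C (i, j - 1))) ^ 2 +
      ((D (i, j) + τ (i, j - 1) * A (i, j) - √2 * B (i, j)) ^ 2 +
      (√2 * C (i + 1, j - 1) - (A (i + 1, j) - θ (i, j) * D (i, j - 1))) ^ 2) +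
      ((√2 * B (i - 1, j + 1) - (θ (i - 1, j) * A (i, j + 1) + D (i - 1, j))) ^ 2 +
      (A (i, j) - -τ (i, j - 1) * D (i, j) - √2 * C (i, j)) ^ 2) +
      ((√2 * A (i + 1, j + 1) - (θ (i, j) * B (i, j + 1) + C (i + 1, j))) ^ 2 +
      (B (i, j) - -τ (i, j - 1) * C (i, j) - √2 * D (i, j)) ^ 2) -
      ((C (i, j) + τ (i, j - 1) * B (i, j) - √2 * A (i, j)) ^ 2 +
      (D (i, j) + τ (i, j - 1) * A (i, j) - √2 * B (i, j)) ^ 2 +
      (A (i, j) + τ (i, j - 1) * D (i, j) - √2 * C (i, j)) ^ 2 +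
      (B (i, j) + τ (i, j - 1) * C (i, j) - √2 * D (i, j)) ^ 2) =
      (√2 * D (i - 1, j - 1) - (B (i - 1, j) - θ (i - 1, j) * C (i, j - 1))) ^ 2 +
      (√2 * C (i + 1, j - 1) - (A (i + 1, j) - θ (i, j) * D (i, j - 1))) ^ 2 +
      (√2 * B (i - 1, j + 1) - (θ (i - 1, j) * A (i, j + 1) + D (i - 1, j))) ^ 2 +
      (√2 * A (i + 1, j + 1) - (θ (i, j) * B (i, j + 1) + C (i + 1, j))) ^ 2 := by ring
  rw [e]
  positivity

end

end Vale.Agent.P144.AL
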