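import Vale.Agent.P144.U.AL.Xj
import Vale.Agent.P144.U.AL.Tl
import Vale.Agent.P144.H436.PotDia
import Vale.Agent.P144.H170.Bnd

/-!
The kernels at the tips of the diamond.
-/

namespace Vale.Agent.P144.AL

open Finset Vale.Agent.P144 Filter Topology H436

/-- Two faces at distance at most one. -/
theorem QQ_near (Λ : Finset Site) (R : Multiset Site) {f g : Site} (h1 : |f.1 - g.1| ≤ 1)
    (h2 : |f.2 - g.2| ≤ 1) : QQ Λ (f ::ₘ R) 0 ≤ 6 * QQ Λ (g ::ₘ R) 0 := by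
  have h0 : (1:ℝ) ≤ √2 + 1 := by linarith [Real.sqrt_nonneg 2]
  have h6 := sq21
  have vert : ∀ i j k : ℤ, |j - k| ≤ 1 →
      QQ Λ ((i, j) ::ₘ R) 0 ≤ (√2 + 1) * QQ Λ ((i, k) ::ₘ R) 0 := by
    intro i j k hjk
    have hc : j = k ∨ k = j + 1 ∨ j = k + 1 := by
      rw [abs_le] at hjk; lia
    rcases hc with rfl | rfl | rfl
    · have := QQ_pos Λ ((i, j) ::ₘ R)
      nlinarith
    · exact (QQ_moveV Λ R i j).1
    · exact (QQ_moveV Λ R i k).2
  have horz : ∀ i i' j : ℤ, |i - i'| ≤ 1 →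
      QQ Λ ((i, j) ::ₘ R) 0 ≤ (√2 + 1) * QQ Λ ((i', j) ::ₘ R) 0 := by
    intro i i' j hjk
    have hc : i = i' ∨ i' = i + 1 ∨ i = i' + 1 := by
      rw [abs_le] at hjk; lia
    rcases hc with rfl | rfl | rfl
    · have := QQ_pos Λ ((i, j) ::ₘ R)
      nlinarith
    · exact (QQ_moveH Λ R i j).1
    · exact (QQ_moveH Λ R i' j).2
  have e1 := vert f.1 f.2 g.2 h2
  have e2 := horz f.1 g.1 g.2 h1
  have hp := QQ_pos Λ ((g.1, g.2) ::ₘ R)
  calc QQ Λ (f ::ₘ R) 0 ≤ (√2 + 1) * ((√2 + 1) * QQ Λ ((g.1, g.2) ::ₘ R) 0) :=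
        e1.trans (mul_le_mul_of_nonneg_left e2 (by linarith))
    _ = (√2 + 1) ^ 2 * QQ Λ ((g.1, g.2) ::ₘ R) 0 := by ring
    _ ≤ 6 * QQ Λ (g ::ₘ R) 0 := mul_le_mul_of_nonneg_right h6 hp.le

/-- The value at a corner near the source. -/
theorem near_val (Λ : Finset Site) (R : Multiset Site) {f g v : Site} (hf : v ∈ cnr f)
    (hg : v ∈ cnr g) : |QQ Λ (f ::ₘ g ::ₘ R) (v ::ₘ {v}) / QQ Λ R 0| ≤ 6 := by
  have hz := QQ_pos Λ R
  have e : (v ::ₘ ({v} : Multiset Site)) = v ::ₘ v ::ₘ 0 := rfl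
  rw [e, QQ_spin_pair, abs_div, abs_of_pos hz, abs_of_pos (QQ_pos _ _), div_le_iff₀ hz]
  have h1 := QQ_near Λ (g ::ₘ R) (f := f) (g := g) (by
    rw [mem_cnr'] at hf hg
    rw [abs_le]
    rcases hf with rfl | rfl | rfl | rfl <;> rcases hg with rfl | rfl | rfl | rfl <;>
      constructor <;> (try simp only) <;> lia) (by
    rw [mem_cnr'] at hf hg
    rw [abs_le]
    rcases hf with rfl | rfl | rfl | rfl <;> rcases hg with rfl | rfl | rfl | rfl <;>
      constructor <;> (try simp only) <;> lia)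
  rwa [QQ_dis_pair] at h1

section

variable {N : ℕ} {R : Multiset Site} {c : Cn}

/-- The spinor with the source `c`. -/
theorem sprW (hc : c.1 ∈ dia N) : Spr (dia N) (tauR (c.2 ::ₘ R)) (theA {c.1})
    (xA (dia N) (c.2 ::ₘ R) {c.1} (QQ (dia N) R 0)) (xB (dia N) (c.2 ::ₘ R) {c.1} (QQ (dia N) R 0))
    (xC (dia N) (c.2 ::ₘ R) {c.1} (QQ (dia N) R 0))
    (xD (dia N) (c.2 ::ₘ R) {c.1} (QQ (dia N) R 0)) :=
  spr_QQ (Λ := dia N) (c.2 ::ₘ R) (A := {c.1}) (by simpa using hc) _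

variable {Hs Hf : Site → ℝ} (hc : c.1 ∈ dia N) (hcn : c.1 ∈ cnr c.2)
  (hH : IsH (dia N) (xA (dia N) (c.2 ::ₘ R) {c.1} (QQ (dia N) R 0))
    (xB (dia N) (c.2 ::ₘ R) {c.1} (QQ (dia N) R 0)) (xC (dia N) (c.2 ::ₘ R) {c.1} (QQ (dia N) R 0))
    (xD (dia N) (c.2 ::ₘ R) {c.1} (QQ (dia N) R 0)) Hs Hf)

include hc hH

theorem lapW_nn {v : Site} (hv : v ≠ c.1) : 0 ≤ lap Hs v := by
  obtain ⟨i, j⟩ := v
  by_cases hΛ : ((i, j) : Site) ∈ dia N
  · exact (sprW hc).lap_nonneg hH hΛ (theA_step (by simpa using hv))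
  · exact (sprW hc).lap_out hH hΛ

include hcn

theorem lapW_lower (v : Site) : -144 ≤ lap Hs v := by
  by_cases hv : v = c.1
  · subst hv
    set i := c.1.1 with hi
    set j := c.1.2 with hj
    have ev : c.1 = (i, j) := rfl
    have hs := sprW (R := R) hc
    have v1 := near_val (dia N) R (f := (i, j)) (g := c.2) (v := c.1) (mem_cnr.2 (Or.inl ev)) hcn
    have v2 := near_val (dia N) R (f := (i - 1, j)) (g := c.2) (v := c.1)
      (mem_cnr.2 (Or.inr (Or.inl (by simp [ev])))) hcn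
    have v3 := near_val (dia N) R (f := (i, j - 1)) (g := c.2) (v := c.1)
      (mem_cnr.2 (Or.inr (Or.inr (Or.inl (by simp [ev]))))) hcn
    have a1 : xA (dia N) (c.2 ::ₘ R) {c.1} (QQ (dia N) R 0) (i, j) =
        QQ (dia N) ((i, j) ::ₘ c.2 ::ₘ R) (c.1 ::ₘ {c.1}) / QQ (dia N) R 0 := by
      unfold xA
      rw [if_pos (by rw [← ev]; exact hc), ← ev]
    have a2 : xB (dia N) (c.2 ::ₘ R) {c.1} (QQ (dia N) R 0) (i - 1, j) =
        QQ (dia N) ((i - 1, j) ::ₘ c.2 ::ₘ R) (c.1 ::ₘ {c.1}) / QQ (dia N) R 0 := by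
      unfold xB
      simp only [sub_add_cancel]
      rw [if_pos (by rw [← ev]; exact hc), ← ev]
    have a3 : xC (dia N) (c.2 ::ₘ R) {c.1} (QQ (dia N) R 0) (i, j - 1) =
        QQ (dia N) ((i, j - 1) ::ₘ c.2 ::ₘ R) (c.1 ::ₘ {c.1}) / QQ (dia N) R 0 := by
      unfold xC
      simp only [sub_add_cancel]
      rw [if_pos (by rw [← ev]; exact hc), ← ev]
    rw [← a1] at v1
    rw [← a2] at v2
    rw [← a3] at v3
    have q : ∀ x : ℝ, |x| ≤ 6 → x ^ 2 ≤ 36 := by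
      intro x hx
      rw [← sq_abs]
      nlinarith [abs_nonneg x]
    have q1 := q _ v1
    have q2 := q _ v2
    have q3 := q _ v3
    have e1 := hH.a i j
    have e2 := hH.b (i - 1) j
    have e3 := hH.c i (j - 1)
    rw [sub_add_cancel] at e2 e3
    have f1 := hs.Hf_le hH (i, j) (i + 1, j) (by simp [mem_cnr])
    have f2 := hs.Hf_le hH (i, j) (i, j + 1) (by simp [mem_cnr])
    have f3 := hs.Hf_le hH (i - 1, j) (i - 1, j) (by simp [mem_cnr])
    have f4 := hs.Hf_le hH (i, j - 1) (i, j - 1) (by simp [mem_cnr])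
    show -144 ≤ lap Hs (i, j)
    unfold lap
    simp only
    linarith
  · have := lapW_nn hc hH hv
    linarith

/-- Upper bound of `Hs` by the Green function. -/
theorem HsW_upper (x : Site) : Hs x ≤ 144 * green (dia N) c.1 x := by
  have := H170.Hs_upper (κ := Unit) (N := N) (v := fun _ => c.1) (u := Hs) (M := 144) (by norm_num)
    (fun x _ hq => lapW_nn hc hH (hq ())) (fun x => lapW_lower hc hcn hH x)
    (fun x hx => (hH.out x hx).le) x
  simpa using this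

omit hcn in
/-- The kernel at a tip. -/
theorem WfW_tip (d : Fin 4) : Wf (dia N) R [tcn N d, c] ^ 2 = Hs (tip N d) := by
  have hs := sprW (R := R) hc
  have hel : el [tcn N d, c] ^ 2 = 1 := by
    simp only [el, List.map_cons, List.map_nil, List.prod_cons, List.prod_nil, mul_one]
    rw [sq]; exact ep_sq _ _
  have ht : tip N d ∈ dia N := tip_mem N d
  have hface : ∃ u ∈ cnr (tface N d), u ∉ dia N := by
    fin_cases d
    · refine ⟨((N : ℤ) + 1, 0), by simp [mem_cnr, tface], ?_⟩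
      rw [mem_dia]; simp only; rw [abs_of_nonneg (by positivity)]; simp
    · refine ⟨(0, (N : ℤ) + 1), by simp [mem_cnr, tface], ?_⟩
      rw [mem_dia]; simp only; rw [abs_of_nonneg (a := (N:ℤ) + 1) (by positivity)]; simp
    · refine ⟨(-(N : ℤ) - 1, 0), by simp [mem_cnr, tface], ?_⟩
      rw [mem_dia]; simp only; rw [abs_of_nonpos (by lia)]; simp
    · refine ⟨(0, -(N : ℤ) - 1), by simp [mem_cnr, tface], ?_⟩
      rw [mem_dia]; simp only; rw [abs_of_nonpos (a := -(N:ℤ) - 1) (by lia)]; simp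
  obtain ⟨u, hu, hu'⟩ := hface
  have hz := hs.Hf_zero hH hu hu'
  have hval : Hs (tip N d) =
      (QQ (dia N) (tface N d ::ₘ c.2 ::ₘ R) (tip N d ::ₘ {c.1}) / QQ (dia N) R 0) ^ 2 := by
    fin_cases d
    · have e := hH.a (N : ℤ) 0
      have hz' : Hf ((N : ℤ), 0) = 0 := hz
      rw [hz'] at e
      unfold xA at e
      have ht' : (((N : ℤ), 0) : Site) ∈ dia N := ht
      rw [if_pos ht'] at e
      show Hs ((N : ℤ), 0) = _
      rw [sub_zero] at e
      exact e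
    · have e := hH.a 0 (N : ℤ)
      have hz' : Hf (0, (N : ℤ)) = 0 := hz
      rw [hz'] at e
      unfold xA at e
      have ht' : ((0, (N : ℤ)) : Site) ∈ dia N := ht
      rw [if_pos ht'] at e
      show Hs (0, (N : ℤ)) = _
      rw [sub_zero] at e
      exact e
    · have e := hH.b (-(N : ℤ) - 1) 0
      have hz' : Hf (-(N : ℤ) - 1, 0) = 0 := hz
      rw [hz'] at e
      unfold xB at e
      simp only [sub_add_cancel] at e
      have ht' : ((-(N : ℤ), 0) : Site) ∈ dia N := ht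
      rw [if_pos ht'] at e
      show Hs (-(N : ℤ), 0) = _
      rw [sub_zero] at e
      exact e
    · have e := hH.c 0 (-(N : ℤ) - 1)
      have hz' : Hf (0, -(N : ℤ) - 1) = 0 := hz
      rw [hz'] at e
      unfold xC at e
      simp only [sub_add_cancel] at e
      have ht' : ((0, -(N : ℤ)) : Site) ∈ dia N := ht
      rw [if_pos ht'] at e
      show Hs (0, -(N : ℤ)) = _
      rw [sub_zero] at e
      exact e
  rw [hval]
  unfold Wf
  have e1 : fcs [tcn N d, c] + R = tface N d ::ₘ c.2 ::ₘ R := by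
    rw [fcs_cons, fcs_cons]
    show tface N d ::ₘ c.2 ::ₘ (0 : Multiset Site) + R = _
    simp [Multiset.cons_add]
  have e2 : sps [tcn N d, c] = tip N d ::ₘ {c.1} := rfl
  rw [e1, e2, mul_div_assoc, mul_pow, hel, one_mul]

end

/-- The kernel between a corner and a tip. -/
theorem Wf_tip_green {N : ℕ} {R : Multiset Site} {c : Cn} (hc : c.1 ∈ dia N) (hcn : c.1 ∈ cnr c.2)
    (d : Fin 4) : Wf (dia N) R [tcn N d, c] ^ 2 ≤ 144 * green (dia N) c.1 (tip N d) := by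
  obtain ⟨Hs, Hf, hH⟩ := (sprW (R := R) hc).exists_H (colConvex_dia N)
  rw [WfW_tip hc hH d]
  exact HsW_upper hc hcn hH _

/-- The coordinate which is `N` at the tip `d`. -/
def crd (d : Fin 4) (x : Site) : ℤ := (![x.1, x.2, -x.1, -x.2] : Fin 4 → ℤ) d

theorem crd_le {N : ℕ} (d : Fin 4) {x : Site} (hx : x ∈ dia N) : crd d x ≤ N := by
  rw [mem_dia] at hx
  have h1 := abs_nonneg x.1
  have h2 := abs_nonneg x.2
  have h3 := le_abs_self x.1
  have h4 := le_abs_self x.2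
  have h5 := neg_abs_le x.1
  have h6 := neg_abs_le x.2
  fin_cases d <;> simp [crd] <;> lia

theorem crd_tip (N : ℕ) (d : Fin 4) : crd d (tip N d) = N := by
  fin_cases d <;> simp [crd, tip]

/-- The outer neighbour of a tip. -/
def otip (N : ℕ) : Fin 4 → Site :=
  ![((N : ℤ) + 1, 0), (0, (N : ℤ) + 1), (-(N : ℤ) - 1, 0), (0, -(N : ℤ) - 1)]

theorem otip_out (N : ℕ) (d : Fin 4) : otip N d ∉ dia N := by
  rw [mem_dia]
  fin_cases d
  · simp only [otip]
    show ¬ |(N : ℤ) + 1| + |(0:ℤ)| ≤ N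
    rw [abs_of_nonneg (by positivity)]; simp
  · show ¬ |(0:ℤ)| + |(N : ℤ) + 1| ≤ N
    rw [abs_of_nonneg (a := (N:ℤ) + 1) (by positivity)]; simp
  · show ¬ |-(N : ℤ) - 1| + |(0:ℤ)| ≤ N
    rw [abs_of_nonpos (by lia)]; simp
  · show ¬ |(0:ℤ)| + |-(N : ℤ) - 1| ≤ N
    rw [abs_of_nonpos (a := -(N:ℤ) - 1) (by lia)]; simp

theorem otip_in (N : ℕ) (d : Fin 4) : otip N d ∈ dia (N + 1) := by
  rw [mem_dia]
  fin_cases d
  · show |(N : ℤ) + 1| + |(0:ℤ)| ≤ ((N + 1 : ℕ) : ℤ)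
    rw [abs_of_nonneg (by positivity)]; simp
  · show |(0:ℤ)| + |(N : ℤ) + 1| ≤ ((N + 1 : ℕ) : ℤ)
    rw [abs_of_nonneg (a := (N:ℤ) + 1) (by positivity)]; simp
  · show |-(N : ℤ) - 1| + |(0:ℤ)| ≤ ((N + 1 : ℕ) : ℤ)
    rw [abs_of_nonpos (by lia)]; push_cast; simp; lia
  · show |(0:ℤ)| + |-(N : ℤ) - 1| ≤ ((N + 1 : ℕ) : ℤ)
    rw [abs_of_nonpos (a := -(N:ℤ) - 1) (by lia)]; push_cast; simp; lia

theorem otip_nb (N : ℕ) (d : Fin 4) : tip N d = ((otip N d).1 + 1, (otip N d).2) ∨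
    tip N d = ((otip N d).1 - 1, (otip N d).2) ∨ tip N d = ((otip N d).1, (otip N d).2 + 1) ∨
    tip N d = ((otip N d).1, (otip N d).2 - 1) := by
  fin_cases d
  · right; left; simp [otip, tip]
  · right; right; right; simp [otip, tip]
  · left; simp [otip, tip]
  · right; right; left; simp [otip, tip]

theorem crd_otip (N : ℕ) {c d : Fin 4} (hcd : c ≠ d) : crd d (otip N c) ≤ 0 := by
  fin_cases c <;> fin_cases d <;> simp [crd, otip] at hcd ⊢

/-- The weight. -/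
def wgt (N : ℕ) (d : Fin 4) (x : Site) : ℝ := (((N : ℤ) + 1 - crd d x : ℤ) : ℝ)

theorem lap_wgt (N : ℕ) (d : Fin 4) (x : Site) : H436.lap (wgt N d) x = 0 := by
  rw [← H170.lap_AL436]
  unfold lap wgt crd
  fin_cases d <;> simp <;> ring

theorem wgt_nn {N : ℕ} (d : Fin 4) {x : Site} (hx : x ∈ dia (N + 1)) : 0 ≤ wgt N d x := by
  have := crd_le d hx
  push_cast at this
  unfold wgt
  exact_mod_cast (by lia : (0:ℤ) ≤ (N : ℤ) + 1 - crd d x)

theorem nb_dia {N : ℕ} {x y : Site} (hy : y ∈ dia N) (h : |x.1 - y.1| + |x.2 - y.2| ≤ 1) :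
    x ∈ dia (N + 1) := by
  rw [mem_dia] at hy ⊢
  have h1 : |x.1| ≤ |x.1 - y.1| + |y.1| := by
    have := abs_add_le (x.1 - y.1) y.1; rwa [sub_add_cancel] at this
  have h2 : |x.2| ≤ |x.2 - y.2| + |y.2| := by
    have := abs_add_le (x.2 - y.2) y.2; rwa [sub_add_cancel] at this
  push_cast
  lia

theorem lap_dia {N : ℕ} {u : Site → ℝ} (hu : ∀ x ∉ dia N, u x = 0) {x : Site}
    (hx : x ∉ dia (N + 1)) : H436.lap u x = 0 := by
  have key : ∀ y : Site, |x.1 - y.1| + |x.2 - y.2| ≤ 1 → u y = 0 := fun y hy =>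
    hu y fun h => hx (nb_dia h hy)
  rw [← H170.lap_AL436]
  unfold lap
  rw [key _ (by simp), key _ (by simp), key _ (by simp), key _ (by simp), key _ (by simp)]
  ring

/-- The kernel between two tips. -/
theorem Wf_tip_tip {N : ℕ} {R : Multiset Site} {c d : Fin 4} (hcd : c ≠ d) :
    Wf (dia N) R [tcn N c, tcn N d] ^ 2 ≤ 144 / (N + 1) := by
  classical
  have hc : (tcn N d).1 ∈ dia N := tip_mem N d
  have hcn := tcn_cnr N d
  have hs := sprW (N := N) (R := R) hc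
  obtain ⟨Hs, Hf, hH⟩ := hs.exists_H (colConvex_dia N)
  rw [WfW_tip hc hH c]
  have h1 : Hs (tip N c) ≤ lap Hs (otip N c) := hs.Hs_le_lap hH (otip_out N c) (otip_nb N c)
  have h2 := sum_parts (u := Hs) (k := wgt N d) (Λ := dia N) (S := dia (N + 1)) hH.out
    (fun x hx => lap_dia hH.out hx)
  simp only [lap_wgt, mul_zero, sum_const_zero] at h2
  simp only [← H170.lap_AL436] at h2
  have ht : tip N d ∈ dia (N + 1) := nb_dia (tip_mem N d) (by simp)
  have hne : otip N c ≠ tip N d := fun e => otip_out N c (e ▸ tip_mem N d)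
  have h3 : wgt N d (otip N c) * lap Hs (otip N c) ≤
      ∑ w ∈ (dia (N + 1)).erase (tip N d), wgt N d w * lap Hs w := by
    refine single_le_sum (f := fun w => wgt N d w * lap Hs w) (fun w hw => ?_)
      (mem_erase.2 ⟨hne, otip_in N c⟩)
    exact mul_nonneg (wgt_nn d (mem_erase.1 hw).2) (lapW_nn hc hH (mem_erase.1 hw).1)
  rw [← add_sum_erase _ _ ht] at h2
  have h4 := lapW_lower hc hcn hH (tip N d)
  have h5 : wgt N d (tip N d) = 1 := by
    unfold wgt; rw [crd_tip]; push_cast; ring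
  rw [h5, one_mul] at h2
  have h6 : ((N : ℝ) + 1) ≤ wgt N d (otip N c) := by
    have := crd_otip N hcd
    unfold wgt
    exact_mod_cast (by lia : (N : ℤ) + 1 ≤ (N : ℤ) + 1 - crd d (otip N c))
  have h7 : 0 ≤ lap Hs (otip N c) := lapW_nn hc hH hne
  have h8 : ((N : ℝ) + 1) * lap Hs (otip N c) ≤ 144 := by
    have := mul_le_mul_of_nonneg_right h6 h7
    linarith
  rw [le_div_iff₀ (by positivity)]
  have h9 : (0:ℝ) ≤ (N : ℝ) + 1 := by positivity
  nlinarith [mul_le_mul_of_nonneg_left h1 h9]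

/-- Decay of the kernel at a tip. -/
theorem Wf_tip_decay {z : ℂ} (hz : z ∈ Dia) : ∃ C : ℝ, 0 < C ∧
    ∀ {f : ℝ → Cn} (_ : Tendsto (fun a : ℝ => H170.pt a (f a).1) (𝓝[>] 0) (𝓝 z))
      (_ : ∀ a, (f a).1 ∈ cnr (f a).2) (R : ℝ → Multiset Site) (d : Fin 4),
      ∀ᶠ a in 𝓝[>] (0:ℝ), |Wf (dia (nn a)) (R a) [tcn (nn a) d, f a]| ≤ C * a := by
  have hz' : |z.re| + |z.im| < 1 := hz
  set ε : ℝ := (1 - (|z.re| + |z.im|)) / 2 with hε
  have e0 : 0 < ε := by rw [hε]; linarith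
  have e1 : ε ≤ 1 := by
    have := abs_nonneg z.re
    have := abs_nonneg z.im
    rw [hε]; linarith
  obtain ⟨C, hC, hg⟩ := green_corner e0 e1
  refine ⟨24 * √C, by positivity, fun {f} hf hcn R d => ?_⟩
  obtain ⟨f1, f2⟩ := re_of hf
  have h1 := f1.abs.add f2.abs
  have h2 : Tendsto (fun a : ℝ => (1 - ε) * (a * ((nn a : ℝ) + 1))) (𝓝[>] 0) (𝓝 ((1 - ε) * 1)) :=
    nn_lim.const_mul _
  have h3 : |z.re| + |z.im| < (1 - ε) * 1 := by rw [hε]; linarith
  have h4 : Tendsto (fun a : ℝ => ε * (a * ((nn a : ℝ) + 1)) - a) (𝓝[>] 0) (𝓝 (ε * 1 - 0)) :=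
    (nn_lim.const_mul _).sub (tendsto_id.mono_left nhdsWithin_le_nhds)
  have h5 : Tendsto (fun a : ℝ => ε / 2 * (a * ((nn a : ℝ) + 1))) (𝓝[>] 0) (𝓝 (ε / 2 * 1)) :=
    nn_lim.const_mul _
  filter_upwards [h1.eventually_lt h2 h3, h5.eventually_lt h4 (by linarith),
    self_mem_nhdsWithin, in_ev idt nn_lim hf hz 0, nn_lim.eventually_lt tendsto_const_nhds
      (show (1:ℝ) < 2 by norm_num),
    nn_lim.eventually_const_lt (show (1/2:ℝ) < 1 by norm_num)] with a g1 g2 g3 g4 g5 g6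
  have ha : 0 < a := g3
  rw [abs_mul, abs_mul, abs_of_pos ha, ← mul_add] at g1
  have k1 : |(((f a).1.1 : ℤ) : ℝ)| + |(((f a).1.2 : ℤ) : ℝ)| ≤ (1 - ε) * ((nn a : ℝ) + 1) := by
    have : a * (|(((f a).1.1 : ℤ) : ℝ)| + |(((f a).1.2 : ℤ) : ℝ)|) ≤
        a * ((1 - ε) * ((nn a : ℝ) + 1)) := by
      calc _ ≤ (1 - ε) * (a * ((nn a : ℝ) + 1)) := g1.le
        _ = _ := by ring
    exact le_of_mul_le_mul_left this ha
  have k2 : ε / 2 * ((nn a : ℝ) + 1) ≤ ε * ((nn a : ℝ) + 1) - 1 := by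
    have : a * (ε / 2 * ((nn a : ℝ) + 1)) ≤ a * (ε * ((nn a : ℝ) + 1) - 1) := by
      calc _ = ε / 2 * (a * ((nn a : ℝ) + 1)) := by ring
        _ ≤ ε * (a * ((nn a : ℝ) + 1)) - a := g2.le
        _ = _ := by ring
    exact le_of_mul_le_mul_left this ha
  have hin : (f a).1 ∈ dia (nn a) := by
    rw [mem_dia]
    have := g4
    push_cast at this
    lia
  have htip : |(tip (nn a) d).1| + |(tip (nn a) d).2| = (nn a : ℤ) := by
    fin_cases d <;> simp [tip]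
  have htip0 : (tip (nn a) d).1 = 0 ∨ (tip (nn a) d).2 = 0 := by
    fin_cases d <;> simp [tip]
  have k3 : ε * ((nn a : ℝ) + 1) / 2 ≤ |((tip (nn a) d).1 : ℝ) - ((f a).1.1 : ℝ)| +
      |((tip (nn a) d).2 : ℝ) - ((f a).1.2 : ℝ)| := by
    have t1 : ((nn a : ℤ) : ℝ) = |((tip (nn a) d).1 : ℝ)| + |((tip (nn a) d).2 : ℝ)| := by
      rw [← htip]; push_cast; rfl
    have t2 := abs_sub_abs_le_abs_sub ((tip (nn a) d).1 : ℝ) ((f a).1.1 : ℝ)
    have t3 := abs_sub_abs_le_abs_sub ((tip (nn a) d).2 : ℝ) ((f a).1.2 : ℝ)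
    push_cast at t1
    nlinarith
  have k4 := hg (nn a) (f a).1 (tip (nn a) d) k1 htip htip0 k3
  have k5 := (Wf_tip_green (R := R a) hin (hcn a) d)
  have k6 : Wf (dia (nn a)) (R a) [tcn (nn a) d, f a] ^ 2 ≤ (24 * √C * a) ^ 2 := by
    have p1 : (0:ℝ) < (nn a : ℝ) + 1 := by positivity
    have p2 : 144 * (C / ((nn a : ℝ) + 1) ^ 2) ≤ (24 * √C * a) ^ 2 := by
      have s := Real.sq_sqrt hC.le
      have : (24 * √C * a) ^ 2 = 144 * (C * (4 * a ^ 2)) := by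
        calc _ = 144 * (√C ^ 2 * (4 * a ^ 2)) := by ring
          _ = _ := by rw [s]
      rw [this]
      refine mul_le_mul_of_nonneg_left ?_ (by norm_num)
      rw [div_le_iff₀ (by positivity)]
      have q : 1 ≤ 4 * (a * ((nn a : ℝ) + 1)) ^ 2 := by nlinarith
      calc C = C * 1 := (mul_one C).symm
        _ ≤ C * (4 * (a * ((nn a : ℝ) + 1)) ^ 2) := mul_le_mul_of_nonneg_left q hC.le
        _ = _ := by ring
    linarith
  exact abs_le_of_sq_le_sq k6 (by positivity)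

section

variable {p : Pts}

/-- The position of the upper corner of an energy. -/
theorem hi_lim (z : ℂ) (j : Fin 2) :
    Tendsto (fun a : ℝ => H170.pt a (fl a z + dir j)) (𝓝[>] 0) (𝓝 z) := by
  have h0 : Tendsto (fun a : ℝ => (a : ℂ) * (if j = 0 then 1 else Complex.I)) (𝓝[>] 0) (𝓝 0) := by
    have : Tendsto (fun a : ℝ => (a : ℂ) * (if j = 0 then 1 else Complex.I)) (𝓝[>] 0)
        (𝓝 (((0:ℝ) : ℂ) * (if j = 0 then 1 else Complex.I))) :=
      (((Complex.continuous_ofReal.tendsto 0).mono_left nhdsWithin_le_nhds)).mul_const _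
    simpa using this
  have h1 := (flt z).add h0
  rw [add_zero] at h1
  refine h1.congr fun a => ?_
  unfold H170.pt dir
  by_cases h : j = 0
  · rw [if_pos h, if_pos h]
    apply Complex.ext <;> simp <;> ring_nf
  · rw [if_neg h, if_neg h]
    apply Complex.ext <;> simp <;> ring_nf

theorem k5 (hp : Good0 p) (c : Fin 4) :
    (∀ i, Tendsto (fun a : ℝ => Kn p a (.tp c) (.src i)) (𝓝[>] 0) (𝓝 0)) ∧
    (∀ k, Tendsto (fun a : ℝ => Kn p a (.tp c) (.lo k) / √a) (𝓝[>] 0) (𝓝 0)) ∧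
    (∀ k, Tendsto (fun a : ℝ => Kn p a (.tp c) (.hi k) / √a) (𝓝[>] 0) (𝓝 0)) ∧
    ∀ d, d ≠ c → Tendsto (fun a : ℝ => Kn p a (.tp c) (.tp d)) (𝓝[>] 0) (𝓝 0) := by
  have lin : ∀ C : ℝ, Tendsto (fun a : ℝ => C * a) (𝓝[>] 0) (𝓝 0) := fun C => by
    have : Tendsto (fun a : ℝ => C * a) (𝓝[>] 0) (𝓝 (C * 0)) :=
      (tendsto_id.mono_left nhdsWithin_le_nhds).const_mul C
    simpa using this
  have sq : ∀ C : ℝ, Tendsto (fun a : ℝ => C * √a) (𝓝[>] 0) (𝓝 0) := fun C => by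
    have : Tendsto (fun a : ℝ => C * √a) (𝓝[>] 0) (𝓝 (C * √0)) :=
      ((Real.continuous_sqrt.tendsto 0).mono_left nhdsWithin_le_nhds).const_mul C
    simpa using this
  have dv : ∀ {F : ℝ → ℝ} {C : ℝ}, (∀ᶠ a in 𝓝[>] (0:ℝ), |F a| ≤ C * a) →
      Tendsto (fun a : ℝ => F a / √a) (𝓝[>] 0) (𝓝 0) := by
    intro F C h
    refine squeeze_zero_norm' ?_ (sq C)
    filter_upwards [h, self_mem_nhdsWithin] with a h1 h2
    have h2 : 0 < a := h2
    rw [Real.norm_eq_abs, abs_div, abs_of_pos (Real.sqrt_pos.2 h2), div_le_iff₀ (Real.sqrt_pos.2 h2),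
      mul_assoc, Real.mul_self_sqrt h2.le]
    exact h1
  refine ⟨fun i => ?_, fun k => ?_, fun k => ?_, fun d hd => ?_⟩
  · obtain ⟨C, hC, h⟩ := Wf_tip_decay (hp.1 i)
    exact squeeze_zero_norm' (h (f := fun a => (fl a (p.x i), fl a (p.x i))) (flt (p.x i))
      (fun a => mem_cnr.2 (Or.inl rfl)) (fun a => Rp p a) c) (lin C)
  · obtain ⟨C, hC, h⟩ := Wf_tip_decay (hp.2.1 k)
    exact dv (h (f := fun a => eLo (fl a (p.y k))) (flt (p.y k)) (fun a => eLo_cnr _)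
      (fun a => Rp p a) c)
  · obtain ⟨C, hC, h⟩ := Wf_tip_decay (hp.2.1 k)
    exact dv (h (f := fun a => eHi (fl a (p.y k)) (p.j k)) (hi_lim (p.y k) (p.j k))
      (fun a => eHi_cnr _ _) (fun a => Rp p a) c)
  · have h1 : Tendsto (fun a : ℝ => Kn p a (.tp c) (.tp d) ^ 2) (𝓝[>] 0) (𝓝 0) := by
      refine squeeze_zero' (Eventually.of_forall fun a => sq_nonneg _) ?_ (lin 288)
      filter_upwards [self_mem_nhdsWithin,
        nn_lim.eventually_const_lt (show (1/2:ℝ) < 1 by norm_num)] with a ha h2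
      have ha : 0 < a := ha
      refine (Wf_tip_tip (N := nn a) (R := Rp p a) hd.symm).trans ?_
      rw [div_le_iff₀ (by positivity)]
      nlinarith
    have h2 := (Real.continuous_sqrt.tendsto 0).comp h1
    rw [Real.sqrt_zero] at h2
    refine squeeze_zero_norm' (Eventually.of_forall fun a => ?_) h2
    rw [Real.norm_eq_abs]
    exact (Real.sqrt_sq_eq_abs _).ge

end

end Vale.Agent.P144.AL
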