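import Vale.Agent.P144.U.AL.Quot
import Vale.Agent.P144.U.AL.Tip5
import Vale.Agent.P144.H170.K12
import Vale.Agent.P144.H365.XjT2
import Vale.Agent.P144.U.Final

/-!
All limits of the critical model with the alternating boundary condition of the square.
-/

namespace Vale.Agent.P144.AL

open Finset Vale.Agent.P144 Filter Topology H436

/-- The limits of the kernels between energies. -/
structure K34 (p : Pts) : Prop where
  /-- two energies -/
  k3 : ∀ k l : Fin p.m, k ≠ l → ∀ x y : Lb p.n p.m, (x = .lo k ∨ x = .hi k) →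
    (y = .lo l ∨ y = .hi l) → ∃ c : ℂ, Tendsto (fun a : ℝ =>
      rho p a x * rho p a y * (Kn p a x y : ℂ) / a) (𝓝[>] 0) (𝓝 c)
  /-- the two corners of an energy -/
  k4 : ∀ k : Fin p.m, ∃ c : ℂ, Tendsto (fun a : ℝ =>
    rho p a (.lo k) * rho p a (.hi k) * ((Kn p a (.lo k) (.hi k) -
      sgn p a k * Wf (dia (nn a)) 0 [cnp p a (.lo k), cnp p a (.hi k)] : ℝ) : ℂ) / a)
      (𝓝[>] 0) (𝓝 c)

theorem allLim_of (h34 : ∀ p, Good0 p → K34 p) {J : ℝ} (hJ : 0 < J) (hm : Merge J) :
    AllLim Dia (crit J Dia (some altb)) := by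
  have hK : ∀ p, Good0 p → KP p := fun p hp =>
    ⟨fun i i' h => H170.k1 hp i i' h, fun k i => H170.k2 hp k i, (h34 p hp).k3, (h34 p hp).k4,
      fun c => k5 hp c⟩
  exact all_lim_of_tips hJ (tipLim hJ hK hm H365.ratioM (quotSM hJ hK))

end Vale.Agent.P144.AL
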