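import Vale.Agent.P144.U.AL.Quot
import Vale.Agent.P144.U.AL.Tip5
import Vale.Agent.P144.H170.K12
import Vale.Agent.P144.H365.XjT2
import Vale.Agent.P144.H135.Bulk17

/-!
All limits of the critical model with the alternating boundary condition of the square, from the
merging of two points.
-/

namespace Vale.Agent.P144.AL

open Finset Vale.Agent.P144 Filter Topology H436

/-- The limits of the kernels. -/
theorem kp (p : Pts) (hp : Good0 p) : KP p :=
  ⟨fun i i' h => H170.k1 hp i i' h, fun k i => H170.k2 hp k i,
    fun k l h x y hx hy => H135.k3 hp k l h x y hx hy, fun k => H135.k4 hp k, fun c => k5 hp c⟩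

theorem allLim_of_merge {J : ℝ} (hJ : 0 < J) (hm : Merge J) :
    AllLim Dia (crit J Dia (some altb)) :=
  all_lim_of_tips hJ (tipLim hJ kp hm H365.ratioM (quotSM hJ kp))

end Vale.Agent.P144.AL
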