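import Vale.Agent.P144.U.AL.Mass

/-!
The correlations of the free critical model as spinors.
-/

namespace Vale.Agent.P144.AL

open Finset Vale.Agent.P144

/-- Signs of the vertical relations: disorders `R` with cuts going up. -/
noncomputable def tauR (R : Multiset Site) (f : Site) : ℝ := cutS R (f.1, f.2 + 1)

/-- Signs of the horizontal relations: spins `A` with cuts going down. -/
noncomputable def theA (A : Multiset Site) (f : Site) : ℝ := chiM (sw f.1 f.2) A

/-- The values at the lower left corners of the faces. -/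
noncomputable def xA (Λ : Finset Site) (R A : Multiset Site) (Z : ℝ) (f : Site) : ℝ :=
  if f ∈ Λ then QQ Λ (f ::ₘ R) (f ::ₘ A) / Z else 0

/-- The values at the lower right corners. -/
noncomputable def xB (Λ : Finset Site) (R A : Multiset Site) (Z : ℝ) (f : Site) : ℝ :=
  if ((f.1 + 1, f.2) : Site) ∈ Λ then QQ Λ (f ::ₘ R) ((f.1 + 1, f.2) ::ₘ A) / Z else 0

/-- The values at the upper left corners. -/
noncomputable def xC (Λ : Finset Site) (R A : Multiset Site) (Z : ℝ) (f : Site) : ℝ :=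
  if ((f.1, f.2 + 1) : Site) ∈ Λ then QQ Λ (f ::ₘ R) ((f.1, f.2 + 1) ::ₘ A) / Z else 0

/-- The values at the upper right corners. -/
noncomputable def xD (Λ : Finset Site) (R A : Multiset Site) (Z : ℝ) (f : Site) : ℝ :=
  if ((f.1 + 1, f.2 + 1) : Site) ∈ Λ then
    QQ Λ (f ::ₘ R) ((f.1 + 1, f.2 + 1) ::ₘ A) / Z else 0

theorem QQ_spin_mid (Λ : Finset Site) (R A : Multiset Site) (u w : Site) :
    QQ Λ R (u ::ₘ w ::ₘ u ::ₘ A) = QQ Λ R (w ::ₘ A) := by
  rw [Multiset.cons_swap w u A, QQ_spin_pair]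

theorem QQ_spin_last (Λ : Finset Site) (R A : Multiset Site) (u w : Site) :
    QQ Λ R (w ::ₘ u ::ₘ u ::ₘ A) = QQ Λ R (w ::ₘ A) := by
  rw [Multiset.cons_swap w u, Multiset.cons_swap w u, QQ_spin_pair]

theorem chi_pos {S : Site → Prop} {x : Site} (h : ¬ S x) : chi S x = 1 := by
  unfold chi; rw [if_neg h]

theorem chi_neg {S : Site → Prop} {x : Site} (h : S x) : chi S x = -1 := by
  unfold chi; rw [if_pos h]

theorem spr_QQ {Λ : Finset Site} (R : Multiset Site) {A : Multiset Site} (hA : ∀ v ∈ A, v ∈ Λ)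
    (Z : ℝ) : Spr Λ (tauR R) (theA A) (xA Λ R A Z) (xB Λ R A Z) (xC Λ R A Z) (xD Λ R A Z) := by
  refine ⟨fun f => cutS_sq _ _, fun f => chiM_sq _ _, ?_, ?_, ?_, ?_, ?_, ?_, ?_, ?_⟩
  · intro i j h; unfold xA; rw [if_neg h]
  · intro i j h; unfold xB; rw [if_neg h]
  · intro i j h; unfold xC; rw [if_neg h]
  · intro i j h; unfold xD; rw [if_neg h]
  · intro i j h
    obtain ⟨h1, h2⟩ := mem_hor.1 h
    simp only at h2
    unfold xA xB xC xD tauR
    simp only
    rw [if_pos h1, if_pos h1, if_pos h2, if_pos h2]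
    rw [QQ_V h R ((i, j + 1) ::ₘ A), QQ_V h R ((i + 1, j + 1) ::ₘ A), QQ_spin_mid,
      QQ_spin_last]
    constructor <;> ring
  · intro i j h
    have hh : ¬ (((i, j + 1) : Site) ∈ Λ ∧ ((i + 1, j + 1) : Site) ∈ Λ) := fun h' =>
      h (mem_hor.2 h')
    unfold xA xB xC xD
    simp only
    rw [QQ_V0 h, QQ_V0 h]
    exact ⟨rfl, rfl⟩
  · intro i j h
    obtain ⟨h1, h2⟩ := mem_ver.1 h
    simp only at h2
    unfold xA xB xC xD theA
    simp only
    rw [if_pos h1, if_pos h1, if_pos h2, if_pos h2]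
    have a1 : ∀ v ∈ (i + 1, j) ::ₘ A, v ∈ Λ := by
      intro v hv
      rcases Multiset.mem_cons.1 hv with rfl | hv
      · exact h1
      · exact hA v hv
    have a2 : ∀ v ∈ (i + 1, j + 1) ::ₘ A, v ∈ Λ := by
      intro v hv
      rcases Multiset.mem_cons.1 hv with rfl | hv
      · exact h2
      · exact hA v hv
    rw [QQ_H h R a1, QQ_H h R a2, QQ_spin_mid, QQ_spin_last, chiM_cons, chiM_cons]
    have c1 : chi (sw i j) (i + 1, j) = 1 := chi_pos (by unfold sw; simp)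
    have c2 : chi (sw i j) (i + 1, j + 1) = -1 := chi_neg (by unfold sw; simp)
    rw [c1, c2]
    constructor <;> ring
  · intro i j h
    unfold xA xB xC xD theA
    simp only
    constructor
    · by_cases h1 : ((i + 1, j) : Site) ∈ Λ
      · rw [if_pos h1, if_pos h1]
        have a1 : ∀ v ∈ (i + 1, j) ::ₘ A, v ∈ Λ := by
          intro v hv
          rcases Multiset.mem_cons.1 hv with rfl | hv
          · exact h1
          · exact hA v hv
        have c1 : chi (sw i j) (i + 1, j) = 1 := chi_pos (by unfold sw; simp)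
        rw [QQ_H0 h R a1, chiM_cons, c1]
        ring
      · rw [if_neg h1, if_neg h1]; ring
    · by_cases h2 : ((i + 1, j + 1) : Site) ∈ Λ
      · rw [if_pos h2, if_pos h2]
        have a2 : ∀ v ∈ (i + 1, j + 1) ::ₘ A, v ∈ Λ := by
          intro v hv
          rcases Multiset.mem_cons.1 hv with rfl | hv
          · exact h2
          · exact hA v hv
        have c2 : chi (sw i j) (i + 1, j + 1) = -1 := chi_neg (by unfold sw; simp)
        rw [QQ_H0 h R a2, chiM_cons, c2]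
        ring
      · rw [if_neg h2, if_neg h2]; ring

/-! ### positivity and moving a disorder -/

theorem WW_pos {Λ : Finset Site} {a b : Site → ℝ} (ha : ∀ x, |a x| ≤ 1) (hb : ∀ x, |b x| ≤ 1)
    (T : Finset Site) : 0 < WW Λ a b (tv T) := by
  unfold WW
  have h : ∀ (c : ℝ) (x y : Site), |c| ≤ 1 → 0 < 1 + c * tc * (tv T x * tv T y) := by
    intro c x y hc
    have h1 := tc_pos
    have h2 := tc_lt_one
    have h3 := abs_le.1 hc
    rcases prod_pm (tv_eq T x) (tv_eq T y) with h | h <;> rw [h] <;> nlinarith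
  exact mul_pos (prod_pos fun x _ => h _ _ _ (ha _)) (prod_pos fun x _ => h _ _ _ (hb _))

theorem QQ_pos (Λ : Finset Site) (R : Multiset Site) : 0 < QQ Λ R 0 := by
  unfold QQ NG
  refine sum_pos (fun T _ => ?_) ⟨∅, by simp⟩
  rw [spn_zero, one_mul]
  exact WW_pos (cutS_abs R) (by simp) T

theorem QQ_abs_le (Λ : Finset Site) (R A : Multiset Site) : |QQ Λ R A| ≤ QQ Λ R 0 := by
  unfold QQ NG
  refine (abs_sum_le_sum_abs _ _).trans (sum_le_sum fun T _ => ?_)
  rw [spn_zero, one_mul, abs_mul, abs_of_pos (WW_pos (cutS_abs R) (by simp) T)]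
  have : |spn A T| = 1 := by
    rcases spn_pm A T with h | h <;> rw [h] <;> simp
  rw [this, one_mul]

theorem QQ_moveV (Λ : Finset Site) (R : Multiset Site) (i j : ℤ) :
    QQ Λ ((i, j) ::ₘ R) 0 ≤ (√2 + 1) * QQ Λ ((i, j + 1) ::ₘ R) 0 ∧
    QQ Λ ((i, j + 1) ::ₘ R) 0 ≤ (√2 + 1) * QQ Λ ((i, j) ::ₘ R) 0 := by
  have hp := QQ_pos Λ ((i, j + 1) ::ₘ R)
  have h0 : (0:ℝ) ≤ √2 := by positivity
  have h2 := sqrt2_sq
  by_cases h : ((i, j + 1) : Site) ∈ hor Λ
  · have e := QQ_V h R 0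
    have hb := QQ_abs_le Λ ((i, j + 1) ::ₘ R) ((i, j + 1) ::ₘ (i + 1, j + 1) ::ₘ 0)
    have hc : |cutS R (i, j + 1) * QQ Λ ((i, j + 1) ::ₘ R) ((i, j + 1) ::ₘ (i + 1, j + 1) ::ₘ 0)| ≤
        QQ Λ ((i, j + 1) ::ₘ R) 0 := by
      rw [abs_mul]
      have := cutS_abs R (i, j + 1)
      have h3 := abs_nonneg (QQ Λ ((i, j + 1) ::ₘ R) ((i, j + 1) ::ₘ (i + 1, j + 1) ::ₘ 0))
      nlinarith
    have h5 := abs_le.1 hc
    constructor
    · rw [e]; linarith
    · rw [e]
      have : (√2 + 1) * (√2 * QQ Λ ((i, j + 1) ::ₘ R) 0 - cutS R (i, j + 1) *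
          QQ Λ ((i, j + 1) ::ₘ R) ((i, j + 1) ::ₘ (i + 1, j + 1) ::ₘ 0)) ≥
          (√2 + 1) * (√2 * QQ Λ ((i, j + 1) ::ₘ R) 0 - QQ Λ ((i, j + 1) ::ₘ R) 0) :=
        mul_le_mul_of_nonneg_left (by linarith) (by linarith)
      refine le_trans (le_of_eq ?_) this
      linear_combination (-(QQ Λ ((i, j + 1) ::ₘ R) 0)) * h2
  · rw [QQ_V0 h]
    constructor <;> nlinarith

theorem QQ_moveH (Λ : Finset Site) (R : Multiset Site) (i j : ℤ) :
    QQ Λ ((i, j) ::ₘ R) 0 ≤ (√2 + 1) * QQ Λ ((i + 1, j) ::ₘ R) 0 ∧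
    QQ Λ ((i + 1, j) ::ₘ R) 0 ≤ (√2 + 1) * QQ Λ ((i, j) ::ₘ R) 0 := by
  have hp := QQ_pos Λ ((i + 1, j) ::ₘ R)
  have h0 : (0:ℝ) ≤ √2 := by positivity
  have h2 := sqrt2_sq
  by_cases h : ((i + 1, j) : Site) ∈ ver Λ
  · have e := QQ_H h R (A := 0) (by simp)
    rw [chiM_zero, one_mul] at e
    have h5 := abs_le.1 (QQ_abs_le Λ ((i + 1, j) ::ₘ R) ((i + 1, j) ::ₘ (i + 1, j + 1) ::ₘ 0))
    constructor
    · rw [e]; linarith
    · rw [e]
      have : (√2 + 1) * (√2 * QQ Λ ((i + 1, j) ::ₘ R) 0 -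
          QQ Λ ((i + 1, j) ::ₘ R) ((i + 1, j) ::ₘ (i + 1, j + 1) ::ₘ 0)) ≥
          (√2 + 1) * (√2 * QQ Λ ((i + 1, j) ::ₘ R) 0 - QQ Λ ((i + 1, j) ::ₘ R) 0) :=
        mul_le_mul_of_nonneg_left (by linarith) (by linarith)
      refine le_trans (le_of_eq ?_) this
      linear_combination (-(QQ Λ ((i + 1, j) ::ₘ R) 0)) * h2
  · rw [QQ_H0 h R (A := 0) (by simp), chiM_zero, one_mul]
    constructor <;> nlinarith

/-! ### where the signs change -/

theorem tauR_step {R : Multiset Site} {i j : ℤ} (h : ((i, j) : Site) ∉ R) :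
    tauR R (i, j) = tauR R (i, j - 1) := by
  unfold tauR cutS
  simp only [sub_add_cancel]
  congr 1
  refine Multiset.map_congr rfl fun r hr => ?_
  have hne : r ≠ (i, j) := fun e => h (e ▸ hr)
  have hne' : ¬ (r.1 = i ∧ r.2 = j) := fun h2 => hne (Prod.ext h2.1 h2.2)
  unfold cut1
  simp only
  split_ifs <;> first | (exfalso; lia) | rfl

theorem tauR_cons (r : Site) (R : Multiset Site) (f : Site) :
    tauR (r ::ₘ R) f = cut1 r (f.1, f.2 + 1) * tauR R f := by
  unfold tauR; rw [cutS_cons]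

theorem tauR_branch {R : Multiset Site} (hR : R.Nodup) {i j : ℤ} (h : ((i, j) : Site) ∈ R) :
    tauR R (i, j) = -tauR R (i, j - 1) := by
  obtain ⟨R', rfl⟩ := Multiset.exists_cons_of_mem h
  have h' : ((i, j) : Site) ∉ R' := (Multiset.nodup_cons.1 hR).1
  rw [tauR_cons, tauR_cons, tauR_step h']
  have c1 : cut1 (i, j) (i, j + 1) = -1 := by unfold cut1; rw [if_pos (by simp)]
  have c2 : cut1 (i, j) (i, j - 1 + 1) = 1 := by unfold cut1; rw [if_neg (by simp)]
  rw [c1, c2]; ring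

theorem theA_step {A : Multiset Site} {i j : ℤ} (h : ((i, j) : Site) ∉ A) :
    theA A (i - 1, j) = theA A (i - 1, j - 1) := by
  unfold theA chiM
  congr 1
  refine Multiset.map_congr rfl fun r hr => ?_
  have hne : r ≠ (i, j) := fun e => h (e ▸ hr)
  have hne' : ¬ (r.1 = i ∧ r.2 = j) := fun h2 => hne (Prod.ext h2.1 h2.2)
  unfold chi sw
  simp only
  split_ifs <;> first | (exfalso; lia) | rfl

end Vale.Agent.P144.AL
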