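import Vale.Agent.P144.U.AL.KP

/-!
Limits of the signs together with the square roots.
-/

namespace Vale.Agent.P144.AL

open Finset Vale.Agent.P144 Filter Topology

section

variable {ι : Type*} {l : Filter ι} {a : ι → ℝ} (ha : Tendsto a l (𝓝[>] 0))

include ha

theorem ev_le {f g : ι → ℤ} {s t : ℝ} (hf : Tendsto (fun k => a k * (f k : ℝ)) l (𝓝 s))
    (hg : Tendsto (fun k => a k * (g k : ℝ)) l (𝓝 t)) (h : t < s) (m : ℤ) :
    ∀ᶠ k in l, g k + m ≤ f k := by
  have h0 : Tendsto (fun k => a k * (m : ℝ)) l (𝓝 (0 * m)) :=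
    (ha.mono_right nhdsWithin_le_nhds).mul_const _
  rw [zero_mul] at h0
  have h1 : Tendsto (fun k => a k * (g k : ℝ) + a k * m) l (𝓝 (t + 0)) := hg.add h0
  rw [add_zero] at h1
  filter_upwards [h1.eventually_lt hf h, ha.eventually self_mem_nhdsWithin] with k h2 h3
  have h3 : 0 < a k := h3
  have h4 : ((g k + m : ℤ) : ℝ) < f k := by
    push_cast
    rw [← mul_add] at h2
    exact lt_of_mul_lt_mul_left h2 h3.le
  exact (Int.cast_lt.1 h4).le

omit ha in
theorem re_of {f : ι → Site} {y : ℂ} (hf : Tendsto (fun k => H170.pt (a k) (f k)) l (𝓝 y)) :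
    Tendsto (fun k => a k * ((f k).1 : ℝ)) l (𝓝 y.re) ∧
    Tendsto (fun k => a k * ((f k).2 : ℝ)) l (𝓝 y.im) :=
  ⟨(Complex.continuous_re.tendsto _).comp hf, (Complex.continuous_im.tendsto _).comp hf⟩

/-- The data of a corner: the horizontal position of the spin relative to the face. -/
def Typ (x f : Site) (s : ℝ) : Prop := (x.1 = f.1 ∧ s = 1 / 4) ∨ (x.1 = f.1 + 1 ∧ s = 3 / 4)

variable {f u x : ι → Site} {y w : ℂ} (hf : Tendsto (fun k => H170.pt (a k) (f k)) l (𝓝 y))
  (hu : Tendsto (fun k => H170.pt (a k) (u k)) l (𝓝 w)) {s : ℝ} (hx : ∀ k, Typ (x k) (f k) s)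

include hf hu

theorem ep_up (hx : ∀ k, Typ (x k) (f k) s) (h : (y - w).re ≠ 0 ∨ 0 < (y - w).im) :
    ∀ᶠ k in l, ep (x k, f k) (u k, u k) = -H170.sg ((f k).1 + s - (u k).1 - 1 / 2) := by
  obtain ⟨f1, f2⟩ := re_of hf
  obtain ⟨u1, u2⟩ := re_of hu
  have e1 : ∀ {m n : ℤ}, m ≤ n → (m : ℝ) ≤ n := fun h => by exact_mod_cast h
  have key : (∀ᶠ k in l, (u k).1 + 2 ≤ (f k).1) ∨ (∀ᶠ k in l, (f k).1 + 2 ≤ (u k).1) ∨
      ∀ᶠ k in l, (u k).2 + 2 ≤ (f k).2 := by
    rcases h with h | h
    · rcases lt_or_gt_of_ne h with h | h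
      · right; left
        exact ev_le ha u1 f1 (by simpa using h) 2
      · left
        exact ev_le ha f1 u1 (by simpa using h) 2
    · right; right
      exact ev_le ha f2 u2 (by simpa using h) 2
  rcases key with h | h | h
  · filter_upwards [h] with k h
    have h' := e1 h
    push_cast at h'
    rw [H170.sg_pos (by rcases hx k with hx | hx <;> rw [hx.2] <;> linarith)]
    unfold ep
    rcases hx k with hx | hx <;> rw [if_pos]
    all_goals simp only; rw [hx.1]; omega
  · filter_upwards [h] with k h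
    have h' := e1 h
    push_cast at h'
    rw [H170.sg_neg (by rcases hx k with hx | hx <;> rw [hx.2] <;> linarith)]
    unfold ep
    rcases hx k with hx | hx <;> rw [if_neg]
    all_goals first | (simp only; rw [hx.1]; omega) | norm_num
  · filter_upwards [h] with k h
    unfold ep
    rcases hx k with hx | hx
    · rcases lt_or_ge (u k).1 (f k).1 with h1 | h1
      · have h' : ((u k).1 : ℝ) + 1 ≤ (f k).1 := by exact_mod_cast h1
        rw [H170.sg_pos (by rw [hx.2]; linarith), if_pos]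
        simp only; rw [hx.1]; omega
      · have h' := e1 h1
        rw [H170.sg_neg (by rw [hx.2]; linarith), if_neg]
        · norm_num
        · simp only; rw [hx.1]; omega
    · rcases lt_or_ge (f k).1 (u k).1 with h1 | h1
      · have h' : ((f k).1 : ℝ) + 1 ≤ (u k).1 := by exact_mod_cast h1
        rw [H170.sg_neg (by rw [hx.2]; linarith), if_neg]
        · norm_num
        · simp only; rw [hx.1]; omega
      · have h' := e1 h1
        rw [H170.sg_pos (by rw [hx.2]; linarith), if_pos]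
        simp only; rw [hx.1]; omega

theorem ep_dn (hx : ∀ k, Typ (x k) (f k) s) (h : (y - w).re ≠ 0 ∨ (y - w).im < 0) :
    ∀ᶠ k in l, ep (x k, f k) (u k, u k) = -H170.sg ((f k).1 + s - (u k).1) := by
  obtain ⟨f1, f2⟩ := re_of hf
  obtain ⟨u1, u2⟩ := re_of hu
  have e1 : ∀ {m n : ℤ}, m ≤ n → (m : ℝ) ≤ n := fun h => by exact_mod_cast h
  have key : (∀ᶠ k in l, (u k).1 + 2 ≤ (f k).1) ∨ (∀ᶠ k in l, (f k).1 + 2 ≤ (u k).1) ∨
      ∀ᶠ k in l, (f k).2 + 2 ≤ (u k).2 := by
    rcases h with h | h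
    · rcases lt_or_gt_of_ne h with h | h
      · right; left
        exact ev_le ha u1 f1 (by simpa using h) 2
      · left
        exact ev_le ha f1 u1 (by simpa using h) 2
    · right; right
      exact ev_le ha u2 f2 (by simpa using h) 2
  rcases key with h | h | h
  · filter_upwards [h] with k h
    have h' := e1 h
    push_cast at h'
    rw [H170.sg_pos (by rcases hx k with hx | hx <;> rw [hx.2] <;> linarith)]
    unfold ep
    rcases hx k with hx | hx <;> rw [if_pos]
    all_goals simp only; rw [hx.1]; omega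
  · filter_upwards [h] with k h
    have h' := e1 h
    push_cast at h'
    rw [H170.sg_neg (by rcases hx k with hx | hx <;> rw [hx.2] <;> linarith)]
    unfold ep
    rcases hx k with hx | hx <;> rw [if_neg]
    all_goals first | (simp only; rw [hx.1]; omega) | norm_num
  · filter_upwards [h] with k h
    unfold ep
    rcases lt_or_ge (f k).1 (u k).1 with h1 | h1
    · have h' : ((f k).1 : ℝ) + 1 ≤ (u k).1 := by exact_mod_cast h1
      rw [H170.sg_neg (by rcases hx k with hx | hx <;> rw [hx.2] <;> linarith), if_neg]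
      · norm_num
      · simp only; omega
    · have h' := e1 h1
      rw [H170.sg_pos (by rcases hx k with hx | hx <;> rw [hx.2] <;> linarith), if_pos]
      simp only; omega

omit hf hu in
theorem pos_lim (hf : Tendsto (fun k => H170.pt (a k) (f k)) l (𝓝 y)) (s t : ℝ) :
    Tendsto (fun k => H170.pos (a k) (f k) s t) l (𝓝 y) := by
  have h1 : Tendsto (fun k => ((a k : ℝ) : ℂ)) l (𝓝 0) := by
    have := (Complex.continuous_ofReal.tendsto 0).comp (ha.mono_right nhdsWithin_le_nhds)
    rw [Complex.ofReal_zero] at this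
    exact this
  have h2 := hf.add (h1.mul_const (⟨s, t⟩ : ℂ))
  rw [zero_mul, add_zero] at h2
  exact h2.congr fun k => (H170.pos_eq _ _ _ _).symm

theorem up_eq (hx : ∀ k, Typ (x k) (f k) s) (t : ℝ) (h : (y - w).re ≠ 0 ∨ 0 < (y - w).im) :
    ∀ᶠ k in l, (ep (x k, f k) (u k, u k) : ℂ) *
      H170.rtu (H170.pos (a k) (f k) s t - H170.cF (a k) (u k)) =
      -H170.rtd (H170.pos (a k) (f k) s t - H170.cF (a k) (u k)) := by
  filter_upwards [ep_up ha hf hu hx h, ha.eventually self_mem_nhdsWithin] with k h1 h0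
  have h0 : 0 < a k := h0
  have hs : s = 1 / 4 ∨ s = 3 / 4 := by rcases hx k with h | h <;> simp [h.2]
  have e : (H170.pos (a k) (f k) s t - H170.cF (a k) (u k)).re =
      a k * (((f k).1:ℝ) + s - (u k).1 - 1 / 2) := by
    simp only [H170.pos, H170.cF, Complex.sub_re]; ring
  have hne : (H170.pos (a k) (f k) s t - H170.cF (a k) (u k)).re ≠ 0 := by
    rw [e]; exact mul_ne_zero h0.ne' (H170.quarter_ne _ _ hs).1
  rw [H170.rtd_eq_sg hne, e, H170.sg_mul_pos h0, h1]
  push_cast; ring

theorem dn_eq (hx : ∀ k, Typ (x k) (f k) s) (t : ℝ) (h : (y - w).re ≠ 0 ∨ (y - w).im < 0) :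
    ∀ᶠ k in l, (ep (x k, f k) (u k, u k) : ℂ) *
      H170.rtd (H170.pos (a k) (f k) s t - H170.pt (a k) (u k)) =
      -H170.rtu (H170.pos (a k) (f k) s t - H170.pt (a k) (u k)) := by
  filter_upwards [ep_dn ha hf hu hx h, ha.eventually self_mem_nhdsWithin] with k h1 h0
  have h0 : 0 < a k := h0
  have hs : s = 1 / 4 ∨ s = 3 / 4 := by rcases hx k with h | h <;> simp [h.2]
  have e : (H170.pos (a k) (f k) s t - H170.pt (a k) (u k)).re =
      a k * (((f k).1:ℝ) + s - (u k).1) := by
    simp only [H170.pos, H170.pt, Complex.sub_re]; ring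
  have hne : (H170.pos (a k) (f k) s t - H170.pt (a k) (u k)).re ≠ 0 := by
    rw [e]; exact mul_ne_zero h0.ne' (H170.quarter_ne _ _ hs).2
  rw [H170.rtu_eq_sg hne, e, H170.sg_mul_pos h0, h1]
  push_cast; ring

omit ha hf hu in
theorem ep_sqC (c c' : Cn) : (ep c c' : ℂ) * ep c c' = 1 := by
  rw [← Complex.ofReal_mul, ep_sq]; simp

omit ha hf hu in
theorem ne_cases {z : ℂ} (h : z ≠ 0) :
    (z.re ≠ 0 ∨ 0 < z.im) ∨ (z.re ≠ 0 ∨ z.im < 0) := by
  by_cases h1 : z.re = 0
  · have h2 : z.im ≠ 0 := fun h2 => h (Complex.ext h1 h2)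
    rcases lt_or_gt_of_ne h2 with h3 | h3
    · exact Or.inr (Or.inr h3)
    · exact Or.inl (Or.inr h3)
  · exact Or.inl (Or.inl h1)

/-- Turning the cut of a source. -/
theorem turn (hx : ∀ k, Typ (x k) (f k) s) (t : ℝ) (h : y ≠ w) :
    Tendsto (fun k => (ep (x k, f k) (u k, u k) : ℂ) *
      H170.rtu (H170.pos (a k) (f k) s t - H170.cF (a k) (u k)) /
      H170.rtd (H170.pos (a k) (f k) s t - H170.pt (a k) (u k))) l (𝓝 (-1)) := by
  have hne := sub_ne_zero.2 h
  have p1 := (pos_lim ha hf s t).sub (H170.cF_lim ha hu)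
  have p2 := (pos_lim ha hf s t).sub hu
  rcases ne_cases hne with h1 | h1
  · have c1 := (H170.rtd_diff h1).continuousAt.tendsto.comp p1
    have c2 := (H170.rtd_diff h1).continuousAt.tendsto.comp p2
    have c3 := c1.neg.div c2 (H170.rtd_ne hne)
    rw [neg_div, div_self (H170.rtd_ne hne)] at c3
    refine c3.congr' ?_
    filter_upwards [up_eq ha hf hu hx t h1] with k h2
    rw [h2]; rfl
  · have c1 := (H170.rtu_diff h1).continuousAt.tendsto.comp p1
    have c2 := (H170.rtu_diff h1).continuousAt.tendsto.comp p2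
    have c3 := c1.div c2.neg (neg_ne_zero.2 (H170.rtu_ne hne))
    rw [div_neg, div_self (H170.rtu_ne hne)] at c3
    refine c3.congr' ?_
    filter_upwards [dn_eq ha hf hu hx t h1] with k h2
    have h3 := ep_sqC (x k, f k) (u k, u k)
    simp only [Function.comp_apply, Pi.div_apply]
    rw [← h2]
    have h4 : (ep (x k, f k) (u k, u k) : ℂ) ≠ 0 := fun h => by rw [h] at h3; simp at h3
    field_simp
    rw [pow_two, h3, mul_one]

/-- The two corners of an energy and a source. -/
theorem two_cor {x' : ι → Site} {s' : ℝ} (hx : ∀ k, Typ (x k) (f k) s)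
    (hx' : ∀ k, Typ (x' k) (f k) s') (t t' : ℝ) (h : y ≠ w) :
    Tendsto (fun k => ((ep (x k, f k) (u k, u k) * ep (x' k, f k) (u k, u k) : ℝ) : ℂ) *
      (H170.rtu (H170.pos (a k) (f k) s t - H170.cF (a k) (u k)) *
      H170.rtu (H170.pos (a k) (f k) s' t' - H170.cF (a k) (u k)))) l (𝓝 (y - w)) := by
  have hne := sub_ne_zero.2 h
  have p1 := (pos_lim ha hf s t).sub (H170.cF_lim ha hu)
  have p2 := (pos_lim ha hf s' t').sub (H170.cF_lim ha hu)
  rcases ne_cases hne with h1 | h1
  · have c1 := (H170.rtd_diff h1).continuousAt.tendsto.comp p1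
    have c2 := (H170.rtd_diff h1).continuousAt.tendsto.comp p2
    have c3 := c1.mul c2
    rw [H170.rtd_mul_self] at c3
    refine c3.congr' ?_
    filter_upwards [up_eq ha hf hu hx t h1, up_eq ha hf hu hx' t' h1] with k h2 h3
    simp only [Function.comp_apply]
    push_cast
    linear_combination (-((ep (x' k, f k) (u k, u k) : ℂ) *
      H170.rtu (H170.pos (a k) (f k) s' t' - H170.cF (a k) (u k)))) * h2 +
      H170.rtd (H170.pos (a k) (f k) s t - H170.cF (a k) (u k)) * h3
  · have c1 := (H170.rtu_diff h1).continuousAt.tendsto.comp p1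
    have c2 := (H170.rtu_diff h1).continuousAt.tendsto.comp p2
    have c3 := c1.mul c2
    rw [H170.rtu_mul_self] at c3
    refine c3.congr' ?_
    filter_upwards [ep_dn ha hf hu hx h1, ep_dn ha hf hu hx' h1] with k h2 h3
    have e : H170.sg (((f k).1:ℝ) + s - (u k).1) = H170.sg (((f k).1:ℝ) + s' - (u k).1) := by
      have hs : s = 1 / 4 ∨ s = 3 / 4 := by rcases hx k with h | h <;> simp [h.2]
      have hs' : s' = 1 / 4 ∨ s' = 3 / 4 := by rcases hx' k with h | h <;> simp [h.2]
      rcases lt_or_ge (f k).1 (u k).1 with h1 | h1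
      · have h' : ((f k).1 : ℝ) + 1 ≤ (u k).1 := by exact_mod_cast h1
        rw [H170.sg_neg (by rcases hs with hs | hs <;> rw [hs] <;> linarith),
          H170.sg_neg (by rcases hs' with hs | hs <;> rw [hs] <;> linarith)]
      · have h' : ((u k).1 : ℝ) ≤ (f k).1 := by exact_mod_cast h1
        rw [H170.sg_pos (by rcases hs with hs | hs <;> rw [hs] <;> linarith),
          H170.sg_pos (by rcases hs' with hs | hs <;> rw [hs] <;> linarith)]
    rw [h2, h3, e, neg_mul_neg, H170.sg_sq]
    simp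

/-- Two sources, first case. -/
theorem two_src_up (h : (y - w).re ≠ 0 ∨ 0 < (y - w).im) :
    Tendsto (fun k => (ep (f k, f k) (u k, u k) : ℂ) /
      (H170.rtu (H170.pos (a k) (f k) (1 / 4) (1 / 4) - H170.cF (a k) (u k)) *
      H170.rtu (H170.pos (a k) (u k) (1 / 4) (1 / 4) - H170.cF (a k) (f k)))) l
      (𝓝 (1 / (Complex.I * (y - w)))) := by
  have hne : y - w ≠ 0 := by
    rintro h0
    rw [h0] at h
    simp at h
  have h' : (w - y).re ≠ 0 ∨ (w - y).im < 0 := by
    rcases h with h | h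
    · left
      intro h2
      apply h
      rw [Complex.sub_re] at h2 ⊢; linarith
    · right
      rw [Complex.sub_im] at h ⊢; linarith
  have p1 := (pos_lim ha hf (1 / 4) (1 / 4)).sub (H170.cF_lim ha hu)
  have p2 := (pos_lim ha hu (1 / 4) (1 / 4)).sub (H170.cF_lim ha hf)
  have c1 := (H170.rtd_diff h).continuousAt.tendsto.comp p1
  have c2 := (H170.rtu_diff h').continuousAt.tendsto.comp p2
  have e : H170.rtu (w - y) = -Complex.I * H170.rtd (y - w) := by
    rw [← H170.rtu_neg, neg_sub]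
  have c3 := (c1.neg.mul c2).inv₀ (by
    rw [e]
    refine mul_ne_zero (neg_ne_zero.2 (H170.rtd_ne hne)) (mul_ne_zero (by simp) (H170.rtd_ne hne)))
  have e2 : (-H170.rtd (y - w) * H170.rtu (w - y))⁻¹ = 1 / (Complex.I * (y - w)) := by
    rw [e, one_div]
    congr 1
    linear_combination Complex.I * H170.rtd_mul_self (y - w)
  rw [e2] at c3
  refine c3.congr' ?_
  filter_upwards [up_eq ha hf hu (x := f) (s := 1 / 4) (fun k => Or.inl ⟨rfl, rfl⟩) (1 / 4) h]
    with k h2
  have h3 := ep_sqC (f k, f k) (u k, u k)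
  have h4 : (ep (f k, f k) (u k, u k) : ℂ) ≠ 0 := fun h => by rw [h] at h3; simp at h3
  simp only [Function.comp_apply]
  rw [← h2, mul_assoc, mul_inv, div_eq_mul_inv]
  congr 1
  exact inv_eq_of_mul_eq_one_right h3

/-- Two sources. -/
theorem two_src (h : y ≠ w) :
    Tendsto (fun k => (ep (f k, f k) (u k, u k) : ℂ) /
      (H170.rtu (H170.pos (a k) (f k) (1 / 4) (1 / 4) - H170.cF (a k) (u k)) *
      H170.rtu (H170.pos (a k) (u k) (1 / 4) (1 / 4) - H170.cF (a k) (f k)))) l
      (𝓝 (1 / (Complex.I * (y - w)))) := by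
  rcases ne_cases (sub_ne_zero.2 h) with h1 | h1
  · exact two_src_up ha hf hu h1
  · have h' : (w - y).re ≠ 0 ∨ 0 < (w - y).im := by
      rcases h1 with h | h
      · left
        intro h2
        apply h
        rw [Complex.sub_re] at h2 ⊢; linarith
      · right
        rw [Complex.sub_im] at h ⊢; linarith
    have c := (two_src_up ha hu hf h').neg
    have e : -(1 / (Complex.I * (w - y))) = 1 / (Complex.I * (y - w)) := by
      rw [← div_neg]; congr 1; ring
    rw [e] at c
    refine c.congr' ?_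
    have hd : ∀ᶠ k in l, f k ≠ u k := by
      have h1 := (hf.sub hu).eventually_ne (sub_ne_zero.2 h)
      filter_upwards [h1] with k h2 h3
      apply h2
      rw [h3, sub_self]
    filter_upwards [hd] with k h2
    have h3 := ep_anti (c := (f k, f k)) (c' := (u k, u k)) (mem_cnr.2 (Or.inl rfl))
      (mem_cnr.2 (Or.inl rfl)) fun h => h2 (congrArg Prod.fst h)
    have h4 := ep_sq (u k, u k) (f k, f k)
    have h5 : ep (f k, f k) (u k, u k) = -ep (u k, u k) (f k, f k) := by
      linear_combination (-ep (f k, f k) (u k, u k)) * h4 + ep (u k, u k) (f k, f k) * h3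
    rw [h5]
    push_cast
    rw [mul_comm (H170.rtu (H170.pos (a k) (u k) (1 / 4) (1 / 4) - H170.cF (a k) (f k))), neg_div]

end

end Vale.Agent.P144.AL
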