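import Vale.Agent.P144.U.AL.Wick2

/-!
Pfaffians of lists: scaling, limits, subtracting a constant from the entry of a pair.
-/

namespace Vale.Agent.P144.AL

open Finset Vale.Agent.P144 Filter Topology

section

variable {α 𝕜 : Type*} [CommRing 𝕜]

/-- The Pfaffian of the kernel `K` on a list. -/
def Pf (K : α → α → 𝕜) : List α → 𝕜
  | [] => 1
  | c :: l => ∑ j : Fin l.length, (-1) ^ (j : ℕ) * K c l[j] * Pf K (l.eraseIdx j)
termination_by l => l.length
decreasing_by
  have := j.2
  simp only [List.length_cons, List.length_eraseIdx]
  split_ifs
  all_goals omega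

/-- Alternating sum over the ways of taking one element out of a list. -/
def sumE {M : Type*} [AddCommGroup M] (g : α → List α → M) : List α → M
  | [] => 0
  | x :: s => g x s - sumE (fun y t => g y (x :: t)) s

theorem sumE_eq (g : α → List α → 𝕜) (l : List α) :
    sumE g l = ∑ j : Fin l.length, (-1) ^ (j : ℕ) * g l[j] (l.eraseIdx j) := by
  induction l generalizing g with
  | nil => simp [sumE]
  | cons x s ih =>
    rw [sumE, ih]
    have h := Fin.sum_univ_succ (n := s.length)
      (fun j : Fin (s.length + 1) => (-1 : 𝕜) ^ (j : ℕ) * g (x :: s)[j] ((x :: s).eraseIdx j))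
    refine Eq.trans ?_ h.symm
    rw [sub_eq_add_neg, ← sum_neg_distrib]
    refine congrArg₂ (· + ·) ?_ ?_
    · simp
    · refine sum_congr rfl fun j _ => ?_
      simp [pow_succ]

theorem Pf_cons (K : α → α → 𝕜) (c : α) (l : List α) :
    Pf K (c :: l) = sumE (fun y t => K c y * Pf K t) l := by
  rw [Pf, sumE_eq]
  exact sum_congr rfl fun j _ => by ring

theorem sumE_congr {M : Type*} [AddCommGroup M] {g g' : α → List α → M} (l : List α)
    (h : ∀ (j : ℕ) (hj : j < l.length), g l[j] (l.eraseIdx j) = g' l[j] (l.eraseIdx j)) :
    sumE g l = sumE g' l := by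
  induction l generalizing g g' with
  | nil => rfl
  | cons x s ih =>
    rw [sumE, sumE]
    have h0 := h 0 (by simp)
    simp only [List.getElem_cons_zero, List.eraseIdx_cons_zero] at h0
    rw [h0, ih]
    intro j hj
    have := h (j + 1) (by simpa using hj)
    simpa using this

theorem sumE_append (g : α → List α → 𝕜) (p s : List α) :
    sumE g (p ++ s) = sumE (fun y t => g y (t ++ s)) p +
      (-1) ^ p.length * sumE (fun y t => g y (p ++ t)) s := by
  induction p generalizing g with
  | nil => simp [sumE]
  | cons x p ih =>
    rw [List.cons_append, sumE, sumE, ih, List.length_cons, pow_succ]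
    simp only [List.cons_append]
    ring

theorem sumE_sub (g g' : α → List α → 𝕜) (t : 𝕜) (l : List α) :
    sumE (fun y s => g y s - t * g' y s) l = sumE g l - t * sumE g' l := by
  induction l generalizing g g' with
  | nil => simp [sumE]
  | cons x s ih =>
    rw [sumE, sumE, sumE, ih]
    ring

/-- The Pfaffian only depends on the entries `K x y` with `x` before `y`. -/
theorem Pf_congr {K K' : α → α → 𝕜} (l : List α)
    (h : ∀ x y, [x, y].Sublist l → K x y = K' x y) : Pf K l = Pf K' l := by
  induction hn : l.length using Nat.strong_induction_on generalizing l with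
  | _ n ih =>
    cases l with
    | nil => rw [Pf, Pf]
    | cons c l =>
      rw [Pf_cons, Pf_cons]
      refine sumE_congr l fun j hj => ?_
      have h1 : K c l[j] = K' c l[j] := by
        refine h _ _ ?_
        exact (List.cons_sublist_cons).2 (List.singleton_sublist.2 (List.getElem_mem hj))
      have h2 : Pf K (l.eraseIdx j) = Pf K' (l.eraseIdx j) := by
        refine ih (l.eraseIdx j).length ?_ _ (fun x y hxy => h x y ?_) rfl
        · rw [← hn, List.length_eraseIdx, if_pos hj, List.length_cons]; omega
        · exact (hxy.trans (List.eraseIdx_sublist l j)).trans (List.sublist_cons_self c l)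
      rw [h1, h2]

/-- Scaling. -/
theorem Pf_scale (K : α → α → 𝕜) (w : α → 𝕜) (l : List α) (hev : Even l.length) :
    Pf (fun x y => w x * w y * K x y) l = (l.map w).prod * Pf K l := by
  induction hn : l.length using Nat.strong_induction_on generalizing l with
  | _ n ih =>
    cases l with
    | nil => rw [Pf, Pf]; simp
    | cons c l =>
      rw [Pf, Pf, mul_sum]
      refine sum_congr rfl fun j _ => ?_
      have hlen : (l.eraseIdx j).length + 2 = (c :: l).length := by
        have := j.2
        rw [List.length_eraseIdx, if_pos j.2, List.length_cons]; omega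
      rw [ih (l.eraseIdx j).length (by rw [← hn]; omega) _ (by
        rw [← hlen] at hev
        exact (Nat.even_add.1 hev).2 even_two) rfl]
      have h3 := map_split_ring w l j j.2
      rw [List.map_cons, List.prod_cons, h3]
      have : l[j] = l[(j : ℕ)] := rfl
      rw [this]
      ring
where
  map_split_ring (g : α → 𝕜) (l : List α) (k : ℕ) (hk : k < l.length) :
      (l.map g).prod = g l[k] * ((l.eraseIdx k).map g).prod := by
    induction l generalizing k with
    | nil => simp at hk
    | cons c l ih =>
      cases k with
      | zero => simp
      | succ k =>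
        have hk' : k < l.length := by simpa using hk
        rw [List.eraseIdx_cons_succ, List.map_cons, List.prod_cons, List.map_cons, List.prod_cons,
          ih k hk', List.getElem_cons_succ]
        ring

/-- Subtracting `t` from the entry of the pair `e, e'`. -/
theorem Pf_aff {K K' : α → α → 𝕜} {e e' : α} {t : 𝕜}
    (hK : ∀ x y, ¬ (x = e ∧ y = e') → K' x y = K x y) (ht : K' e e' = K e e' - t)
    (p s : List α) (hnd : (p ++ e :: e' :: s).Nodup) :
    Pf K' (p ++ e :: e' :: s) = Pf K (p ++ e :: e' :: s) - t * Pf K (p ++ s) := by
  have hno : ∀ l : List α, (e ∉ l ∨ e' ∉ l) → Pf K' l = Pf K l := by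
    intro l hl
    refine Pf_congr l fun x y hxy => hK x y ?_
    rintro ⟨rfl, rfl⟩
    rcases hl with hl | hl
    · exact hl (hxy.subset (by simp))
    · exact hl (hxy.subset (by simp))
  induction hn : p.length + s.length using Nat.strong_induction_on generalizing p s with
  | _ n ih =>
    have hndA := List.nodup_append.1 hnd
    have hnd1 := List.nodup_cons.1 hndA.2.1
    have hnd2 := List.nodup_cons.1 hnd1.2
    have hes : e ∉ s := fun h => hnd1.1 (List.mem_cons_of_mem _ h)
    have he's : e' ∉ s := hnd2.1
    have hee' : e ≠ e' := fun h => hnd1.1 (h ▸ List.mem_cons_self ..)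
    cases p with
    | nil =>
      rw [List.nil_append, List.nil_append, Pf_cons, Pf_cons, sumE, sumE, ht, hno s (Or.inl hes)]
      have h : sumE (fun y t => K' e y * Pf K' (e' :: t)) s =
          sumE (fun y t => K e y * Pf K (e' :: t)) s := by
        refine sumE_congr s fun j hj => ?_
        have hj' : s[j] ≠ e' := fun h => he's (h ▸ List.getElem_mem hj)
        rw [hK _ _ fun h => hj' h.2, hno]
        left
        rw [List.mem_cons, not_or]
        exact ⟨hee', fun h => hes ((List.eraseIdx_sublist s j).subset h)⟩
      rw [h]
      ring
    | cons c p =>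
      have hc : c ∉ p ++ e :: e' :: s := (List.nodup_cons.1 hnd).1
      have hndp : (p ++ e :: e' :: s).Nodup := (List.nodup_cons.1 hnd).2
      have hce : c ≠ e := fun h => hc (by simp [h])
      have hKc : ∀ y, K' c y = K c y := fun y => hK _ _ fun h => hce h.1
      have hep : e ∉ p := by
        intro h
        exact (List.nodup_append.1 hndp).2.2 e h e (by simp) rfl
      have he'p : e' ∉ p := by
        intro h
        exact (List.nodup_append.1 hndp).2.2 e' h e' (by simp) rfl
      rw [List.cons_append, List.cons_append, Pf_cons, Pf_cons, Pf_cons, sumE_append, sumE_append,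
        sumE_append]
      simp only [sumE]
      have h1 : sumE (fun y u => K' c y * Pf K' (u ++ e :: e' :: s)) p =
          sumE (fun y u => K c y * Pf K (u ++ e :: e' :: s)) p -
            t * sumE (fun y u => K c y * Pf K (u ++ s)) p := by
        rw [← sumE_sub]
        refine sumE_congr p fun j hj => ?_
        rw [hKc, ih ((p.eraseIdx j).length + s.length) (by
          rw [← hn, List.length_eraseIdx, if_pos hj, List.length_cons]; omega) (p.eraseIdx j) s ?_ rfl]
        · ring
        · exact hndp.sublist (List.Sublist.append_right (List.eraseIdx_sublist p j) _)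
      have h2 : sumE (fun y u => K' c y * Pf K' (p ++ e :: e' :: u)) s =
          sumE (fun y u => K c y * Pf K (p ++ e :: e' :: u)) s -
            t * sumE (fun y u => K c y * Pf K (p ++ u)) s := by
        rw [← sumE_sub]
        refine sumE_congr s fun j hj => ?_
        rw [hKc, ih (p.length + (s.eraseIdx j).length) (by
          rw [← hn, List.length_eraseIdx, if_pos hj, List.length_cons]; omega) p (s.eraseIdx j) ?_ rfl]
        · ring
        · refine hndp.sublist ?_
          exact List.Sublist.append_left
            (((List.eraseIdx_sublist s j).cons_cons e').cons_cons e) p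
      have h3 : Pf K' (p ++ e' :: s) = Pf K (p ++ e' :: s) := by
        refine hno _ (Or.inl ?_)
        simp only [List.mem_append, List.mem_cons, not_or]
        exact ⟨hep, hee', hes⟩
      have h4 : Pf K' (p ++ e :: s) = Pf K (p ++ e :: s) := by
        refine hno _ (Or.inr ?_)
        simp only [List.mem_append, List.mem_cons, not_or]
        exact ⟨he'p, fun h => hee' h.symm, he's⟩
      rw [h1, h2, h3, h4, hKc, hKc]
      ring

end

/-- Limits of Pfaffians. -/
theorem Pf_tendsto {α ι : Type*} {F : Filter ι} (K : ι → α → α → ℝ) (L : α → α → ℝ) (l : List α)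
    (h : ∀ x y, [x, y].Sublist l → Tendsto (fun i => K i x y) F (𝓝 (L x y))) :
    Tendsto (fun i => Pf (K i) l) F (𝓝 (Pf L l)) := by
  induction hn : l.length using Nat.strong_induction_on generalizing l with
  | _ n ih =>
    cases l with
    | nil =>
      simp only [Pf]
      exact tendsto_const_nhds
    | cons c l =>
      simp only [Pf]
      refine tendsto_finsetSum _ fun j _ => ?_
      refine Tendsto.mul (Tendsto.const_mul _ ?_) ?_
      · refine h _ _ ?_
        exact (List.cons_sublist_cons).2 (List.singleton_sublist.2 (List.getElem_mem j.2))
      · refine ih (l.eraseIdx j).length ?_ _ (fun x y hxy => h x y ?_) rfl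
        · have := j.2
          rw [← hn, List.length_eraseIdx, if_pos j.2, List.length_cons]; omega
        · exact (hxy.trans (List.eraseIdx_sublist l j)).trans (List.sublist_cons_self c l)

/-- Transport of a Pfaffian along a map of the index set. -/
theorem Pf_map {α β 𝕜 : Type*} [CommRing 𝕜] (K : β → β → 𝕜) (g : α → β) (l : List α) :
    Pf K (l.map g) = Pf (fun x y => K (g x) (g y)) l := by
  induction hn : l.length using Nat.strong_induction_on generalizing l with
  | _ n ih =>
    cases l with
    | nil => rw [List.map_nil, Pf, Pf]
    | cons c l =>
      rw [List.map_cons, Pf_cons, Pf_cons]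
      have key : ∀ (G : β → List β → 𝕜) (s : List α),
          sumE G (s.map g) = sumE (fun y t => G (g y) (t.map g)) s := by
        intro G s
        induction s generalizing G with
        | nil => rfl
        | cons x s ih' => rw [List.map_cons, sumE, sumE, ih']; rfl
      rw [key]
      refine sumE_congr l fun j hj => ?_
      rw [ih (l.eraseIdx j).length ?_ _ rfl]
      rw [← hn, List.length_eraseIdx, if_pos hj, List.length_cons]; omega

/-- The correlations of fermions are Pfaffians. -/
theorem Wf_Pf {N : ℕ} (R : Multiset Site) (l : List Cn)
    (hl : ∀ c ∈ l, c.1 ∈ cnr c.2 ∧ c.1 ∈ dia N) (hnd : l.Nodup) (hev : Even l.length) :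
    Wf (dia N) R l = Pf (fun c c' => Wf (dia N) R [c, c']) l := by
  induction hn : l.length using Nat.strong_induction_on generalizing l with
  | _ n ih =>
    cases l with
    | nil =>
      rw [Pf]
      unfold Wf
      have e1 : fcs ([] : List Cn) + R = R := by simp [fcs]
      have e2 : sps ([] : List Cn) = 0 := by simp [sps]
      rw [e1, e2]
      simp only [el, one_mul]
      exact div_self (QQ_pos _ R).ne'
    | cons c l =>
      rw [wick R c l hl hnd, Pf]
      refine sum_congr rfl fun j _ => ?_
      rw [ih (l.eraseIdx j).length ?_ _ ?_ ?_ ?_ rfl]
      · have := j.2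
        rw [← hn, List.length_eraseIdx, if_pos j.2, List.length_cons]; omega
      · exact fun c' h => hl c' (List.mem_cons_of_mem _ ((List.eraseIdx_sublist l j).subset h))
      · exact (List.nodup_cons.1 hnd).2.sublist (List.eraseIdx_sublist l j)
      · have h2 : (l.eraseIdx j).length + 2 = (c :: l).length := by
          have := j.2
          rw [List.length_eraseIdx, if_pos j.2, List.length_cons]; omega
        rw [← h2] at hev
        exact (Nat.even_add.1 hev).2 even_two

section

variable {Ω ι α : Type*}

/-- The list of the corners of the energies `ks`. -/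
def flat (e e' : ι → α) (ks : List ι) : List α := ks.flatMap fun k => [e k, e' k]

theorem flat_cons (e e' : ι → α) (k : ι) (ks : List ι) :
    flat e e' (k :: ks) = e k :: e' k :: flat e e' ks := rfl

theorem flat_append (e e' : ι → α) (ks ks' : List ι) :
    flat e e' (ks ++ ks') = flat e e' ks ++ flat e e' ks' := by
  unfold flat; rw [List.flatMap_append]

theorem flat_length (e e' : ι → α) (ks : List ι) : (flat e e' ks).length = 2 * ks.length := by
  induction ks with
  | nil => rfl
  | cons k ks ih => rw [flat_cons, List.length_cons, List.length_cons, ih, List.length_cons]; ring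

open Classical in
/-- The kernel in which `t k` is subtracted from the entries `e k, e' k`. -/
noncomputable def cenK (K : α → α → ℝ) (e e' : ι → α) (t : ι → ℝ) (ks : List ι) (x y : α) : ℝ :=
  K x y - (ks.map fun k => if x = e k ∧ y = e' k then t k else 0).sum

/-- Centred energies in a Pfaffian: subtract the mean from the entry of the pair. -/
theorem cen_pf (L : (Ω → ℝ) → ℝ) (hL : ∀ f g : Ω → ℝ, ∀ c, L (fun w => f w - c * g w) = L f - c * L g)
    (X : ι → Ω → ℝ) (t : ι → ℝ) (G : Ω → ℝ) (e e' : ι → α) (K : α → α → ℝ) (p q : List α)
    (ks : List ι) (hnd : (p ++ (flat e e' ks ++ q)).Nodup)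
    (h : ∀ s : List ι, s.Sublist ks →
      L (fun w => G w * (s.map fun k => X k w).prod) = Pf K (p ++ (flat e e' s ++ q))) :
    L (fun w => G w * (ks.map fun k => X k w - t k).prod) =
      Pf (cenK K e e' t ks) (p ++ (flat e e' ks ++ q)) := by
  have hsub : ∀ {s s' : List ι}, s.Sublist s' → (flat e e' s).Sublist (flat e e' s') := by
    intro s s' hs
    induction hs with
    | slnil => exact List.Sublist.refl _
    | cons k _ ih => exact (ih.cons _).cons _
    | cons_cons k _ ih => exact (ih.cons_cons _).cons_cons _
  have key : ∀ (s1 s2 : List ι), (s1 ++ s2).Sublist ks →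
      L (fun w => G w * ((s1.map fun k => X k w - t k).prod * (s2.map fun k => X k w).prod)) =
        Pf (cenK K e e' t s1) (p ++ (flat e e' s1 ++ (flat e e' s2 ++ q))) := by
    intro s1
    induction s1 using List.reverseRecOn with
    | nil =>
      intro s2 hs2
      simp only [List.map_nil, List.prod_nil, one_mul]
      rw [h s2 hs2]
      have : cenK K e e' t [] = K := by
        funext x y; simp [cenK]
      rw [this]; rfl
    | append_singleton s1 k ih =>
      intro s2 hs2
      have h1 := ih (k :: s2) (by simpa using hs2)
      have h2 := ih s2 (by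
        refine List.Sublist.trans ?_ hs2
        rw [List.append_assoc]
        exact List.Sublist.append_left (by simp) s1)
      have e1 : (fun w => G w * (((s1 ++ [k]).map fun k => X k w - t k).prod *
          (s2.map fun k => X k w).prod)) = fun w =>
          G w * ((s1.map fun k => X k w - t k).prod * ((k :: s2).map fun k => X k w).prod) -
          t k * (G w * ((s1.map fun k => X k w - t k).prod * (s2.map fun k => X k w).prod)) := by
        funext w
        simp only [List.map_append, List.prod_append, List.map_cons, List.map_nil, List.prod_cons,
          List.prod_nil]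
        ring
      have hndk : (p ++ (flat e e' s1 ++ (e k :: e' k :: (flat e e' s2 ++ q)))).Nodup := by
        refine hnd.sublist ?_
        refine List.Sublist.append_left ?_ p
        have := hsub hs2
        rw [List.append_assoc, flat_append, List.singleton_append, flat_cons] at this
        have h3 := List.Sublist.append_right this q
        simpa using h3
      rw [e1, hL, h1, h2, flat_cons, flat_append, flat_cons]
      have e2 := Pf_aff (K := cenK K e e' t s1) (K' := cenK K e e' t (s1 ++ [k])) (e := e k)
        (e' := e' k) (t := t k) (fun x y hxy => by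
          unfold cenK
          rw [List.map_append, List.sum_append]
          simp only [List.map_cons, List.map_nil, List.sum_cons, List.sum_nil, if_neg hxy]
          ring) (by
          unfold cenK
          rw [List.map_append, List.sum_append]
          simp only [List.map_cons, List.map_nil, List.sum_cons, List.sum_nil]
          simp only [and_self, if_true]
          ring) (p ++ flat e e' s1) (flat e e' s2 ++ q) (by simpa using hndk)
      simp only [List.append_assoc, List.cons_append] at e2 ⊢
      have e3 : flat e e' ([] : List ι) = [] := rfl
      rw [e3, List.nil_append, e2]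
  have := key ks [] (by simp)
  simp only [List.map_nil, List.prod_nil, mul_one] at this
  rw [this]
  rfl

end

end Vale.Agent.P144.AL
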