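import Vale.Agent.P144.U.AL.TipLim

/-!
The quotients of spin and disorder correlations.
-/

namespace Vale.Agent.P144.AL

open Finset Vale.Agent.P144 Filter Topology H436

/-- The points of a finite set. -/
noncomputable def ptsOf (X : Finset ℂ) : Pts :=
  ⟨X.card, 0, fun i => (X.equivFin.symm i : ℂ), Fin.elim0, Fin.elim0⟩

theorem ptsOf_inj (X : Finset ℂ) : Function.Injective (ptsOf X).x := fun i i' h => by
  have h' : (X.equivFin.symm i : ℂ) = X.equivFin.symm i' := h
  exact X.equivFin.symm.injective (Subtype.ext h')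

theorem ptsOf_image (X : Finset ℂ) : univ.image (ptsOf X).x = X := by
  ext z
  rw [mem_image]
  constructor
  · rintro ⟨i, _, rfl⟩
    exact (X.equivFin.symm i).2
  · intro hz
    exact ⟨X.equivFin ⟨z, hz⟩, mem_univ _, by simp [ptsOf]⟩

theorem ptsOf_good {X : Finset ℂ} (hX : ∀ z ∈ X, z ∈ Dia) : Good0 (ptsOf X) := by
  refine ⟨fun i => hX _ (X.equivFin.symm i).2, fun k => k.elim0, ?_⟩
  rintro (i | k) (i' | k') h
  · exact congrArg _ (ptsOf_inj X (by simpa using h))
  · exact k'.elim0
  · exact k.elim0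
  · exact k.elim0

theorem quotSM {J : ℝ} (hJ : 0 < J) (hK : ∀ p, Good0 p → KP p) : QuotSM J := by
  classical
  intro X hX hev
  set p : Pts := ptsOf X with hpdef
  have hx : Function.Injective p.x := ptsOf_inj X
  have him : univ.image p.x = X := ptsOf_image X
  have hp : Good0 p := ptsOf_good hX
  have hK := hK p hp
  have hn : Even p.n := hev
  have hlb : Even (lbs (n := p.n) ([] : List (Fin p.m)) ([] : List (Fin 4))).length := by
    rw [lbs_length]
    simpa using hn
  have hev0 := (sep_ev p hp).and self_mem_nhdsWithin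
  -- the limit of the Pfaffian
  set kap : Lb p.n p.m → Lb p.n p.m → ℂ := fun x y => if h : ∃ c : ℂ, (isTp p x ∨ isTp p y →
    c = 0) ∧ Tendsto (fun a : ℝ => rr p a x * rr p a y * (Kz p [] a x y : ℂ)) (𝓝[>] 0) (𝓝 c)
    then h.choose else 0 with hkap
  have hkl : ∀ x y : Lb p.n p.m, [x, y].Sublist (lbs (n := p.n) ([] : List (Fin p.m)) []) →
      Tendsto (fun a : ℝ => rr p a x *
      rr p a y * (Kz p [] a x y : ℂ)) (𝓝[>] 0) (𝓝 (kap x y)) := by
    intro x y hxy
    have h := Kz_lim p hp hK List.nodup_nil List.nodup_nil hxy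
    simp only [hkap]
    rw [dif_pos h]
    exact h.choose_spec.2
  have hPf := Pf_tendstoC (fun a x y => rr p a x * rr p a y * (Kz p [] a x y : ℂ)) kap
    (lbs (n := p.n) ([] : List (Fin p.m)) []) hkl
  obtain ⟨c, hc⟩ := src_lim p hx
  have hr0 : ∀ i, ∀ᶠ a in 𝓝[>] (0:ℝ), rho p a (.src i) ≠ 0 := by
    intro i
    obtain ⟨c, hc, hl⟩ := rho_src p hx i
    filter_upwards [hl.eventually_ne hc.ne'] with a h1 h2
    apply h1
    rw [h2]; simp
  have hinj : ∀ᶠ a in 𝓝[>] (0:ℝ), ∀ i i' : Fin p.n, i ≠ i' → fl a (p.x i) ≠ fl a (p.x i') := by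
    rw [eventually_all]
    intro i
    rw [eventually_all]
    intro i'
    by_cases h : i = i'
    · exact Eventually.of_forall fun a h' => absurd h h'
    · filter_upwards [ne_ev (flt (p.x i)) (flt (p.x i')) fun h' => h (hx h')] with a ha _
      exact ha
  have hid : ∀ᶠ a in 𝓝[>] (0:ℝ), ((el (srcs fun i => fl a (p.x i)) : ℂ) *
      ∏ i, ((√a : ℂ) / rho p a (.src i))) *
        Pf (fun x y => rr p a x * rr p a y * (Kz p [] a x y : ℂ))
          (lbs (n := p.n) ([] : List (Fin p.m)) []) = ((Sn J a X / Mn a X : ℝ) : ℂ) := by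
    filter_upwards [hev0, eventually_all.2 hr0, hinj] with a ha hr1 hi
    have ha' : 0 < a := ha.2
    have hM : 0 < Mn a X := Mn_pos a X
    have hpow : 0 < (a ^ (-(1 / 8) : ℝ)) ^ p.n := pow_pos (Real.rpow_pos_of_pos ha' _) _
    have e1 : mixC J p ∅ ∅ a = (a ^ (-(1 / 8) : ℝ)) ^ p.n * Sn J a X := by
      unfold mixC Sn
      have : (fun σ : Config => Xs p a σ * (∏ k ∈ (∅ : Finset (Fin p.m)), hat J p a k σ) *
          ∏ c ∈ (∅ : Finset (Fin 4)), sp (σ (tip (nn a) c))) =
          fun σ => (a ^ (-(1 / 8) : ℝ)) ^ p.n * ∏ x ∈ X.image (fl a), sp (σ x) := by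
        funext σ
        unfold Xs
        rw [prod_empty, prod_empty, mul_one, mul_one, prod_mul_distrib, prod_const, card_univ,
          Fintype.card_fin, ← him, image_image]
        congr 1
        rw [prod_image]
        · rfl
        · intro i _ i' _ h
          by_contra hne
          exact hi i i' hne h
      rw [this, E0_const_mul]
      rfl
    have e2 : mixC J p ∅ ∅ a = (a ^ (-(1 / 8) : ℝ)) ^ p.n * Mn a X *
        (el (srcs fun i => fl a (p.x i)) *
        Pf (Kz p [] a) (lbs (n := p.n) ([] : List (Fin p.m)) [])) := by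
      rw [mixC_eq p hJ ha' ha.1 ∅ ∅]
      have e3 : MM (dia (nn a)) (Rp p a) = Mn a X := by
        unfold Mn
        rw [show disc Dia a = dia (nn a) from disc_Dia ha', ← Rp_eq p hx, him]
      rw [e3]
      unfold sgT SG
      simp
    have e4 : Sn J a X / Mn a X = el (srcs fun i => fl a (p.x i)) *
        Pf (Kz p [] a) (lbs (n := p.n) ([] : List (Fin p.m)) []) := by
      rw [div_eq_iff hM.ne']
      have := e1.symm.trans e2
      have h3 : (a ^ (-(1 / 8) : ℝ)) ^ p.n * Sn J a X = (a ^ (-(1 / 8) : ℝ)) ^ p.n *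
          (el (srcs fun i => fl a (p.x i)) *
          Pf (Kz p [] a) (lbs (n := p.n) ([] : List (Fin p.m)) []) * Mn a X) := by
        rw [this]; ring
      exact mul_left_cancel₀ hpow.ne' h3
    rw [e4, Pf_scale _ _ _ hlb, rr_prod p ha']
    push_cast
    rw [Pf_ofReal]
    simp only [List.map_nil, List.prod_nil, List.length_nil, pow_zero, mul_one]
    have hs : (√a : ℂ) ≠ 0 := by exact_mod_cast (Real.sqrt_pos.2 ha').ne'
    have hP : (∏ i, (√a : ℂ) / rho p a (.src i)) * ∏ i, rho p a (.src i) / (√a : ℂ) = 1 := by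
      rw [← prod_mul_distrib]
      refine prod_eq_one fun i _ => ?_
      have := hr1 i
      field_simp
    generalize (∏ i, (√a : ℂ) / rho p a (.src i)) = A at *
    generalize (∏ i, rho p a (.src i) / (√a : ℂ)) = B at *
    linear_combination ((el (srcs fun i => fl a (p.x i)) : ℂ) *
      Pf (fun x y => (Kz p [] a x y : ℂ)) (lbs (n := p.n) ([] : List (Fin p.m)) [])) * hP
  have hall := (hc.mul hPf).congr' hid
  refine ⟨(c * Pf kap (lbs (n := p.n) ([] : List (Fin p.m)) [])).re, ?_⟩
  have := (Complex.continuous_re.tendsto _).comp hall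
  exact this

end Vale.Agent.P144.AL
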