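import Vale.Agent.P144.U.Stmt

/-!
Q1 with constants that may depend on the domain and the boundary condition.
-/

namespace Vale.Agent.P144

open Filter Topology MeasureTheory

/-- The data asked for in Q1, where in the domain part the two constants may depend on the domain
and the boundary condition, and may be any real numbers. -/
def HasDataD (J : ℝ) (V : Finset Site → ℝ) (lam : ℝ) : Prop :=
  ∃ β > 0, ∃ Zσ ≠ 0, ∃ Zε ≠ 0,
    (∃ E, PlaneFam J lam V β E ∧
      ∀ E₀, PlaneFam J 0 (fun _ => 0) (Kc / J) E₀ → Identity Set.univ E₀ E Zσ Zε) ∧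
    ∀ D : Set ℂ, IsOpen D → IsConnected D → Bornology.IsBounded D →
      ∀ b, AllLim D (crit J D b) →
        ∃ Zσ' Zε' : ℝ, Identity D (crit J D b) (inDom J lam V β D b) Zσ' Zε'

end Vale.Agent.P144
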