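import Vale.Agent.P144.U.AL.Tl

/-!
The limits of the mixed correlations with spins at the tips.
-/

namespace Vale.Agent.P144.AL

open Finset Vale.Agent.P144 Filter Topology H436

section

variable (p : Pts)

/-- The sign of the sources and the tips. -/
noncomputable def sgT (Cl : List (Fin 4)) (a : ℝ) : ℝ :=
  SG Cl (srcs (fun i => fl a (p.x i)) ++ Cl.map (tcn (nn a)))

/-- The mixed correlations as Pfaffians. -/
theorem mixC_eq {J : ℝ} (hJ : 0 < J) {a : ℝ} (ha : 0 < a)
    (hs : Sep (nn a) (fun i => fl a (p.x i)) (fun k => fl a (p.y k)) ∧ 1 ≤ nn a)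
    (T : Finset (Fin p.m)) (C : Finset (Fin 4)) :
    mixC J p T C a = (a ^ (-(1 / 8) : ℝ)) ^ p.n * MM (dia (nn a)) (Rp p a) *
      (a⁻¹ ^ T.card * sgT p C.toList a *
        Pf (Kz p T.toList a) (lbs T.toList C.toList)) := by
  have hd : disc Dia a = dia (nn a) := disc_Dia ha
  have hmean : ∀ k, E0 J a (be p a k) = tk p a k := by
    intro k
    have := mean_eq (N := nn a) hJ (x := fl a (p.y k)) (p.j k) (hs.1.v_in k)
    unfold E0
    rw [hd]
    exact this
  unfold mixC
  have e1 : (fun σ => Xs p a σ * (∏ k ∈ T, hat J p a k σ) * ∏ c ∈ C, sp (σ (tip (nn a) c))) =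
      fun σ => ((a ^ (-(1 / 8) : ℝ)) ^ p.n * a⁻¹ ^ T.card) *
        (GG (nn a) (fun i => fl a (p.x i)) C.toList σ *
          (T.toList.map fun k => XX (fun k => fl a (p.y k)) p.j k σ - tk p a k).prod) := by
    funext σ
    rw [GG_eq]
    unfold Xs hat
    have h1 : (∏ i, a ^ (-(1 / 8) : ℝ) * sp (σ (fl a (p.x i)))) =
        (a ^ (-(1 / 8) : ℝ)) ^ p.n * ∏ i, sp (σ (fl a (p.x i))) := by
      rw [prod_mul_distrib, prod_const, card_univ, Fintype.card_fin]
    have h2 : (∏ k ∈ T, a⁻¹ * (be p a k σ - E0 J a (be p a k))) = a⁻¹ ^ T.card *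
        (T.toList.map fun k => XX (fun k => fl a (p.y k)) p.j k σ - tk p a k).prod := by
      rw [prod_mul_distrib, prod_const, Finset.prod_map_toList]
      congr 1
      exact prod_congr rfl fun k _ => by rw [hmean k]; rfl
    rw [h1, h2]
    ring
  rw [e1, E0_const_mul]
  have h3 := mix (N := nn a) (u := fun i => fl a (p.x i)) (v := fun k => fl a (p.y k)) (j := p.j)
    hJ hs.1 hs.2 (nodup_toList T) (nodup_toList C) (tk p a)
  unfold E0
  rw [hd, h3]
  unfold sgT Kz Rp Kw
  ring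

theorem Rp_eq (hx : Function.Injective p.x) (a : ℝ) :
    (univ.image p.x).val.map (fl a) = Rp p a := by
  classical
  rw [image_val_of_injOn hx.injOn, Multiset.map_map]
  unfold Rp fcs srcs
  rw [List.map_map]
  rfl

theorem card_im (hx : Function.Injective p.x) : (univ.image p.x).card = p.n := by
  rw [card_image_of_injective _ hx, card_univ, Fintype.card_fin]

theorem Gn_eq (hx : Function.Injective p.x) {a : ℝ} (ha : 0 < a) :
    Gn (univ.image p.x) a = (a ^ (-(1 / 8) : ℝ)) ^ p.n * MM (dia (nn a)) (Rp p a) := by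
  unfold Gn Mn
  rw [Rp_eq p hx, card_im p hx, show disc Dia a = dia (nn a) from disc_Dia ha,
    ← Real.rpow_natCast, ← Real.rpow_mul ha.le]
  congr 2
  ring

/-- The product of the factors of the labels. -/
theorem rr_prod {a : ℝ} (ha : 0 < a) (ks : List (Fin p.m)) (Cl : List (Fin 4)) :
    ((lbs (n := p.n) ks Cl).map (rr p a)).prod = (∏ i, rho p a (.src i) / (√a : ℂ)) *
      (ks.map fun k => (wl (fun i => fl a (p.x i)) (fun k => fl a (p.y k)) p.j (.hi k) : ℂ) *
        (rho p a (.lo k) * rho p a (.hi k))).prod * (a : ℂ)⁻¹ ^ ks.length := by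
  unfold lbs
  rw [List.map_append, List.map_append, List.prod_append, List.prod_append, List.map_map,
    List.map_map]
  have h1 : (Cl.map (rr p a ∘ Lb.tp)).prod = 1 := by
    induction Cl with
    | nil => rfl
    | cons c Cl ih =>
      rw [List.map_cons, List.prod_cons, ih, mul_one]; rfl
  have h2 : ((List.finRange p.n).map (rr p a ∘ Lb.src)).prod =
      ∏ i, rho p a (.src i) / (√a : ℂ) := by
    rw [Fin.prod_univ_def]; rfl
  rw [h1, h2, mul_one, mul_assoc]
  congr 1
  have h3 := sqrt_mul_C ha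
  have ha0 : (a : ℂ) ≠ 0 := by exact_mod_cast ha.ne'
  have hs : (√a : ℂ) ≠ 0 := by exact_mod_cast (Real.sqrt_pos.2 ha).ne'
  induction ks with
  | nil => simp [flat]
  | cons k ks ih =>
    rw [flat_cons, List.map_cons, List.map_cons, List.prod_cons, List.prod_cons, ih, List.map_cons,
      List.prod_cons, List.length_cons, pow_succ]
    simp only [rr]
    have : (a : ℂ)⁻¹ = ((√a : ℂ))⁻¹ * ((√a : ℂ))⁻¹ := by rw [← h3, mul_inv]
    rw [this]
    field_simp

end

/-- The limits of the mixed correlations with spins at the tips follow from the limits of the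
kernels and the normalisation. -/
theorem tipLim {J : ℝ} (hJ : 0 < J) (hK : ∀ p, Good0 p → KP p) (hm : Merge J) (hr : RatioM)
    (hq : QuotSM J) : TipLim J := by
  intro p hp T C
  have hK := hK p hp
  have hx : Function.Injective p.x := fun i i' h => Sum.inl_injective (hp.2.2 (by simpa using h))
  have hX : ∀ z ∈ univ.image p.x, z ∈ Dia := by
    intro z hz
    obtain ⟨i, _, rfl⟩ := mem_image.1 hz
    exact hp.1 i
  have hxy : ∀ k i, p.y k ≠ p.x i := fun k i h => by
    have := @hp.2.2 (Sum.inr k) (Sum.inl i) (by simpa using h)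
    cases this
  set ks := T.toList with hks
  set Cl := C.toList with hCl
  have hksn : ks.Nodup := nodup_toList T
  have hCn : Cl.Nodup := nodup_toList C
  have hev0 := (sep_ev p hp).and self_mem_nhdsWithin
  have hlen : ks.length = T.card := by rw [hks, length_toList]
  by_cases hev : Even (lbs (n := p.n) ks Cl).length
  swap
  · refine ⟨0, fun _ => rfl, ?_⟩
    refine tendsto_const_nhds.congr' ?_
    filter_upwards [hev0] with a ha
    rw [mixC_eq p hJ ha.2 ha.1 T C, ← hks, ← hCl, Pf_odd _ _ hev]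
    ring
  -- the limit of the Pfaffian
  classical
  set kap : Lb p.n p.m → Lb p.n p.m → ℂ := fun x y => if h : ∃ c : ℂ, (isTp p x ∨ isTp p y →
    c = 0) ∧ Tendsto (fun a : ℝ => rr p a x * rr p a y * (Kz p ks a x y : ℂ)) (𝓝[>] 0) (𝓝 c)
    then h.choose else 0 with hkap
  have hkl : ∀ x y : Lb p.n p.m, [x, y].Sublist (lbs ks Cl) → Tendsto (fun a : ℝ => rr p a x *
      rr p a y * (Kz p ks a x y : ℂ)) (𝓝[>] 0) (𝓝 (kap x y)) := by
    intro x y hxy
    have h := Kz_lim p hp hK hksn hCn hxy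
    simp only [hkap]
    rw [dif_pos h]
    exact h.choose_spec.2
  have hk0 : ∀ x y : Lb p.n p.m, (isTp p x ∨ isTp p y) → kap x y = 0 := by
    intro x y hxy
    simp only [hkap]
    split_ifs with h
    · exact h.choose_spec.1 hxy
    · rfl
  have hPf := Pf_tendstoC (fun a x y => rr p a x * rr p a y * (Kz p ks a x y : ℂ)) kap
    (lbs ks Cl) hkl
  -- the energies
  have hen : ∃ H : ℂ, H ≠ 0 ∧ Tendsto (fun a : ℝ => (ks.map fun k =>
      (wl (fun i => fl a (p.x i)) (fun k => fl a (p.y k)) p.j (.hi k) : ℂ) *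
        (rho p a (.lo k) * rho p a (.hi k))).prod) (𝓝[>] 0) (𝓝 H) := by
    refine ⟨(ks.map fun k => (en_lim p hxy k).choose).prod, ?_, ?_⟩
    · refine List.prod_ne_zero ?_
      intro h
      obtain ⟨k, _, hk⟩ := List.mem_map.1 h
      exact (en_lim p hxy k).choose_spec.1 hk
    · exact tendsto_list_prod ks fun k _ => (en_lim p hxy k).choose_spec.2
  obtain ⟨H, hH0, hH⟩ := hen
  -- the identity
  have hid : ∀ᶠ a in 𝓝[>] (0:ℝ), (mixC J p T C a : ℂ) = (Gn (univ.image p.x) a : ℂ) *
      ((sgT p Cl a : ℂ) * ∏ i, ((√a : ℂ) / rho p a (.src i))) *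
      (((ks.map fun k => (wl (fun i => fl a (p.x i)) (fun k => fl a (p.y k)) p.j (.hi k) : ℂ) *
        (rho p a (.lo k) * rho p a (.hi k))).prod)⁻¹ *
        Pf (fun x y => rr p a x * rr p a y * (Kz p ks a x y : ℂ)) (lbs ks Cl)) := by
    have hr0 : ∀ i, ∀ᶠ a in 𝓝[>] (0:ℝ), rho p a (.src i) ≠ 0 := by
      intro i
      obtain ⟨c, hc, hl⟩ := rho_src p hx i
      filter_upwards [hl.eventually_ne hc.ne'] with a h1 h2
      apply h1
      rw [h2]; simp
    filter_upwards [hev0, eventually_all.2 hr0, hH.eventually_ne hH0] with a ha hr1 hH1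
    have ha' : 0 < a := ha.2
    have ha0 : (a : ℂ) ≠ 0 := by exact_mod_cast ha'.ne'
    have hs : (√a : ℂ) ≠ 0 := by exact_mod_cast (Real.sqrt_pos.2 ha').ne'
    rw [mixC_eq p hJ ha' ha.1 T C, ← hks, ← hCl, ← Gn_eq p hx ha', Pf_scale _ _ _ hev,
      rr_prod p ha', hlen]
    push_cast
    rw [Pf_ofReal]
    have hP : (∏ i, (√a : ℂ) / rho p a (.src i)) * ∏ i, rho p a (.src i) / (√a : ℂ) = 1 := by
      rw [← prod_mul_distrib]
      refine prod_eq_one fun i _ => ?_
      have := hr1 i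
      field_simp
    generalize (∏ i, (√a : ℂ) / rho p a (.src i)) = A at *
    generalize (∏ i, rho p a (.src i) / (√a : ℂ)) = B at *
    generalize ((ks.map fun k => (wl (fun i => fl a (p.x i)) (fun k => fl a (p.y k)) p.j (.hi k) :
      ℂ) * (rho p a (.lo k) * rho p a (.hi k))).prod) = D at *
    generalize Pf (fun x y => (Kz p ks a x y : ℂ)) (lbs ks Cl) = P at *
    have hA : A * (B * D * (a : ℂ)⁻¹ ^ T.card * P) = D * ((a : ℂ)⁻¹ ^ T.card * P) := by
      linear_combination (D * (a : ℂ)⁻¹ ^ T.card * P) * hP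
    have h5 : A * (D⁻¹ * (B * D * (a : ℂ)⁻¹ ^ T.card * P)) = (a : ℂ)⁻¹ ^ T.card * P := by
      rw [show A * (D⁻¹ * (B * D * (a : ℂ)⁻¹ ^ T.card * P)) =
        D⁻¹ * (A * (B * D * (a : ℂ)⁻¹ ^ T.card * P)) by ring, hA, ← mul_assoc,
        inv_mul_cancel₀ hH1, one_mul]
    linear_combination (-(Gn (univ.image p.x) a : ℂ) * (sgT p Cl a : ℂ)) * h5
  have hHP := (hH.inv₀ hH0).mul hPf
  by_cases hC : C = ∅
  · -- no tips
    have hCl0 : Cl = [] := by rw [hCl, hC]; simp
    have hn : Even p.n := by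
      rw [lbs_length, hCl0] at hev
      simp only [List.length_nil, add_zero] at hev
      exact (Nat.even_add.1 hev).2 (even_two_mul _)
    obtain ⟨g, _, hg⟩ := norm_even hJ hm hr hq hX (by rw [card_im p hx]; exact hn)
    obtain ⟨c, hc⟩ := src_lim p hx
    have hc' : Tendsto (fun a : ℝ => (sgT p Cl a : ℂ) * ∏ i, ((√a : ℂ) / rho p a (.src i)))
        (𝓝[>] 0) (𝓝 c) := by
      refine hc.congr fun a => ?_
      unfold sgT SG
      rw [hCl0]
      simp
    have hg' : Tendsto (fun a => (Gn (univ.image p.x) a : ℂ)) (𝓝[>] 0) (𝓝 (g : ℂ)) :=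
      (Complex.continuous_ofReal.tendsto _).comp hg
    have hall := (hg'.mul hc').mul hHP
    have hall' := hall.congr' (hid.mono fun a h => h.symm)
    refine ⟨((g : ℂ) * c * (H⁻¹ * Pf kap (lbs ks Cl))).re, fun h => ?_, ?_⟩
    · rw [hC] at h; simp at h
    · have := (Complex.continuous_re.tendsto _).comp hall'
      exact this
  · -- tips
    have hCne : C.Nonempty := nonempty_iff_ne_empty.2 hC
    refine ⟨0, fun _ => rfl, ?_⟩
    have hP0 : Pf kap (lbs ks Cl) = 0 := by
      obtain ⟨c, hc⟩ := hCne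
      refine Pf_null kap _ (c := .tp c) ?_ fun y => ⟨hk0 _ _ (Or.inl trivial), hk0 _ _ (Or.inr trivial)⟩
      unfold lbs
      refine List.mem_append_right _ (List.mem_append_right _ (List.mem_map.2 ⟨c, ?_, rfl⟩))
      rw [hCl, mem_toList]; exact hc
    rw [hP0, mul_zero] at hHP
    obtain ⟨B, hB, hBe⟩ := norm_bdd hJ hm hX
    have hGb : Tendsto (fun a : ℝ => ∏ i, ‖(√a : ℂ) / rho p a (.src i)‖) (𝓝[>] 0)
        (𝓝 (∏ i, (rho_src p hx i).choose⁻¹)) := by
      refine tendsto_finsetProd _ fun i _ => ?_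
      have h := (rho_src p hx i).choose_spec
      refine (h.2.inv₀ h.1.ne').congr fun a => ?_
      rw [← norm_inv, inv_div]
    have hlim : Tendsto (fun a : ℝ => B * (∏ i, ‖(√a : ℂ) / rho p a (.src i)‖) *
        ‖((ks.map fun k => (wl (fun i => fl a (p.x i)) (fun k => fl a (p.y k)) p.j (.hi k) : ℂ) *
        (rho p a (.lo k) * rho p a (.hi k))).prod)⁻¹ *
        Pf (fun x y => rr p a x * rr p a y * (Kz p ks a x y : ℂ)) (lbs ks Cl)‖) (𝓝[>] 0)
        (𝓝 0) := by
      have := (hGb.const_mul B).mul hHP.norm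
      rwa [norm_zero, mul_zero] at this
    refine squeeze_zero_norm' ?_ hlim
    filter_upwards [hid, hBe, self_mem_nhdsWithin] with a h1 h2 h3
    have h3 : 0 < a := h3
    have h4 : ‖mixC J p T C a‖ = ‖(mixC J p T C a : ℂ)‖ := by
      rw [Complex.norm_real]
    rw [h4, h1, norm_mul, norm_mul, norm_mul, norm_prod, Complex.norm_real, Complex.norm_real]
    have h5 : ‖Gn (univ.image p.x) a‖ ≤ B := by
      rw [Real.norm_eq_abs, abs_of_pos (Gn_pos h3)]; exact h2
    have h6 : ‖sgT p Cl a‖ = 1 := by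
      have := SG_sq Cl (srcs (fun i => fl a (p.x i)) ++ Cl.map (tcn (nn a)))
      rcases mul_self_eq_one_iff.1 this with h | h <;> unfold sgT <;> rw [h] <;> simp
    rw [h6, one_mul]
    refine mul_le_mul_of_nonneg_right ?_ (norm_nonneg _)
    exact mul_le_mul_of_nonneg_right h5 (prod_nonneg fun i _ => norm_nonneg _)

end Vale.Agent.P144.AL
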