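import Vale.Agent.P144.U.AL.Inst

/-!
A spinor without inserted spins vanishes.
-/

namespace Vale.Agent.P144.AL

open Finset Vale.Agent.P144

theorem zero_of_lap {u : Site → ℝ} {Λ : Finset Site} (hu : ∀ x ∉ Λ, u x = 0)
    (hl : ∀ x, lap u x = 0) (x : Site) : u x = 0 := by
  have := H436.ker_rep (u := u) (Λ := Λ) (S := ∅) hu (fun x _ => by rw [lap436]; exact hl x) x
  simpa using this

theorem Spr.unique {N : ℕ} {τ θ A B C D : Site → ℝ} (h : Spr (dia N) τ θ A B C D)
    (hθ : ∀ i j : ℤ, θ (i - 1, j) = θ (i - 1, j - 1)) (f : Site) :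
    A f = 0 ∧ B f = 0 ∧ C f = 0 ∧ D f = 0 := by
  obtain ⟨Hs, Hf, hH⟩ := h.exists_H (colConvex_dia N)
  have hnn : ∀ x, 0 ≤ lap Hs x := by
    rintro ⟨i, j⟩
    by_cases hΛ : ((i, j) : Site) ∈ dia N
    · exact h.lap_nonneg hH hΛ (hθ i j)
    · exact h.lap_out hH hΛ
  have hl : ∀ x, lap Hs x = 0 := by
    intro x
    have := mass_any (P := ∅) hH.out (fun x _ => hnn x) {x}
    rw [sum_singleton, sum_empty, mul_zero] at this
    exact abs_nonpos_iff.1 this
  have hs0 : ∀ x, Hs x = 0 := zero_of_lap hH.out hl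
  have h2 := sqrt2_sq
  have key : ∀ n : ℕ, ∀ i j : ℤ, (N : ℤ) + 1 - n ≤ j → Hf (i, j) = 0 := by
    intro n
    induction n with
    | zero =>
      intro i j hj
      refine h.Hf_zero hH (v := (i, j)) (by simp [mem_cnr]) fun hh => ?_
      rw [mem_dia] at hh
      have := le_abs_self j
      have := abs_nonneg i
      simp only at hh
      lia
    | succ n ih =>
      intro i j hj
      by_cases hj' : (N : ℤ) + 1 - n ≤ j
      · exact ih i j hj'
      · have h1 := ih i (j + 1) (by lia)
        by_cases hh : ((i, j + 1) : Site) ∈ hor (dia N)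
        · have e1 := h.V i j hh
          have ea := hH.a i (j + 1)
          have eb := hH.b i (j + 1)
          have ec := hH.c i j
          rw [hs0, h1] at ea eb
          rw [hs0] at ec
          have a0 : A (i, j + 1) = 0 := by
            have : A (i, j + 1) ^ 2 = 0 := by linarith
            exact pow_eq_zero_iff (by norm_num) |>.1 this
          have b0 : B (i, j + 1) = 0 := by
            have : B (i, j + 1) ^ 2 = 0 := by linarith
            exact pow_eq_zero_iff (by norm_num) |>.1 this
          have c0 : C (i, j) = 0 := by rw [e1.1, a0, b0]; ring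
          rw [c0] at ec
          linarith
        · rw [mem_hor] at hh
          simp only at hh
          by_cases h3 : ((i, j + 1) : Site) ∈ dia N
          · exact h.Hf_zero hH (v := (i + 1, j + 1)) (by simp [mem_cnr]) fun h4 => hh ⟨h3, h4⟩
          · exact h.Hf_zero hH (v := (i, j + 1)) (by simp [mem_cnr]) h3
  obtain ⟨i, j⟩ := f
  have hf : Hf (i, j) = 0 := key ((N : ℤ) + 1 - j).toNat i j (by lia)
  have ha := hH.a i j
  have hb := hH.b i j
  have hc := hH.c i j
  have hd := hH.d i j
  rw [hs0, hf] at ha hb hc hd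
  have z : ∀ x : ℝ, 0 - 0 = x ^ 2 → x = 0 := fun x hx =>
    pow_eq_zero_iff (by norm_num) |>.1 (by linarith : x ^ 2 = 0)
  exact ⟨z _ ha, z _ hb, z _ hc, z _ hd⟩

end Vale.Agent.P144.AL
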