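import Vale.Agent.P144.U.AL.Wick

/-!
Wick rule for the free critical model with disorders in the diamond.
-/

namespace Vale.Agent.P144.AL

open Finset Vale.Agent.P144

theorem lin_sum {ι : Type*} (s : Finset ι) (m u w g : ι → ℝ) (p q : ℝ)
    (h : ∀ k, g k = p * u k - q * w k) :
    ∑ k ∈ s, m k * g k = p * ∑ k ∈ s, m k * u k - q * ∑ k ∈ s, m k * w k := by
  rw [mul_sum, mul_sum, ← sum_sub_distrib]
  exact sum_congr rfl fun k _ => by rw [h k]; ring

section

variable (Λ : Finset Site) (R : Multiset Site) (l : List Cn)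

/-- The difference of both sides of the Wick rule, as a function of the first fermion. -/
noncomputable def Ph (c : Cn) : ℝ :=
  el l * Tl Λ R l c -
    ∑ j : Fin l.length, (-1) ^ (j : ℕ) * Wf Λ R (l.eraseIdx j) * Tl Λ R [l[j]] c

/-- The same as seen from the horizontal edges. -/
noncomputable def Ps (c : Cn) : ℝ :=
  el l * Sl Λ R l c -
    ∑ j : Fin l.length, (-1) ^ (j : ℕ) * Wf Λ R (l.eraseIdx j) * Sl Λ R [l[j]] c

theorem Xl_self (hl : ∀ c ∈ l, c.1 ∈ Λ) (k : ℕ) (hk : k < l.length) :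
    Xl Λ R l l[k] = QQ Λ (fcs (l.eraseIdx k) + R) (sps (l.eraseIdx k)) / QQ Λ R 0 := by
  unfold Xl
  rw [if_pos (hl _ (List.getElem_mem hk)), fcs_erase l k hk, sps_erase l k hk,
    Multiset.cons_add, QQ_dis_pair, QQ_spin_pair]

theorem Xl_one {c : Cn} (hc : c.1 ∈ Λ) : Xl Λ R [c] c = 1 := by
  unfold Xl
  rw [if_pos hc]
  have e1 : fcs [c] + R = c.2 ::ₘ R := by
    rw [fcs_cons, Multiset.cons_add]
    simp [fcs]
  have e2 : sps [c] = c.1 ::ₘ 0 := rfl
  rw [e1, e2, QQ_dis_pair, QQ_spin_pair]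
  exact div_self (QQ_pos Λ R).ne'

open Classical in
theorem Sl_eq (hnd : l.Nodup) (c : Cn) : Sl Λ R l c = Tl Λ R l c * if c ∈ l then -1 else 1 := by
  unfold Sl Tl
  rw [prod_et l hnd c]
  ring

theorem Ph_eq_Ps (hl : ∀ c ∈ l, c.1 ∈ cnr c.2 ∧ c.1 ∈ Λ) (hnd : l.Nodup) (c : Cn) :
    Ph Λ R l c = Ps Λ R l c := by
  classical
  unfold Ph Ps
  have hone : ∀ j : Fin l.length, Sl Λ R [l[j]] c = Tl Λ R [l[j]] c * if c = l[j] then -1 else 1 := by
    intro j
    rw [Sl_eq Λ R [l[j]] (List.nodup_singleton _) c]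
    simp only [List.mem_singleton]
  simp only [hone]
  rw [Sl_eq Λ R l hnd c]
  by_cases hc : c ∈ l
  · obtain ⟨k, hk, rfl⟩ := List.mem_iff_getElem.1 hc
    rw [if_pos hc]
    have hsum : ∑ j : Fin l.length, (-1) ^ (j : ℕ) * Wf Λ R (l.eraseIdx j) *
        (Tl Λ R [l[j]] l[k] * if l[k] = l[j] then -1 else 1) =
        ∑ j : Fin l.length, (-1) ^ (j : ℕ) * Wf Λ R (l.eraseIdx j) * Tl Λ R [l[j]] l[k] -
        2 * ((-1) ^ k * Wf Λ R (l.eraseIdx k) * Tl Λ R [l[k]] l[k]) := by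
      have e : ∀ j : Fin l.length, (-1) ^ (j : ℕ) * Wf Λ R (l.eraseIdx j) *
          (Tl Λ R [l[j]] l[k] * if l[k] = l[j] then -1 else 1) =
          (-1) ^ (j : ℕ) * Wf Λ R (l.eraseIdx j) * Tl Λ R [l[j]] l[k] -
          if j = ⟨k, hk⟩ then 2 * ((-1) ^ (j : ℕ) * Wf Λ R (l.eraseIdx j) * Tl Λ R [l[j]] l[k]) else 0 := by
        intro j
        by_cases hj : j = ⟨k, hk⟩
        · subst hj
          rw [if_pos rfl]
          have : (l[k] = l[(⟨k, hk⟩ : Fin l.length)]) := rfl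
          rw [if_pos this]; ring
        · have : l[k] ≠ l[j] := by
            intro h
            apply hj
            have := (List.Nodup.getElem_inj_iff hnd (hi := hk) (hj := j.2)).1 h
            exact Fin.ext this.symm
          rw [if_neg this, if_neg hj]; ring
      rw [sum_congr rfl fun j _ => e j, sum_sub_distrib]
      congr 1
      rw [sum_ite_eq' univ (⟨k, hk⟩ : Fin l.length)]
      rw [if_pos (mem_univ _)]
      rfl
    rw [hsum]
    have h1 : Tl Λ R l l[k] = ep l[k] l[k] * ((l.eraseIdx k).map (ep l[k])).prod *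
        (QQ Λ (fcs (l.eraseIdx k) + R) (sps (l.eraseIdx k)) / QQ Λ R 0) := by
      unfold Tl
      rw [Xl_self Λ R l (fun c hc => (hl c hc).2) k hk, map_split (ep l[k]) l k hk]
    have h2 : Tl Λ R [l[k]] l[k] = ep l[k] l[k] := by
      unfold Tl
      rw [Xl_one Λ R (hl _ (List.getElem_mem hk)).2]
      simp
    have h3 := el_erase l (fun c hc => (hl c hc).1) hnd k hk
    rw [h1, h2]
    unfold Wf
    linear_combination (2 * ep l[k] l[k] *
      (QQ Λ (fcs (l.eraseIdx k) + R) (sps (l.eraseIdx k)) / QQ Λ R 0)) * h3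
  · rw [if_neg hc, mul_one]
    congr 1
    refine sum_congr rfl fun j _ => ?_
    have : c ≠ l[j] := by
      rintro rfl
      exact hc (List.getElem_mem j.2)
    rw [if_neg this, mul_one]

theorem Ph_spr (hl : ∀ c ∈ l, c.1 ∈ cnr c.2 ∧ c.1 ∈ Λ) (hnd : l.Nodup) :
    Spr Λ (tauR R) (fun _ => 1) (fun f => Ph Λ R l (f, f))
      (fun f => Ph Λ R l ((f.1 + 1, f.2), f)) (fun f => Ph Λ R l ((f.1, f.2 + 1), f))
      (fun f => Ph Λ R l ((f.1 + 1, f.2 + 1), f)) := by
  have hz : ∀ c : Cn, c.1 ∉ Λ → Ph Λ R l c = 0 := by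
    intro c hc
    unfold Ph Tl Xl
    simp only [if_neg hc, mul_zero, sum_const_zero, sub_zero]
  have hl1 : ∀ j : Fin l.length, ∀ c ∈ [l[j]], c.1 ∈ cnr c.2 ∧ c.1 ∈ Λ := by
    intro j c hc
    rw [List.mem_singleton] at hc
    subst hc
    exact hl _ (List.getElem_mem j.2)
  refine ⟨fun f => cutS_sq _ _, fun f => by norm_num, fun i j h => hz _ h, fun i j h => hz _ h,
    fun i j h => hz _ h, fun i j h => hz _ h, ?_, ?_, ?_, ?_⟩
  · intro i j h
    simp only [Ph_eq_Ps Λ R l hl hnd]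
    unfold Ps
    obtain ⟨e1, e2⟩ := Sl_V R l hl h
    constructor
    · rw [e1, lin_sum univ (fun k : Fin l.length => (-1) ^ (k : ℕ) * Wf Λ R (l.eraseIdx k)) _ _ _ _ _
        fun k => (Sl_V R [l[k]] (hl1 k) h).1]
      ring
    · rw [e2, lin_sum univ (fun k : Fin l.length => (-1) ^ (k : ℕ) * Wf Λ R (l.eraseIdx k)) _ _ _ _ _
        fun k => (Sl_V R [l[k]] (hl1 k) h).2]
      ring
  · intro i j h
    simp only [Ph_eq_Ps Λ R l hl hnd]
    unfold Ps
    obtain ⟨e1, e2⟩ := Sl_V0 R l hl h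
    constructor
    · rw [e1, sum_congr rfl fun k _ => by rw [(Sl_V0 R [l[k]] (hl1 k) h).1]]
    · rw [e2, sum_congr rfl fun k _ => by rw [(Sl_V0 R [l[k]] (hl1 k) h).2]]
  · intro i j h
    simp only [one_mul]
    unfold Ph
    obtain ⟨e1, e2⟩ := Tl_H R l hl h
    constructor
    · rw [e1, lin_sum univ (fun k : Fin l.length => (-1) ^ (k : ℕ) * Wf Λ R (l.eraseIdx k)) _ _ _ √2 1
        fun k => by rw [(Tl_H R [l[k]] (hl1 k) h).1, one_mul]]
      ring
    · rw [e2, lin_sum univ (fun k : Fin l.length => (-1) ^ (k : ℕ) * Wf Λ R (l.eraseIdx k))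
        (fun k => Tl Λ R [l[k]] ((i + 1, j + 1), (i + 1, j)))
        (fun k => Tl Λ R [l[k]] ((i + 1, j), (i + 1, j))) _
        (-√2) (-1) fun k => by rw [(Tl_H R [l[k]] (hl1 k) h).2]; ring]
      ring
  · intro i j h
    simp only [one_mul]
    unfold Ph
    obtain ⟨e1, e2⟩ := Tl_H0 R l hl h
    constructor
    · rw [e1, sum_congr rfl fun k _ => by rw [(Tl_H0 R [l[k]] (hl1 k) h).1]]
    · rw [e2, sum_congr rfl fun k _ => by rw [(Tl_H0 R [l[k]] (hl1 k) h).2]]
      simp only [mul_neg, sum_neg_distrib]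
      ring

end

/-- The Wick rule. -/
theorem wick {N : ℕ} (R : Multiset Site) (c : Cn) (l : List Cn)
    (hl : ∀ c' ∈ c :: l, c'.1 ∈ cnr c'.2 ∧ c'.1 ∈ dia N) (hnd : (c :: l).Nodup) :
    Wf (dia N) R (c :: l) =
      ∑ j : Fin l.length, (-1) ^ (j : ℕ) * Wf (dia N) R [c, l[j]] *
        Wf (dia N) R (l.eraseIdx j) := by
  have hl' : ∀ c' ∈ l, c'.1 ∈ cnr c'.2 ∧ c'.1 ∈ dia N := fun c' h =>
    hl c' (List.mem_cons_of_mem _ h)
  have hc := hl c (List.mem_cons_self ..)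
  have hnd' := List.nodup_cons.1 hnd
  have h := (Ph_spr (dia N) R l hl' hnd'.2).unique (fun _ _ => rfl) c.2
  have h0 : Ph (dia N) R l c = 0 := by
    obtain ⟨v, f⟩ := c
    rcases mem_cnr.1 hc.1 with h1 | h1 | h1 | h1 <;> simp only at h1 <;> subst h1
    · exact h.1
    · exact h.2.1
    · exact h.2.2.1
    · exact h.2.2.2
  have hT : ∀ l' : List Cn, Tl (dia N) R l' c = (l'.map (ep c)).prod *
      (QQ (dia N) (c.2 ::ₘ (fcs l' + R)) (c.1 ::ₘ sps l') / QQ (dia N) R 0) := by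
    intro l'
    unfold Tl Xl
    rw [if_pos hc.2]
  have h1 : el l * Tl (dia N) R l c = Wf (dia N) R (c :: l) := by
    rw [hT]
    unfold Wf
    rw [fcs_cons, sps_cons, Multiset.cons_add]
    simp only [el]
    ring
  have h2 : ∀ j : Fin l.length, Tl (dia N) R [l[j]] c = Wf (dia N) R [c, l[j]] := by
    intro j
    rw [hT]
    unfold Wf
    rw [fcs_cons c, sps_cons c, Multiset.cons_add]
    simp only [el, List.map_nil, List.prod_nil, List.map_cons, List.prod_cons]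
    ring
  unfold Ph at h0
  rw [h1] at h0
  simp only [h2] at h0
  rw [sub_eq_zero.1 h0]
  exact sum_congr rfl fun j _ => by ring

end Vale.Agent.P144.AL
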